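import Crest.Agent.R035.Game

/-! A kernel-friendly checker for pattern certificates and its soundness. -/

set_option autoImplicit false

namespace Crest.Agent.R035
open Crest.CombinatoricsR.PolyominoGame

inductive Tr : Type
  | leaf (d R Z : ℕ) : Tr
  | node (l r : Tr) : Tr

inductive Rule : Type
  | base : Rule
  | sym (c : ℕ) (fx fy sw : Bool) (a b : ℕ) : Rule
  | step (mv : ℕ) (cs : List ℕ) : Rule

noncomputable def Tr.get {α : Type} (t : Tr) : ℕ → (ℕ → ℕ → ℕ → α) → α :=
  @Tr.rec (fun _ => ℕ → (ℕ → ℕ → ℕ → α) → α) (fun d R Z _ k => k d R Z)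
    (fun _ _ fl fr n k => @Bool.rec (fun _ => α) (fr (Nat.div n (nat_lit 2)) k)
      (fl (Nat.div n (nat_lit 2)) k) (Nat.beq (Nat.mod n (nat_lit 2)) (nat_lit 0))) t

theorem Tr.get_spec (t : Tr) : ∀ n : ℕ, ∃ d R Z : ℕ,
    ∀ (α : Type) (k : ℕ → ℕ → ℕ → α), t.get n k = k d R Z := by
  induction t with
  | leaf d R Z => exact fun n => ⟨d, R, Z, fun _ _ => rfl⟩
  | node l r ihl ihr =>
    intro n
    cases h : Nat.beq (Nat.mod n 2) 0
    · obtain ⟨d, R, Z, hh⟩ := ihr (Nat.div n 2)
      refine ⟨d, R, Z, fun α k => ?_⟩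
      rw [← hh α k]
      change @Bool.rec (fun _ => α) _ _ (Nat.beq (Nat.mod n 2) 0) = _
      rw [h]; rfl
    · obtain ⟨d, R, Z, hh⟩ := ihl (Nat.div n 2)
      refine ⟨d, R, Z, fun α k => ?_⟩
      rw [← hh α k]
      change @Bool.rec (fun _ => α) _ _ (Nat.beq (Nat.mod n 2) 0) = _
      rw [h]; rfl

noncomputable def band (a b : Bool) : Bool := @Bool.rec (fun _ => Bool) false b a

theorem band_true {a b : Bool} : band a b = true ↔ a = true ∧ b = true := by
  cases a <;> cases b <;> simp [band]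

noncomputable def sub (a b : ℕ) : Bool := Nat.beq (Nat.lor a b) b

theorem sub_spec {a b : ℕ} (h : sub a b = true) (i : ℕ) (hi : a.testBit i = true) :
    b.testBit i = true := by
  have h' : a ||| b = b := Nat.eq_of_beq_eq_true h
  rw [← h', Nat.testBit_or, hi, Bool.true_or]

noncomputable def tb (m i : ℕ) : Bool :=
  Nat.beq (Nat.land (nat_lit 1) (Nat.shiftRight m i)) (nat_lit 1)

theorem tb_spec {m i : ℕ} (h : tb m i = true) : m.testBit i = true := by
  have h' : 1 &&& (m >>> i) = 1 := Nat.eq_of_beq_eq_true h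
  simp only [Nat.testBit, h']
  rfl

noncomputable def allBits (p : ℕ → Bool) (fuel : ℕ) : ℕ → Bool :=
  @Nat.rec (fun _ => ℕ → Bool) (fun m => Nat.beq m (nat_lit 0))
    (fun _ ih m => @Bool.rec (fun _ => Bool)
      (band (p (Nat.log2 m)) (ih (Nat.xor m (Nat.pow (nat_lit 2) (Nat.log2 m))))) true
      (Nat.beq m (nat_lit 0))) fuel

theorem allBits_spec (p : ℕ → Bool) (fuel : ℕ) : ∀ m : ℕ, allBits p fuel m = true →
    ∀ i, m.testBit i = true → p i = true := by
  induction fuel with
  | zero =>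
    intro m h i hi
    have : m = 0 := Nat.eq_of_beq_eq_true h
    subst this
    simp at hi
  | succ n ih =>
    intro m h i hi
    change @Bool.rec (fun _ => Bool)
      (band (p (Nat.log2 m)) (allBits p n (m ^^^ 2 ^ (Nat.log2 m)))) true (Nat.beq m 0) = true at h
    cases h0 : Nat.beq m 0
    · rw [h0] at h
      obtain ⟨h1, h2⟩ := band_true.1 h
      by_cases hil : i = Nat.log2 m
      · rw [hil]; exact h1
      · refine ih _ h2 i ?_
        rw [Nat.testBit_xor, hi, Nat.testBit_two_pow_of_ne (Ne.symm hil)]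
        rfl
    · have : m = 0 := Nat.eq_of_beq_eq_true h0
      subst this
      simp at hi

noncomputable def go (t : Tr) (id d M Z : ℕ) (cs : List ℕ) : ℕ → Bool :=
  @List.rec ℕ (fun _ => ℕ → Bool) (fun acc => sub acc M)
    (fun c _ ih acc => t.get (Nat.div c (nat_lit 1024)) (fun dc Rc Zc =>
      band (Nat.ble (Nat.succ (Nat.div c (nat_lit 1024))) id) (band (Nat.ble (Nat.succ dc) d)
        (band (sub (Nat.shiftLeft Rc (Nat.mod c (nat_lit 1024))) M)
          (band (sub (Nat.shiftLeft Zc (Nat.mod c (nat_lit 1024))) Z)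
            (ih (Nat.land acc (Nat.shiftLeft Zc (Nat.mod c (nat_lit 1024)))))))))) cs

noncomputable def nonemp (cs : List ℕ) : Bool :=
  @List.rec ℕ (fun _ => Bool) false (fun _ _ _ => true) cs

noncomputable def chk (t : Tr) (id : ℕ) (r : Rule) : Bool :=
  t.get id (fun d R Z => @Rule.rec (fun _ => Bool)
    (band (Nat.beq R (nat_lit 103079215119)) (Nat.beq Z (nat_lit 103079215119)))
    (fun c fx fy sw a b => t.get c (fun dc Rc Zc =>
      band (Nat.ble (Nat.succ c) id) (band (Nat.ble dc d) (band (Nat.ble a (nat_lit 26))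
        (band (Nat.ble b (nat_lit 26))
          (band (allBits (fun i => band (Nat.ble (Nat.mod i (nat_lit 32)) a)
              (band (Nat.ble (Nat.div i (nat_lit 32)) b) (tb Z (smap fx fy sw a b i))))
              (nat_lit 800) Zc)
            (allBits (fun i => tb R (smap fx fy sw a b i)) (nat_lit 800) Rc)))))))
    (fun mv cs => band (tb Z mv) (band (nonemp cs) (band (Nat.ble (nat_lit 1) d)
      (go t id d (Nat.lor R (Nat.pow (nat_lit 2) mv)) Z cs Z)))) r)

noncomputable def checkFrom (t : Tr) (rs : List Rule) (m : ℕ) : ℕ → Bool :=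
  @List.rec Rule (fun _ => ℕ → Bool) (fun id => Nat.beq id m)
    (fun r _ ih id => band (chk t id r) (ih (Nat.succ id))) rs

def AllGood (t : Tr) (n : ℕ) : Prop := ∀ id < n, t.get id Good

theorem testBit_shift {m k i : ℕ} (h : m.testBit i = true) : (m <<< k).testBit (i + k) = true := by
  rw [Nat.testBit_shiftLeft]
  simp [h]

theorem testBit_shift' {m k j : ℕ} (h : (m <<< k).testBit j = true) :
    ∃ i, j = i + k ∧ m.testBit i = true := by
  rw [Nat.testBit_shiftLeft] at h
  simp only [ge_iff_le, Bool.and_eq_true, decide_eq_true_eq] at h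
  exact ⟨j - k, by omega, h.2⟩

theorem go_spec {t : Tr} {id d M Z : ℕ} (hall : AllGood t id) {φ : ℕ → Cell} (hφ : Adm Z φ)
    {M1 B : Finset Cell} {y : Cell} (hM : ∀ i, M.testBit i = true → φ i ∈ M1)
    (hB : ∀ i, Z.testBit i = true → φ i ∉ B) (hy : y ∉ M1) :
    ∀ (cs : List ℕ) (acc : ℕ), go t id (d + 1) M Z cs acc = true →
      (∀ i, Z.testBit i = true → φ i = y → acc.testBit i = true) →
      (nonemp cs = true ∨ ∃ i, Z.testBit i = true ∧ φ i = y) → Wn d M1 (insert y B) := by
  intro cs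
  induction cs with
  | nil =>
    intro acc h hinv hex
    rcases hex with hex | ⟨i, hi, hiy⟩
    · exact absurd hex (by decide)
    · exact absurd (hiy ▸ hM i (sub_spec h i (hinv i hi hiy))) hy
  | cons c cs ih =>
    intro acc h hinv _
    obtain ⟨dc, Rc, Zc, hget⟩ := t.get_spec (c / 1024)
    change t.get (c / 1024) (fun dc Rc Zc =>
      band (Nat.ble (Nat.succ (c / 1024)) id) (band (Nat.ble (Nat.succ dc) (d + 1))
        (band (sub (Rc <<< (c % 1024)) M) (band (sub (Zc <<< (c % 1024)) Z)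
          (go t id (d + 1) M Z cs (acc &&& (Zc <<< (c % 1024)))))))) = true at h
    rw [hget] at h
    simp only [band_true] at h
    obtain ⟨h1, h2, h3, h4, h5⟩ := h
    have h1' : c / 1024 < id := Nat.le_of_ble_eq_true h1
    have h2' : dc ≤ d := Nat.le_of_succ_le_succ (Nat.le_of_ble_eq_true h2)
    have hg : Good dc Rc Zc := by have := hall _ h1'; rwa [hget] at this
    by_cases hex : ∃ j, (Zc <<< (c % 1024)).testBit j = true ∧ φ j = y
    · obtain ⟨j, hj, hjy⟩ := hex
      have hjZ := sub_spec h4 j hj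
      refine ih _ h5 (fun i hi hiy => ?_) (Or.inr ⟨j, hjZ, hjy⟩)
      have hij : i = j := hφ.1 i j hi hjZ (hiy.trans hjy.symm)
      rw [Nat.testBit_and, hinv i hi hiy, hij, hj]
      rfl
    · have hadm : Adm Zc (fun i => φ (i + c % 1024)) :=
        hφ.shift fun i hi => sub_spec h4 _ (testBit_shift hi)
      refine Wn_mono h2' (hg _ hadm M1 _ (fun i hi => hM _ (sub_spec h3 _ (testBit_shift hi)))
        (fun i hi hmem => ?_))
      rcases Finset.mem_insert.1 hmem with hmem | hmem
      · exact hex ⟨_, testBit_shift hi, hmem⟩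
      · exact hB _ (sub_spec h4 _ (testBit_shift hi)) hmem

theorem good_base (d : ℕ) : Good d 103079215119 103079215119 := by
  intro φ hφ M B hM _
  refine Wn_mono (Nat.zero_le d) ?_
  have hb : ∀ p ∈ snakyN, Nat.testBit 103079215119 (0 + cellOf false false false p.1 p.2) = true := by
    decide
  exact hφ.2 false false false 0 hb _ (fun p hp => hM _ (hb p hp))

theorem chk_spec {t : Tr} {id : ℕ} (hall : AllGood t id) {r : Rule} (h : chk t id r = true) :
    t.get id Good := by
  obtain ⟨d, R, Z, hget⟩ := t.get_spec id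
  unfold chk at h
  rw [hget] at h ⊢
  cases r with
  | base =>
    obtain ⟨h1, h2⟩ := band_true.1 h
    rw [Nat.eq_of_beq_eq_true h1, Nat.eq_of_beq_eq_true h2]
    exact good_base d
  | sym c fx fy sw a b =>
    obtain ⟨dc, Rc, Zc, hgc⟩ := t.get_spec c
    simp only [hgc, band_true] at h
    obtain ⟨h1, h2, h3, h4, h5, h6⟩ := h
    have hg : Good dc Rc Zc := by
      have := hall c (Nat.le_of_ble_eq_true h1); rwa [hgc] at this
    intro φ hφ M B hM hB
    have hZ : ∀ i, Zc.testBit i = true →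
        i % 32 ≤ a ∧ i / 32 ≤ b ∧ Z.testBit (smap fx fy sw a b i) = true := by
      intro i hi
      have := allBits_spec _ _ _ h5 i hi
      simp only [band_true] at this
      exact ⟨Nat.le_of_ble_eq_true this.1, Nat.le_of_ble_eq_true this.2.1, tb_spec this.2.2⟩
    refine Wn_mono (Nat.le_of_ble_eq_true h2) (hg _
      (hφ.sym (Nat.le_of_ble_eq_true h3) (Nat.le_of_ble_eq_true h4) hZ) M B
      (fun i hi => hM _ (tb_spec (allBits_spec _ _ _ h6 i hi))) (fun i hi => hB _ (hZ i hi).2.2))
  | step mv cs =>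
    simp only [band_true] at h
    obtain ⟨h1, h2, h3, h4⟩ := h
    obtain ⟨e, rfl⟩ : ∃ e, d = e + 1 := ⟨d - 1, by have := Nat.le_of_ble_eq_true h3; omega⟩
    intro φ hφ M B hM hB
    obtain ⟨x, hx, hx', hmv⟩ : ∃ x, x ∉ M ∧ x ∉ B ∧ φ mv ∈ insert x M := by
      by_cases hm : φ mv ∈ M
      · obtain ⟨x, hx, hx'⟩ := exists_free M B
        exact ⟨x, hx, hx', Finset.mem_insert_of_mem hm⟩
      · exact ⟨φ mv, hm, hB _ (tb_spec h1), Finset.mem_insert_self _ _⟩
    refine ⟨x, hx, hx', fun y hy _ => ?_⟩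
    refine go_spec hall hφ (M := R ||| 2 ^ mv) (fun i hi => ?_) hB hy cs Z h4
      (fun i hi _ => hi) (Or.inl h2)
    rw [Nat.testBit_or, Bool.or_eq_true] at hi
    rcases hi with hi | hi
    · exact Finset.mem_insert_of_mem (hM i hi)
    · rw [Nat.testBit_two_pow, decide_eq_true_eq] at hi
      rw [← hi]; exact hmv

theorem checkFrom_spec {t : Tr} {m : ℕ} : ∀ (rs : List Rule) (n : ℕ), AllGood t n →
    checkFrom t rs m n = true → AllGood t m := by
  intro rs
  induction rs with
  | nil => intro n hn h; rwa [← Nat.eq_of_beq_eq_true h]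
  | cons r rs ih =>
    intro n hn h
    obtain ⟨h1, h2⟩ := band_true.1 h
    refine ih (n + 1) (fun id hid => ?_) h2
    rcases Nat.lt_succ_iff_lt_or_eq.1 hid with hid | rfl
    · exact hn id hid
    · exact chk_spec hn h1

theorem allGood_zero (t : Tr) : AllGood t 0 := fun _ h => absurd h (Nat.not_lt_zero _)

noncomputable def rootChk (t : Tr) (id : ℕ) : Bool :=
  t.get id (fun d R Z => band (Nat.beq d (nat_lit 21)) (band (Nat.beq R (nat_lit 0))
    (allBits (fun i => Nat.ble (Nat.mod i (nat_lit 32)) (nat_lit 26)) (nat_lit 800) Z)))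

theorem root_spec {t : Tr} {id : ℕ} (hall : AllGood t (id + 1)) (h : rootChk t id = true) :
    Wn 21 ∅ ∅ := by
  obtain ⟨d, R, Z, hget⟩ := t.get_spec id
  have hg := hall id (Nat.lt_succ_self _)
  unfold rootChk at h
  rw [hget] at h hg
  simp only [band_true] at h
  obtain ⟨h1, h2, h3⟩ := h
  rw [Nat.eq_of_beq_eq_true h1, Nat.eq_of_beq_eq_true h2] at hg
  refine hg _ (adm_root fun i hi => Nat.le_of_ble_eq_true (allBits_spec _ _ _ h3 i hi)) ∅ ∅
    (fun i hi => by simp at hi) (fun i _ => Finset.notMem_empty _)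

end Crest.Agent.R035
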