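import Crest.Agent.R035.Table

set_option autoImplicit false
set_option maxRecDepth 100000

namespace Crest.Agent.R035

noncomputable def r0 : List Rule := [
 .base,
 .sym (nat_lit 0) false false true (nat_lit 4) (nat_lit 1),
 .sym (nat_lit 0) true true false (nat_lit 4) (nat_lit 1),
 .sym (nat_lit 0) false true false (nat_lit 4) (nat_lit 1),
 .sym (nat_lit 0) true false false (nat_lit 4) (nat_lit 1),
 .step (nat_lit 129) [nat_lit 1024],
 .sym (nat_lit 5) false false true (nat_lit 1) (nat_lit 4),
 .sym (nat_lit 5) true false true (nat_lit 1) (nat_lit 4),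
 .sym (nat_lit 5) false true true (nat_lit 1) (nat_lit 4),
 .sym (nat_lit 5) true true true (nat_lit 1) (nat_lit 4),
 .sym (nat_lit 5) false true false (nat_lit 1) (nat_lit 4),
 .sym (nat_lit 5) true true false (nat_lit 1) (nat_lit 4),
 .sym (nat_lit 5) true false false (nat_lit 1) (nat_lit 4),
 .step (nat_lit 33) [nat_lit 4096],
 .sym (nat_lit 13) false false true (nat_lit 4) (nat_lit 1),
 .sym (nat_lit 13) true true true (nat_lit 4) (nat_lit 1),
 .sym (nat_lit 13) true false false (nat_lit 4) (nat_lit 1),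
 .sym (nat_lit 13) false true true (nat_lit 4) (nat_lit 1),
 .sym (nat_lit 13) true false true (nat_lit 4) (nat_lit 1),
 .sym (nat_lit 13) true true false (nat_lit 4) (nat_lit 1),
 .sym (nat_lit 13) false true false (nat_lit 4) (nat_lit 1),
 .step (nat_lit 32) [nat_lit 3072],
 .sym (nat_lit 21) true true true (nat_lit 4) (nat_lit 1),
 .sym (nat_lit 21) false true true (nat_lit 4) (nat_lit 1),
 .sym (nat_lit 21) true false false (nat_lit 4) (nat_lit 1),
 .sym (nat_lit 21) false true false (nat_lit 4) (nat_lit 1),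
 .sym (nat_lit 21) true true false (nat_lit 4) (nat_lit 1),
 .sym (nat_lit 21) true false true (nat_lit 4) (nat_lit 1),
 .sym (nat_lit 21) false false true (nat_lit 4) (nat_lit 1),
 .step (nat_lit 33) [nat_lit 2048],
 .sym (nat_lit 29) false true true (nat_lit 4) (nat_lit 1),
 .sym (nat_lit 29) true true false (nat_lit 4) (nat_lit 1),
 .sym (nat_lit 29) true false false (nat_lit 4) (nat_lit 1),
 .sym (nat_lit 29) true false true (nat_lit 4) (nat_lit 1),
 .sym (nat_lit 29) false false true (nat_lit 4) (nat_lit 1),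
 .sym (nat_lit 29) false true false (nat_lit 4) (nat_lit 1),
 .sym (nat_lit 29) true true true (nat_lit 4) (nat_lit 1),
 .step (nat_lit 2) [nat_lit 0],
 .sym (nat_lit 37) true false false (nat_lit 4) (nat_lit 1),
 .sym (nat_lit 37) true true false (nat_lit 4) (nat_lit 1),
 .sym (nat_lit 37) false false true (nat_lit 4) (nat_lit 1),
 .sym (nat_lit 37) false true false (nat_lit 4) (nat_lit 1),
 .sym (nat_lit 37) false true true (nat_lit 4) (nat_lit 1),
 .sym (nat_lit 37) true true true (nat_lit 4) (nat_lit 1),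
 .sym (nat_lit 37) true false true (nat_lit 4) (nat_lit 1),
 .step (nat_lit 32) [nat_lit 1024],
 .sym (nat_lit 45) false true true (nat_lit 1) (nat_lit 4),
 .sym (nat_lit 45) false false true (nat_lit 1) (nat_lit 4),
 .sym (nat_lit 45) true false true (nat_lit 1) (nat_lit 4),
 .sym (nat_lit 45) true false false (nat_lit 1) (nat_lit 4),
 .sym (nat_lit 45) true true true (nat_lit 1) (nat_lit 4),
 .sym (nat_lit 45) false true false (nat_lit 1) (nat_lit 4),
 .sym (nat_lit 45) true true false (nat_lit 1) (nat_lit 4),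
 .step (nat_lit 129) [nat_lit 5152, nat_lit 18432],
 .sym (nat_lit 53) true true true (nat_lit 1) (nat_lit 5),
 .sym (nat_lit 53) true false true (nat_lit 1) (nat_lit 5),
 .sym (nat_lit 53) false false true (nat_lit 1) (nat_lit 5),
 .sym (nat_lit 53) false true false (nat_lit 1) (nat_lit 5),
 .sym (nat_lit 53) true true false (nat_lit 1) (nat_lit 5),
 .sym (nat_lit 53) false true true (nat_lit 1) (nat_lit 5),
 .sym (nat_lit 53) true false false (nat_lit 1) (nat_lit 5),
 .step (nat_lit 97) [nat_lit 5121, nat_lit 12288],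
 .step (nat_lit 36) [nat_lit 6145, nat_lit 25600],
 .sym (nat_lit 62) true true true (nat_lit 5) (nat_lit 1),
 .sym (nat_lit 62) false true true (nat_lit 5) (nat_lit 1),
 .sym (nat_lit 62) false true false (nat_lit 5) (nat_lit 1),
 .sym (nat_lit 62) true false false (nat_lit 5) (nat_lit 1),
 .sym (nat_lit 62) true false true (nat_lit 5) (nat_lit 1),
 .sym (nat_lit 62) false false true (nat_lit 5) (nat_lit 1),
 .sym (nat_lit 62) true true false (nat_lit 5) (nat_lit 1),
 .step (nat_lit 128) [nat_lit 5152, nat_lit 14336],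
 .step (nat_lit 32) [nat_lit 23552, nat_lit 27680],
 .sym (nat_lit 71) false true false (nat_lit 1) (nat_lit 5),
 .sym (nat_lit 71) true false false (nat_lit 1) (nat_lit 5),
 .sym (nat_lit 71) false true true (nat_lit 1) (nat_lit 5),
 .sym (nat_lit 71) true true true (nat_lit 1) (nat_lit 5),
 .sym (nat_lit 71) true true false (nat_lit 1) (nat_lit 5),
 .sym (nat_lit 71) true false true (nat_lit 1) (nat_lit 5),
 .sym (nat_lit 71) false false true (nat_lit 1) (nat_lit 5),
 .step (nat_lit 129) [nat_lit 27680, nat_lit 36864],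
 .sym (nat_lit 79) false true true (nat_lit 1) (nat_lit 5),
 .sym (nat_lit 79) false true false (nat_lit 1) (nat_lit 5),
 .sym (nat_lit 79) true true false (nat_lit 1) (nat_lit 5),
 .sym (nat_lit 79) true false false (nat_lit 1) (nat_lit 5),
 .sym (nat_lit 79) true false true (nat_lit 1) (nat_lit 5),
 .sym (nat_lit 79) false false true (nat_lit 1) (nat_lit 5),
 .step (nat_lit 33) [nat_lit 21504, nat_lit 32769],
 .sym (nat_lit 86) false false true (nat_lit 5) (nat_lit 1),
 .sym (nat_lit 86) true false false (nat_lit 5) (nat_lit 1),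
 .sym (nat_lit 86) true true true (nat_lit 5) (nat_lit 1),
 .sym (nat_lit 86) true false true (nat_lit 5) (nat_lit 1),
 .sym (nat_lit 86) false true false (nat_lit 5) (nat_lit 1),
 .step (nat_lit 36) [nat_lit 9216, nat_lit 24577],
 .sym (nat_lit 92) false true false (nat_lit 5) (nat_lit 1),
 .sym (nat_lit 92) true true false (nat_lit 5) (nat_lit 1),
 .sym (nat_lit 92) true true true (nat_lit 5) (nat_lit 1),
 .sym (nat_lit 92) false true true (nat_lit 5) (nat_lit 1),
 .sym (nat_lit 92) true false false (nat_lit 5) (nat_lit 1),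
 .sym (nat_lit 92) false false true (nat_lit 5) (nat_lit 1),
 .sym (nat_lit 92) true false true (nat_lit 5) (nat_lit 1),
 .step (nat_lit 32) [nat_lit 16416, nat_lit 19456],
 .sym (nat_lit 100) true true true (nat_lit 4) (nat_lit 2),
 .sym (nat_lit 100) false false true (nat_lit 4) (nat_lit 2),
 .sym (nat_lit 100) true true false (nat_lit 4) (nat_lit 2),
 .step (nat_lit 129) [nat_lit 8288, nat_lit 14337],
 .sym (nat_lit 104) true true true (nat_lit 4) (nat_lit 4),
 .sym (nat_lit 104) false false true (nat_lit 4) (nat_lit 4),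
 .step (nat_lit 129) [nat_lit 36864, nat_lit 34816],
 .sym (nat_lit 107) true false false (nat_lit 1) (nat_lit 4),
 .sym (nat_lit 107) false true true (nat_lit 1) (nat_lit 4),
 .sym (nat_lit 107) false false true (nat_lit 1) (nat_lit 4),
 .step (nat_lit 35) [nat_lit 7200, nat_lit 27650],
 .step (nat_lit 97) [nat_lit 10241, nat_lit 11264],
 .sym (nat_lit 112) true false true (nat_lit 2) (nat_lit 4),
 .step (nat_lit 100) [nat_lit 5123, nat_lit 25664],
 .sym (nat_lit 114) false false true (nat_lit 4) (nat_lit 4),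
 .sym (nat_lit 114) true true false (nat_lit 4) (nat_lit 4),
 .sym (nat_lit 114) true false true (nat_lit 4) (nat_lit 4),
 .sym (nat_lit 114) true true true (nat_lit 4) (nat_lit 4),
 .sym (nat_lit 114) false true true (nat_lit 4) (nat_lit 4),
 .sym (nat_lit 114) true false false (nat_lit 4) (nat_lit 4),
 .step (nat_lit 97) [nat_lit 22624, nat_lit 23552],
 .sym (nat_lit 121) true false true (nat_lit 1) (nat_lit 7),
 .sym (nat_lit 121) false false true (nat_lit 1) (nat_lit 7),
 .step (nat_lit 1) [nat_lit 12288, nat_lit 5121],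
 .sym (nat_lit 124) true true false (nat_lit 2) (nat_lit 4),
 .sym (nat_lit 124) false false true (nat_lit 2) (nat_lit 4),
 .sym (nat_lit 124) true true true (nat_lit 2) (nat_lit 4),
 .step (nat_lit 33) [nat_lit 43008, nat_lit 30720],
 .sym (nat_lit 128) false true false (nat_lit 1) (nat_lit 4),
 .step (nat_lit 32) [nat_lit 41984, nat_lit 38912],
 .sym (nat_lit 130) true false true (nat_lit 4) (nat_lit 1),
 .sym (nat_lit 130) true false false (nat_lit 4) (nat_lit 1),
 .sym (nat_lit 130) true true true (nat_lit 4) (nat_lit 1),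
 .sym (nat_lit 130) true true false (nat_lit 4) (nat_lit 1),
 .sym (nat_lit 130) false true false (nat_lit 4) (nat_lit 1),
 .sym (nat_lit 130) false true true (nat_lit 4) (nat_lit 1),
 .sym (nat_lit 130) false false true (nat_lit 4) (nat_lit 1),
 .step (nat_lit 34) [nat_lit 6176, nat_lit 7168],
 .sym (nat_lit 138) false false true (nat_lit 4) (nat_lit 2),
 .sym (nat_lit 138) true true true (nat_lit 4) (nat_lit 2),
 .sym (nat_lit 138) true false false (nat_lit 4) (nat_lit 2),
 .step (nat_lit 65) [nat_lit 9280, nat_lit 30721],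
 .sym (nat_lit 142) true false true (nat_lit 4) (nat_lit 4),
 .sym (nat_lit 142) false true true (nat_lit 4) (nat_lit 4),
 .step (nat_lit 99) [nat_lit 6208, nat_lit 27650],
 .sym (nat_lit 145) true true true (nat_lit 4) (nat_lit 4),
 .sym (nat_lit 145) true true false (nat_lit 4) (nat_lit 4),
 .sym (nat_lit 145) true false false (nat_lit 4) (nat_lit 4),
 .step (nat_lit 64) [nat_lit 5152, nat_lit 23552],
 .sym (nat_lit 149) true false false (nat_lit 1) (nat_lit 5),
 .sym (nat_lit 149) true false true (nat_lit 1) (nat_lit 5),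
 .sym (nat_lit 149) true true true (nat_lit 1) (nat_lit 5),
 .sym (nat_lit 149) true true false (nat_lit 1) (nat_lit 5),
 .sym (nat_lit 149) false true true (nat_lit 1) (nat_lit 5),
 .sym (nat_lit 149) false false true (nat_lit 1) (nat_lit 5),
 .step (nat_lit 96) [nat_lit 27712, nat_lit 23552],
 .sym (nat_lit 156) true false false (nat_lit 1) (nat_lit 6),
 .sym (nat_lit 156) false true true (nat_lit 1) (nat_lit 6),
 .sym (nat_lit 156) false false true (nat_lit 1) (nat_lit 6),
 .step (nat_lit 34) [nat_lit 21504, nat_lit 22530],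
 .step (nat_lit 129) [nat_lit 11264, nat_lit 22561],
 .sym (nat_lit 161) true false false (nat_lit 2) (nat_lit 5),
 .sym (nat_lit 161) false true true (nat_lit 2) (nat_lit 5),
 .sym (nat_lit 161) true true false (nat_lit 2) (nat_lit 5),
 .sym (nat_lit 161) true false true (nat_lit 2) (nat_lit 5),
 .sym (nat_lit 161) false false true (nat_lit 2) (nat_lit 5),
 .sym (nat_lit 161) true true true (nat_lit 2) (nat_lit 5),
 .step (nat_lit 36) [nat_lit 10243, nat_lit 42016],
 .sym (nat_lit 168) true true true (nat_lit 4) (nat_lit 4),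
 .sym (nat_lit 168) false true false (nat_lit 4) (nat_lit 4),
 .sym (nat_lit 168) true true false (nat_lit 4) (nat_lit 4),
 .sym (nat_lit 168) true false true (nat_lit 4) (nat_lit 4),
 .sym (nat_lit 168) false false true (nat_lit 4) (nat_lit 4),
 .sym (nat_lit 168) false true true (nat_lit 4) (nat_lit 4),
 .sym (nat_lit 168) true false false (nat_lit 4) (nat_lit 4),
 .step (nat_lit 98) [nat_lit 9280, nat_lit 23553],
 .sym (nat_lit 176) false true true (nat_lit 4) (nat_lit 4),
 .step (nat_lit 33) [nat_lit 25632, nat_lit 45057],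
 .step (nat_lit 65) [nat_lit 9280, nat_lit 23553],
 .sym (nat_lit 179) false true false (nat_lit 4) (nat_lit 4),
 .sym (nat_lit 179) true false false (nat_lit 4) (nat_lit 4),
 .sym (nat_lit 179) true true true (nat_lit 4) (nat_lit 4),
 .sym (nat_lit 179) true true false (nat_lit 4) (nat_lit 4),
 .step (nat_lit 3) [nat_lit 6144, nat_lit 26624],
 .sym (nat_lit 184) true false false (nat_lit 4) (nat_lit 1),
 .sym (nat_lit 184) false false true (nat_lit 4) (nat_lit 1),
 .step (nat_lit 97) [nat_lit 5121, nat_lit 8256],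
 .sym (nat_lit 187) true false true (nat_lit 4) (nat_lit 4),
 .sym (nat_lit 187) true true false (nat_lit 4) (nat_lit 4),
 .step (nat_lit 32) [nat_lit 11264, nat_lit 51232],
 .sym (nat_lit 190) false false true (nat_lit 4) (nat_lit 4),
 .sym (nat_lit 190) false true false (nat_lit 4) (nat_lit 4),
 .sym (nat_lit 190) true false false (nat_lit 4) (nat_lit 4),
 .sym (nat_lit 190) false true true (nat_lit 4) (nat_lit 4),
 .sym (nat_lit 190) true true true (nat_lit 4) (nat_lit 4),
 .step (nat_lit 97) [nat_lit 5121, nat_lit 27648],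
 .sym (nat_lit 196) true true false (nat_lit 2) (nat_lit 4),
 .step (nat_lit 36) [nat_lit 6145, nat_lit 47136],
 .step (nat_lit 99) [nat_lit 6240, nat_lit 23554],
 .sym (nat_lit 199) false false true (nat_lit 4) (nat_lit 4),
 .step (nat_lit 36) [nat_lit 10243, nat_lit 8224],
 .sym (nat_lit 201) false false true (nat_lit 4) (nat_lit 4),
 .sym (nat_lit 201) true true false (nat_lit 4) (nat_lit 4),
 .step (nat_lit 33) [nat_lit 6177, nat_lit 9216],
 .sym (nat_lit 204) true false true (nat_lit 5) (nat_lit 2),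
 .sym (nat_lit 204) false false true (nat_lit 5) (nat_lit 2),
 .step (nat_lit 4) [nat_lit 21504, nat_lit 32769],
 .sym (nat_lit 207) true false true (nat_lit 5) (nat_lit 1),
 .sym (nat_lit 207) true true true (nat_lit 5) (nat_lit 1),
 .step (nat_lit 33) [nat_lit 22560, nat_lit 33792],
 .step (nat_lit 96) [nat_lit 33792, nat_lit 30720],
 .sym (nat_lit 211) false true false (nat_lit 1) (nat_lit 4),
 .sym (nat_lit 211) true true false (nat_lit 1) (nat_lit 4),
 .sym (nat_lit 211) true false false (nat_lit 1) (nat_lit 4),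
 .sym (nat_lit 211) false false true (nat_lit 1) (nat_lit 4),
 .sym (nat_lit 211) false true true (nat_lit 1) (nat_lit 4),
 .sym (nat_lit 211) true true true (nat_lit 1) (nat_lit 4),
 .step (nat_lit 96) [nat_lit 22560, nat_lit 30720],
 .sym (nat_lit 218) false true false (nat_lit 1) (nat_lit 5),
 .sym (nat_lit 218) true true false (nat_lit 1) (nat_lit 5),
 .sym (nat_lit 218) true false false (nat_lit 1) (nat_lit 5),
 .sym (nat_lit 218) false false true (nat_lit 1) (nat_lit 5),
 .sym (nat_lit 218) false true true (nat_lit 1) (nat_lit 5),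
 .step (nat_lit 35) [nat_lit 24577, nat_lit 25600],
 .sym (nat_lit 224) false false true (nat_lit 5) (nat_lit 1),
 .step (nat_lit 35) [nat_lit 21536, nat_lit 39936],
 .step (nat_lit 36) [nat_lit 10243, nat_lit 38944],
 .sym (nat_lit 227) true false true (nat_lit 4) (nat_lit 4),
 .sym (nat_lit 227) false true true (nat_lit 4) (nat_lit 4),
 .sym (nat_lit 227) false false true (nat_lit 4) (nat_lit 4),
 .sym (nat_lit 227) true true false (nat_lit 4) (nat_lit 4),
 .step (nat_lit 35) [nat_lit 21505, nat_lit 21536],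
 .step (nat_lit 65) [nat_lit 12288, nat_lit 27648],
 .sym (nat_lit 233) true false true (nat_lit 1) (nat_lit 4),
 .sym (nat_lit 233) false false true (nat_lit 1) (nat_lit 4),
 .sym (nat_lit 233) true false false (nat_lit 1) (nat_lit 4),
 .sym (nat_lit 233) true true false (nat_lit 1) (nat_lit 4),
 .sym (nat_lit 233) true true true (nat_lit 1) (nat_lit 4),
 .sym (nat_lit 233) false true true (nat_lit 1) (nat_lit 4),
 .step (nat_lit 35) [nat_lit 7168, nat_lit 12290],
 .sym (nat_lit 240) true true true (nat_lit 4) (nat_lit 4),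
 .step (nat_lit 32) [nat_lit 41984, nat_lit 35840],
 .step (nat_lit 32) [nat_lit 7168, nat_lit 11264],
 .sym (nat_lit 243) true true true (nat_lit 4) (nat_lit 4),
 .sym (nat_lit 243) true true false (nat_lit 4) (nat_lit 4),
 .sym (nat_lit 243) true false true (nat_lit 4) (nat_lit 4),
 .step (nat_lit 33) [nat_lit 20480, nat_lit 13344],
 .sym (nat_lit 247) true true true (nat_lit 4) (nat_lit 2),
 .step (nat_lit 67) [nat_lit 12290, nat_lit 6176]]

theorem c0 : checkFrom tbl r0 (nat_lit 250) (nat_lit 0) = true := by decide +kernel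

noncomputable def r2000 : List Rule := [
 .step (nat_lit 97) [nat_lit 510016, nat_lit 183296],
 .step (nat_lit 163) [nat_lit 12354, nat_lit 1087488],
 .step (nat_lit 33) [nat_lit 49153, nat_lit 1089536],
 .step (nat_lit 32) [nat_lit 11264, nat_lit 1094656],
 .step (nat_lit 36) [nat_lit 24578, nat_lit 468000],
 .step (nat_lit 132) [nat_lit 37984, nat_lit 1070080],
 .sym (nat_lit 2005) false true false (nat_lit 4) (nat_lit 5),
 .step (nat_lit 131) [nat_lit 573440, nat_lit 570400],
 .step (nat_lit 35) [nat_lit 26656, nat_lit 1100800],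
 .step (nat_lit 32) [nat_lit 37920, nat_lit 874496],
 .step (nat_lit 64) [nat_lit 46080, nat_lit 614464],
 .step (nat_lit 161) [nat_lit 461889, nat_lit 643072],
 .step (nat_lit 98) [nat_lit 24640, nat_lit 1105921],
 .step (nat_lit 67) [nat_lit 9282, nat_lit 1108992],
 .step (nat_lit 68) [nat_lit 18468, nat_lit 565248],
 .step (nat_lit 98) [nat_lit 494594, nat_lit 521280],
 .sym (nat_lit 2015) true true false (nat_lit 6) (nat_lit 6),
 .sym (nat_lit 2015) false true true (nat_lit 6) (nat_lit 6),
 .sym (nat_lit 2015) true false false (nat_lit 6) (nat_lit 6),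
 .sym (nat_lit 2015) true false true (nat_lit 6) (nat_lit 6),
 .step (nat_lit 68) [nat_lit 9248, nat_lit 752641],
 .step (nat_lit 66) [nat_lit 26688, nat_lit 616448],
 .sym (nat_lit 2021) false true false (nat_lit 4) (nat_lit 5),
 .step (nat_lit 100) [nat_lit 7265, nat_lit 1111040],
 .step (nat_lit 36) [nat_lit 10243, nat_lit 1115168],
 .step (nat_lit 35) [nat_lit 12322, nat_lit 855040],
 .sym (nat_lit 2025) true true false (nat_lit 4) (nat_lit 5),
 .step (nat_lit 65) [nat_lit 6209, nat_lit 539648],
 .step (nat_lit 65) [nat_lit 5121, nat_lit 775168],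
 .step (nat_lit 2) [nat_lit 44034, nat_lit 574464],
 .step (nat_lit 131) [nat_lit 526338, nat_lit 489568],
 .sym (nat_lit 2030) true true false (nat_lit 6) (nat_lit 6),
 .sym (nat_lit 2030) false true true (nat_lit 6) (nat_lit 6),
 .sym (nat_lit 2030) true false false (nat_lit 6) (nat_lit 6),
 .sym (nat_lit 2030) false true false (nat_lit 6) (nat_lit 6),
 .sym (nat_lit 2030) true true true (nat_lit 6) (nat_lit 6),
 .step (nat_lit 65) [nat_lit 8224, nat_lit 1117184],
 .sym (nat_lit 2036) true false false (nat_lit 4) (nat_lit 4),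
 .step (nat_lit 97) [nat_lit 8288, nat_lit 1122304],
 .step (nat_lit 129) [nat_lit 12321, nat_lit 968704],
 .step (nat_lit 66) [nat_lit 6209, nat_lit 562176],
 .step (nat_lit 97) [nat_lit 9312, nat_lit 1046529],
 .step (nat_lit 33) [nat_lit 26624, nat_lit 992257],
 .step (nat_lit 65) [nat_lit 9280, nat_lit 560129],
 .step (nat_lit 129) [nat_lit 17408, nat_lit 571424],
 .step (nat_lit 33) [nat_lit 11265, nat_lit 1125408],
 .step (nat_lit 34) [nat_lit 21504, nat_lit 464930],
 .step (nat_lit 66) [nat_lit 21536, nat_lit 805888],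
 .sym (nat_lit 2047) true true true (nat_lit 5) (nat_lit 4),
 .step (nat_lit 33) [nat_lit 9248, nat_lit 1132544],
 .sym (nat_lit 2049) true true true (nat_lit 5) (nat_lit 4),
 .sym (nat_lit 2049) true false false (nat_lit 5) (nat_lit 4),
 .sym (nat_lit 2049) false true false (nat_lit 5) (nat_lit 4),
 .step (nat_lit 132) [nat_lit 13440, nat_lit 914433],
 .step (nat_lit 67) [nat_lit 27650, nat_lit 1073152],
 .sym (nat_lit 2054) true false false (nat_lit 4) (nat_lit 4),
 .step (nat_lit 100) [nat_lit 27651, nat_lit 1133568],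
 .step (nat_lit 67) [nat_lit 46083, nat_lit 1134656],
 .step (nat_lit 132) [nat_lit 53251, nat_lit 745568],
 .step (nat_lit 65) [nat_lit 28672, nat_lit 1082400],
 .step (nat_lit 68) [nat_lit 16416, nat_lit 1135617],
 .sym (nat_lit 2060) true false true (nat_lit 6) (nat_lit 2),
 .sym (nat_lit 2060) false false true (nat_lit 6) (nat_lit 2),
 .step (nat_lit 130) [nat_lit 36865, nat_lit 1138688],
 .step (nat_lit 193) [nat_lit 27744, nat_lit 1141760],
 .step (nat_lit 97) [nat_lit 9280, nat_lit 1002497],
 .step (nat_lit 98) [nat_lit 24640, nat_lit 496641],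
 .sym (nat_lit 2066) true true false (nat_lit 4) (nat_lit 6),
 .step (nat_lit 34) [nat_lit 49152, nat_lit 1291266],
 .step (nat_lit 131) [nat_lit 44034, nat_lit 531552],
 .step (nat_lit 100) [nat_lit 185345, nat_lit 574464],
 .step (nat_lit 98) [nat_lit 486402, nat_lit 658496],
 .sym (nat_lit 2071) false true true (nat_lit 6) (nat_lit 6),
 .sym (nat_lit 2071) true false true (nat_lit 6) (nat_lit 6),
 .sym (nat_lit 2071) true true true (nat_lit 6) (nat_lit 6),
 .sym (nat_lit 2071) false false true (nat_lit 6) (nat_lit 6),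
 .step (nat_lit 34) [nat_lit 11266, nat_lit 818208],
 .sym (nat_lit 2076) true true true (nat_lit 5) (nat_lit 5),
 .step (nat_lit 1) [nat_lit 52224, nat_lit 738304],
 .step (nat_lit 35) [nat_lit 53251, nat_lit 704512],
 .step (nat_lit 98) [nat_lit 23553, nat_lit 707648],
 .sym (nat_lit 2080) true true false (nat_lit 5) (nat_lit 4),
 .step (nat_lit 34) [nat_lit 39937, nat_lit 574464],
 .step (nat_lit 34) [nat_lit 29696, nat_lit 656386],
 .step (nat_lit 34) [nat_lit 29696, nat_lit 657409],
 .step (nat_lit 33) [nat_lit 5121, nat_lit 644096],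
 .sym (nat_lit 2085) true true false (nat_lit 4) (nat_lit 5),
 .step (nat_lit 67) [nat_lit 9248, nat_lit 785408],
 .sym (nat_lit 2087) false false true (nat_lit 5) (nat_lit 4),
 .step (nat_lit 130) [nat_lit 46081, nat_lit 707648],
 .sym (nat_lit 2089) true true false (nat_lit 5) (nat_lit 4),
 .step (nat_lit 129) [nat_lit 8288, nat_lit 851969],
 .sym (nat_lit 2091) false true true (nat_lit 6) (nat_lit 4),
 .sym (nat_lit 2091) false true false (nat_lit 6) (nat_lit 4),
 .step (nat_lit 160) [nat_lit 26752, nat_lit 1095680],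
 .step (nat_lit 65) [nat_lit 6209, nat_lit 671744],
 .step (nat_lit 34) [nat_lit 29696, nat_lit 669698],
 .step (nat_lit 68) [nat_lit 23556, nat_lit 553024],
 .step (nat_lit 68) [nat_lit 9248, nat_lit 891904],
 .step (nat_lit 65) [nat_lit 11264, nat_lit 1006593],
 .step (nat_lit 36) [nat_lit 24577, nat_lit 1079296],
 .step (nat_lit 128) [nat_lit 10240, nat_lit 1148960],
 .step (nat_lit 37) [nat_lit 42017, nat_lit 950272],
 .step (nat_lit 4) [nat_lit 19456, nat_lit 1149953],
 .step (nat_lit 98) [nat_lit 5121, nat_lit 875520],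
 .step (nat_lit 65) [nat_lit 39968, nat_lit 1188864],
 .step (nat_lit 100) [nat_lit 7265, nat_lit 878592],
 .step (nat_lit 99) [nat_lit 24640, nat_lit 486402],
 .step (nat_lit 99) [nat_lit 6208, nat_lit 464898],
 .step (nat_lit 97) [nat_lit 8288, nat_lit 558080],
 .step (nat_lit 100) [nat_lit 13408, nat_lit 1156096],
 .step (nat_lit 98) [nat_lit 656386, nat_lit 513120],
 .step (nat_lit 98) [nat_lit 9280, nat_lit 1157120],
 .step (nat_lit 35) [nat_lit 37920, nat_lit 803842],
 .step (nat_lit 192) [nat_lit 10304, nat_lit 551936],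
 .step (nat_lit 130) [nat_lit 12321, nat_lit 786432],
 .step (nat_lit 33) [nat_lit 5121, nat_lit 917504],
 .step (nat_lit 129) [nat_lit 22624, nat_lit 493569],
 .step (nat_lit 99) [nat_lit 27650, nat_lit 1163264],
 .step (nat_lit 100) [nat_lit 5123, nat_lit 874496],
 .step (nat_lit 69) [nat_lit 30725, nat_lit 465984],
 .step (nat_lit 34) [nat_lit 29696, nat_lit 475170],
 .step (nat_lit 129) [nat_lit 493569, nat_lit 356448],
 .step (nat_lit 97) [nat_lit 7233, nat_lit 1142784],
 .step (nat_lit 97) [nat_lit 20577, nat_lit 1164288],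
 .step (nat_lit 129) [nat_lit 7265, nat_lit 1059840],
 .step (nat_lit 131) [nat_lit 487520, nat_lit 683011],
 .step (nat_lit 96) [nat_lit 40032, nat_lit 656384],
 .step (nat_lit 97) [nat_lit 11264, nat_lit 508928],
 .sym (nat_lit 2128) false false true (nat_lit 2) (nat_lit 5),
 .sym (nat_lit 2128) true true false (nat_lit 2) (nat_lit 5),
 .step (nat_lit 97) [nat_lit 6241, nat_lit 527360],
 .sym (nat_lit 2131) true true false (nat_lit 5) (nat_lit 5),
 .step (nat_lit 98) [nat_lit 5121, nat_lit 951360],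
 .step (nat_lit 36) [nat_lit 22531, nat_lit 706560],
 .step (nat_lit 65) [nat_lit 519168, nat_lit 520192, nat_lit 266304],
 .step (nat_lit 66) [nat_lit 9248, nat_lit 785408],
 .sym (nat_lit 2136) true false false (nat_lit 5) (nat_lit 4),
 .sym (nat_lit 2136) true true false (nat_lit 5) (nat_lit 4),
 .step (nat_lit 34) [nat_lit 11266, nat_lit 977952],
 .sym (nat_lit 2139) true false true (nat_lit 6) (nat_lit 4),
 .step (nat_lit 97) [nat_lit 20577, nat_lit 1169408],
 .step (nat_lit 129) [nat_lit 8320, nat_lit 1121280],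
 .step (nat_lit 130) [nat_lit 28674, nat_lit 829472],
 .step (nat_lit 35) [nat_lit 35842, nat_lit 821280],
 .step (nat_lit 131) [nat_lit 14339, nat_lit 1171456],
 .step (nat_lit 97) [nat_lit 21568, nat_lit 874496],
 .step (nat_lit 34) [nat_lit 26656, nat_lit 1172480],
 .step (nat_lit 132) [nat_lit 15364, nat_lit 757824],
 .step (nat_lit 99) [nat_lit 659520, nat_lit 100354],
 .step (nat_lit 69) [nat_lit 629793, nat_lit 229409, nat_lit 1000448],
 .step (nat_lit 65) [nat_lit 28672, nat_lit 1131521],
 .step (nat_lit 100) [nat_lit 40003, nat_lit 1174528],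
 .step (nat_lit 132) [nat_lit 25731, nat_lit 1177600],
 .step (nat_lit 38) [nat_lit 579586, nat_lit 1283072, nat_lit 1178624, nat_lit 137219],
 .step (nat_lit 67) [nat_lit 37952, nat_lit 1179650],
 .step (nat_lit 67) [nat_lit 6176, nat_lit 604160],
 .step (nat_lit 130) [nat_lit 11265, nat_lit 1008640],
 .step (nat_lit 130) [nat_lit 15362, nat_lit 1180704],
 .step (nat_lit 67) [nat_lit 7201, nat_lit 484352],
 .step (nat_lit 34) [nat_lit 8224, nat_lit 1081345],
 .step (nat_lit 165) [nat_lit 5188, nat_lit 1182720],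
 .step (nat_lit 34) [nat_lit 6178, nat_lit 1184768],
 .step (nat_lit 34) [nat_lit 19458, nat_lit 1184768],
 .step (nat_lit 98) [nat_lit 8289, nat_lit 957440],
 .step (nat_lit 67) [nat_lit 27683, nat_lit 602112],
 .sym (nat_lit 2165) true false false (nat_lit 5) (nat_lit 5),
 .step (nat_lit 35) [nat_lit 27651, nat_lit 615424],
 .step (nat_lit 129) [nat_lit 17408, nat_lit 649248],
 .sym (nat_lit 2168) true false true (nat_lit 4) (nat_lit 5),
 .step (nat_lit 2) [nat_lit 31744, nat_lit 885761],
 .step (nat_lit 101) [nat_lit 20545, nat_lit 1002496],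
 .step (nat_lit 68) [nat_lit 19520, nat_lit 1189889],
 .step (nat_lit 65) [nat_lit 46081, nat_lit 856128],
 .step (nat_lit 98) [nat_lit 8288, nat_lit 558080],
 .sym (nat_lit 2174) true false true (nat_lit 4) (nat_lit 4),
 .step (nat_lit 98) [nat_lit 414721, nat_lit 1190976],
 .step (nat_lit 98) [nat_lit 28673, nat_lit 1190976],
 .step (nat_lit 34) [nat_lit 11266, nat_lit 1217536],
 .sym (nat_lit 2178) true false false (nat_lit 4) (nat_lit 4),
 .sym (nat_lit 2178) false true false (nat_lit 4) (nat_lit 4),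
 .sym (nat_lit 2178) true false true (nat_lit 4) (nat_lit 4),
 .step (nat_lit 35) [nat_lit 7168, nat_lit 1193985],
 .sym (nat_lit 2182) false true false (nat_lit 5) (nat_lit 4),
 .step (nat_lit 132) [nat_lit 40963, nat_lit 894976],
 .sym (nat_lit 2184) true false false (nat_lit 5) (nat_lit 4),
 .step (nat_lit 4) [nat_lit 19456, nat_lit 1195008],
 .sym (nat_lit 2186) true true true (nat_lit 5) (nat_lit 4),
 .sym (nat_lit 2186) false true false (nat_lit 5) (nat_lit 4),
 .step (nat_lit 97) [nat_lit 9280, nat_lit 1103872],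
 .step (nat_lit 66) [nat_lit 30753, nat_lit 1197056],
 .step (nat_lit 2) [nat_lit 31744, nat_lit 1199104],
 .step (nat_lit 36) [nat_lit 29698, nat_lit 1200128],
 .step (nat_lit 97) [nat_lit 9280, nat_lit 1154048],
 .sym (nat_lit 2193) true false true (nat_lit 4) (nat_lit 4),
 .step (nat_lit 131) [nat_lit 6240, nat_lit 1201154],
 .step (nat_lit 163) [nat_lit 507008, nat_lit 830465],
 .step (nat_lit 98) [nat_lit 27649, nat_lit 790528],
 .step (nat_lit 35) [nat_lit 21506, nat_lit 500736],
 .step (nat_lit 100) [nat_lit 134147, nat_lit 1202176, nat_lit 1302528, nat_lit 1328128],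
 .step (nat_lit 97) [nat_lit 25696, nat_lit 524289],
 .step (nat_lit 65) [nat_lit 9280, nat_lit 1203200],
 .step (nat_lit 65) [nat_lit 11264, nat_lit 797696],
 .sym (nat_lit 2202) true false false (nat_lit 2) (nat_lit 5),
 .step (nat_lit 67) [nat_lit 23555, nat_lit 564256],
 .step (nat_lit 34) [nat_lit 9216, nat_lit 1204224],
 .step (nat_lit 4) [nat_lit 9219, nat_lit 777216],
 .sym (nat_lit 2206) true true false (nat_lit 7) (nat_lit 2),
 .step (nat_lit 65) [nat_lit 39968, nat_lit 1207296],
 .step (nat_lit 129) [nat_lit 569344, nat_lit 649248],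
 .step (nat_lit 99) [nat_lit 19520, nat_lit 641025],
 .step (nat_lit 130) [nat_lit 15362, nat_lit 1209376],
 .step (nat_lit 65) [nat_lit 11264, nat_lit 826400],
 .step (nat_lit 100) [nat_lit 14435, nat_lit 874496],
 .step (nat_lit 65) [nat_lit 11264, nat_lit 843776],
 .step (nat_lit 65) [nat_lit 38976, nat_lit 523265],
 .step (nat_lit 67) [nat_lit 492608, nat_lit 1153027],
 .step (nat_lit 128) [nat_lit 15360, nat_lit 1210400],
 .sym (nat_lit 2217) true true true (nat_lit 4) (nat_lit 5),
 .step (nat_lit 129) [nat_lit 46080, nat_lit 614464],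
 .step (nat_lit 130) [nat_lit 46081, nat_lit 601152],
 .step (nat_lit 96) [nat_lit 42048, nat_lit 656384],
 .step (nat_lit 97) [nat_lit 9280, nat_lit 1013760],
 .step (nat_lit 66) [nat_lit 10242, nat_lit 1035264],
 .step (nat_lit 99) [nat_lit 42048, nat_lit 534531],
 .step (nat_lit 2) [nat_lit 40962, nat_lit 1036288],
 .step (nat_lit 32) [nat_lit 11264, nat_lit 613408],
 .step (nat_lit 36) [nat_lit 514080, nat_lit 515104, nat_lit 751618],
 .step (nat_lit 66) [nat_lit 31808, nat_lit 518146],
 .step (nat_lit 67) [nat_lit 9248, nat_lit 479233],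
 .step (nat_lit 97) [nat_lit 27713, nat_lit 662528],
 .step (nat_lit 129) [nat_lit 23552, nat_lit 1214528],
 .step (nat_lit 99) [nat_lit 56386, nat_lit 846848],
 .sym (nat_lit 2232) false true true (nat_lit 7) (nat_lit 4),
 .sym (nat_lit 2232) false false true (nat_lit 7) (nat_lit 4),
 .step (nat_lit 129) [nat_lit 46080, nat_lit 1214528],
 .step (nat_lit 98) [nat_lit 20545, nat_lit 902144],
 .step (nat_lit 34) [nat_lit 5154, nat_lit 890880],
 .step (nat_lit 33) [nat_lit 13313, nat_lit 1259520],
 .step (nat_lit 34) [nat_lit 8224, nat_lit 852992],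
 .step (nat_lit 33) [nat_lit 6177, nat_lit 771072],
 .sym (nat_lit 2240) true false true (nat_lit 5) (nat_lit 4),
 .step (nat_lit 1) [nat_lit 20481, nat_lit 876544],
 .step (nat_lit 130) [nat_lit 731168, nat_lit 1107968],
 .step (nat_lit 36) [nat_lit 26657, nat_lit 1221632],
 .step (nat_lit 1) [nat_lit 9216, nat_lit 1215489],
 .step (nat_lit 133) [nat_lit 52229, nat_lit 1261568],
 .step (nat_lit 130) [nat_lit 7265, nat_lit 1059840],
 .step (nat_lit 33) [nat_lit 11264, nat_lit 958465],
 .step (nat_lit 97) [nat_lit 7233, nat_lit 654336]]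

theorem c2000 : checkFrom tbl r2000 (nat_lit 2250) (nat_lit 2000) = true := by decide +kernel

noncomputable def r4000 : List Rule := [
 .step (nat_lit 130) [nat_lit 22562, nat_lit 2630656],
 .sym (nat_lit 4000) true false true (nat_lit 5) (nat_lit 5),
 .step (nat_lit 99) [nat_lit 27650, nat_lit 2765824],
 .sym (nat_lit 4002) false false true (nat_lit 6) (nat_lit 4),
 .sym (nat_lit 4002) false true false (nat_lit 6) (nat_lit 4),
 .sym (nat_lit 4002) true false false (nat_lit 6) (nat_lit 4),
 .step (nat_lit 35) [nat_lit 26656, nat_lit 2766848],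
 .sym (nat_lit 4006) false true true (nat_lit 4) (nat_lit 5),
 .step (nat_lit 32) [nat_lit 11264, nat_lit 2766848],
 .step (nat_lit 130) [nat_lit 475169, nat_lit 464929, nat_lit 2599936],
 .sym (nat_lit 4009) true false false (nat_lit 5) (nat_lit 6),
 .sym (nat_lit 4009) false true false (nat_lit 5) (nat_lit 6),
 .sym (nat_lit 4009) false true true (nat_lit 5) (nat_lit 6),
 .sym (nat_lit 4009) true false true (nat_lit 5) (nat_lit 6),
 .sym (nat_lit 4009) true true false (nat_lit 5) (nat_lit 6),
 .step (nat_lit 131) [nat_lit 12323, nat_lit 2777088],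
 .step (nat_lit 96) [nat_lit 42048, nat_lit 2778112],
 .step (nat_lit 100) [nat_lit 6209, nat_lit 2779136],
 .step (nat_lit 129) [nat_lit 68609, nat_lit 2692128],
 .step (nat_lit 67) [nat_lit 499746, nat_lit 491554, nat_lit 2775072, nat_lit 2650114],
 .step (nat_lit 69) [nat_lit 498752, nat_lit 643074, nat_lit 2609184],
 .step (nat_lit 101) [nat_lit 2644033, nat_lit 2645056, nat_lit 2641985, nat_lit 2808832, nat_lit 2907170],
 .sym (nat_lit 4021) true false false (nat_lit 8) (nat_lit 6),
 .step (nat_lit 132) [nat_lit 5155, nat_lit 2816000],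
 .step (nat_lit 68) [nat_lit 24610, nat_lit 2819072],
 .step (nat_lit 194) [nat_lit 5217, nat_lit 2823168],
 .sym (nat_lit 4025) false true false (nat_lit 4) (nat_lit 7),
 .step (nat_lit 97) [nat_lit 12289, nat_lit 2824224],
 .step (nat_lit 33) [nat_lit 25632, nat_lit 2829312],
 .step (nat_lit 130) [nat_lit 27681, nat_lit 2630656],
 .sym (nat_lit 4029) false false true (nat_lit 5) (nat_lit 5),
 .sym (nat_lit 4029) false true true (nat_lit 5) (nat_lit 5),
 .step (nat_lit 131) [nat_lit 6240, nat_lit 2830336],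
 .step (nat_lit 36) [nat_lit 10243, nat_lit 2764832],
 .sym (nat_lit 4033) true true true (nat_lit 6) (nat_lit 5),
 .step (nat_lit 97) [nat_lit 775168, nat_lit 734209, nat_lit 2692096],
 .step (nat_lit 65) [nat_lit 5121, nat_lit 2606080],
 .step (nat_lit 34) [nat_lit 6176, nat_lit 2654210],
 .sym (nat_lit 4037) false false true (nat_lit 4) (nat_lit 6),
 .step (nat_lit 98) [nat_lit 5121, nat_lit 2841600],
 .sym (nat_lit 4039) true false false (nat_lit 5) (nat_lit 4),
 .sym (nat_lit 4039) false true false (nat_lit 5) (nat_lit 4),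
 .sym (nat_lit 4039) true true true (nat_lit 5) (nat_lit 4),
 .step (nat_lit 161) [nat_lit 8320, nat_lit 2843648],
 .step (nat_lit 97) [nat_lit 21568, nat_lit 2845696],
 .step (nat_lit 129) [nat_lit 14337, nat_lit 1743904],
 .step (nat_lit 67) [nat_lit 65570, nat_lit 600066, nat_lit 2854944],
 .step (nat_lit 68) [nat_lit 2732064, nat_lit 742403, nat_lit 746499, nat_lit 2855936],
 .sym (nat_lit 4047) false true true (nat_lit 6) (nat_lit 6),
 .sym (nat_lit 4047) false false true (nat_lit 6) (nat_lit 6),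
 .sym (nat_lit 4047) true false true (nat_lit 6) (nat_lit 6),
 .sym (nat_lit 4047) true true false (nat_lit 6) (nat_lit 6),
 .sym (nat_lit 4047) false true false (nat_lit 6) (nat_lit 6),
 .sym (nat_lit 4047) true true true (nat_lit 6) (nat_lit 6),
 .step (nat_lit 66) [nat_lit 729089, nat_lit 2861058, nat_lit 585760],
 .step (nat_lit 98) [nat_lit 5121, nat_lit 2656320],
 .step (nat_lit 99) [nat_lit 2610241, nat_lit 2802754, nat_lit 1935424, nat_lit 2860032],
 .step (nat_lit 65) [nat_lit 2624512, nat_lit 2613248, nat_lit 798784],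
 .step (nat_lit 129) [nat_lit 2647040, nat_lit 2887680, nat_lit 2869280, nat_lit 2336832],
 .step (nat_lit 99) [nat_lit 2614274, nat_lit 141408, nat_lit 1424384],
 .step (nat_lit 100) [nat_lit 1268801, nat_lit 2784256],
 .sym (nat_lit 4060) false true false (nat_lit 6) (nat_lit 5),
 .sym (nat_lit 4060) true true true (nat_lit 6) (nat_lit 5),
 .step (nat_lit 99) [nat_lit 499778, nat_lit 491586, nat_lit 2775104, nat_lit 2897922],
 .step (nat_lit 129) [nat_lit 485377, nat_lit 490561, nat_lit 2657280, nat_lit 2697280],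
 .sym (nat_lit 4064) true false false (nat_lit 2) (nat_lit 8),
 .sym (nat_lit 4064) false true false (nat_lit 2) (nat_lit 8),
 .step (nat_lit 67) [nat_lit 6176, nat_lit 2898944],
 .step (nat_lit 33) [nat_lit 8224, nat_lit 2899968],
 .step (nat_lit 129) [nat_lit 8288, nat_lit 2904065],
 .step (nat_lit 34) [nat_lit 30753, nat_lit 2905088],
 .step (nat_lit 98) [nat_lit 1360960, nat_lit 2818049, nat_lit 1668162],
 .step (nat_lit 97) [nat_lit 9312, nat_lit 2908161],
 .sym (nat_lit 4072) false true true (nat_lit 4) (nat_lit 5),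
 .step (nat_lit 35) [nat_lit 2660352, nat_lit 2775040, nat_lit 220163],
 .sym (nat_lit 4074) false true true (nat_lit 7) (nat_lit 2),
 .step (nat_lit 129) [nat_lit 8288, nat_lit 2919425],
 .sym (nat_lit 4076) true false false (nat_lit 5) (nat_lit 6),
 .step (nat_lit 99) [nat_lit 6208, nat_lit 2671618],
 .sym (nat_lit 4078) false false true (nat_lit 4) (nat_lit 6),
 .step (nat_lit 68) [nat_lit 10244, nat_lit 2923552],
 .step (nat_lit 67) [nat_lit 487456, nat_lit 2659330],
 .sym (nat_lit 4081) true false false (nat_lit 6) (nat_lit 6),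
 .sym (nat_lit 4081) true true false (nat_lit 6) (nat_lit 6),
 .step (nat_lit 65) [nat_lit 2659328, nat_lit 2658304],
 .sym (nat_lit 4084) true false false (nat_lit 6) (nat_lit 6),
 .sym (nat_lit 4084) true true false (nat_lit 6) (nat_lit 6),
 .step (nat_lit 35) [nat_lit 11267, nat_lit 2924544],
 .step (nat_lit 97) [nat_lit 21568, nat_lit 3260416],
 .step (nat_lit 65) [nat_lit 8224, nat_lit 2927617],
 .step (nat_lit 35) [nat_lit 7200, nat_lit 2671618],
 .sym (nat_lit 4090) false true true (nat_lit 4) (nat_lit 6),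
 .step (nat_lit 101) [nat_lit 2645056, nat_lit 2082818, nat_lit 2802754, nat_lit 2888736],
 .sym (nat_lit 4092) true false false (nat_lit 8) (nat_lit 6),
 .step (nat_lit 65) [nat_lit 28672, nat_lit 1744960],
 .step (nat_lit 67) [nat_lit 1352736, nat_lit 1365024, nat_lit 2786305],
 .step (nat_lit 129) [nat_lit 8320, nat_lit 2937856],
 .step (nat_lit 130) [nat_lit 12322, nat_lit 2842624],
 .sym (nat_lit 4097) false true true (nat_lit 4) (nat_lit 5),
 .step (nat_lit 99) [nat_lit 2655234, nat_lit 1706080],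
 .sym (nat_lit 4099) true true true (nat_lit 6) (nat_lit 6),
 .step (nat_lit 99) [nat_lit 2817024, nat_lit 2939905, nat_lit 1269762],
 .step (nat_lit 129) [nat_lit 1355776, nat_lit 1269792, nat_lit 2941952],
 .step (nat_lit 131) [nat_lit 5154, nat_lit 2942976],
 .step (nat_lit 130) [nat_lit 1355777, nat_lit 1667073, nat_lit 2939936],
 .step (nat_lit 164) [nat_lit 5188, nat_lit 2946048],
 .step (nat_lit 97) [nat_lit 2189344, nat_lit 2947136, nat_lit 3820544],
 .step (nat_lit 34) [nat_lit 17442, nat_lit 2948096],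
 .step (nat_lit 132) [nat_lit 21632, nat_lit 2949121],
 .step (nat_lit 100) [nat_lit 26721, nat_lit 2950144],
 .step (nat_lit 99) [nat_lit 489569, nat_lit 1632288, nat_lit 4005889],
 .step (nat_lit 66) [nat_lit 11265, nat_lit 2785312],
 .sym (nat_lit 4111) false true false (nat_lit 5) (nat_lit 5),
 .step (nat_lit 98) [nat_lit 1267776, nat_lit 2952193, nat_lit 2953280],
 .step (nat_lit 33) [nat_lit 11264, nat_lit 2956320],
 .step (nat_lit 132) [nat_lit 18435, nat_lit 2957312],
 .step (nat_lit 65) [nat_lit 2597888, nat_lit 671744],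
 .step (nat_lit 36) [nat_lit 14371, nat_lit 2962432],
 .step (nat_lit 33) [nat_lit 10241, nat_lit 2963456],
 .sym (nat_lit 4118) false false true (nat_lit 5) (nat_lit 4),
 .step (nat_lit 165) [nat_lit 18468, nat_lit 2969600],
 .step (nat_lit 129) [nat_lit 8288, nat_lit 2976768],
 .step (nat_lit 130) [nat_lit 490562, nat_lit 485378, nat_lit 2657281, nat_lit 1524800],
 .step (nat_lit 100) [nat_lit 33796, nat_lit 2985984],
 .step (nat_lit 3) [nat_lit 7168, nat_lit 2862080],
 .sym (nat_lit 4124) true false true (nat_lit 4) (nat_lit 5),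
 .sym (nat_lit 4124) false true true (nat_lit 4) (nat_lit 5),
 .sym (nat_lit 4124) true false false (nat_lit 4) (nat_lit 5),
 .step (nat_lit 132) [nat_lit 5155, nat_lit 2987008],
 .step (nat_lit 195) [nat_lit 1269858, nat_lit 2995200],
 .step (nat_lit 101) [nat_lit 5124, nat_lit 2999296],
 .sym (nat_lit 4130) false true true (nat_lit 5) (nat_lit 4),
 .sym (nat_lit 4130) true true true (nat_lit 5) (nat_lit 4),
 .step (nat_lit 64) [nat_lit 17472, nat_lit 3003392],
 .step (nat_lit 67) [nat_lit 1358850, nat_lit 1270786, nat_lit 1366018, nat_lit 3992608],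
 .sym (nat_lit 4134) false true false (nat_lit 6) (nat_lit 6),
 .step (nat_lit 36) [nat_lit 6177, nat_lit 3009536],
 .step (nat_lit 35) [nat_lit 10242, nat_lit 3013632],
 .step (nat_lit 67) [nat_lit 7232, nat_lit 2977792],
 .step (nat_lit 99) [nat_lit 24640, nat_lit 3025920],
 .sym (nat_lit 4139) false false true (nat_lit 4) (nat_lit 4),
 .step (nat_lit 101) [nat_lit 493572, nat_lit 1563712, nat_lit 3031105],
 .sym (nat_lit 4141) false true false (nat_lit 7) (nat_lit 6),
 .step (nat_lit 131) [nat_lit 5154, nat_lit 3032064],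
 .step (nat_lit 97) [nat_lit 63584, nat_lit 2784256],
 .step (nat_lit 1) [nat_lit 20481, nat_lit 3035136],
 .step (nat_lit 130) [nat_lit 488449, nat_lit 486465, nat_lit 2654273, nat_lit 942080],
 .step (nat_lit 129) [nat_lit 1269792, nat_lit 61440, nat_lit 1748000, nat_lit 1839104],
 .sym (nat_lit 4147) false true false (nat_lit 2) (nat_lit 7),
 .step (nat_lit 132) [nat_lit 9312, nat_lit 3042304],
 .step (nat_lit 133) [nat_lit 31841, nat_lit 3044352],
 .sym (nat_lit 4150) true true false (nat_lit 6) (nat_lit 6),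
 .step (nat_lit 65) [nat_lit 8224, nat_lit 3016704],
 .sym (nat_lit 4152) true true true (nat_lit 4) (nat_lit 6),
 .sym (nat_lit 4152) true true false (nat_lit 4) (nat_lit 6),
 .sym (nat_lit 4152) true false false (nat_lit 4) (nat_lit 6),
 .step (nat_lit 67) [nat_lit 8226, nat_lit 3048448],
 .sym (nat_lit 4156) true true true (nat_lit 6) (nat_lit 5),
 .sym (nat_lit 4156) true true false (nat_lit 6) (nat_lit 5),
 .step (nat_lit 100) [nat_lit 5123, nat_lit 2608128],
 .step (nat_lit 35) [nat_lit 7200, nat_lit 3049472],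
 .step (nat_lit 68) [nat_lit 7233, nat_lit 3050496],
 .step (nat_lit 98) [nat_lit 12290, nat_lit 3052544],
 .step (nat_lit 102) [nat_lit 33798, nat_lit 3054592],
 .step (nat_lit 33) [nat_lit 21504, nat_lit 2848768],
 .step (nat_lit 97) [nat_lit 5121, nat_lit 2841600],
 .step (nat_lit 67) [nat_lit 9248, nat_lit 2693120],
 .step (nat_lit 35) [nat_lit 141344, nat_lit 1426432, nat_lit 2719744],
 .step (nat_lit 67) [nat_lit 1358850, nat_lit 1270786, nat_lit 1366018, nat_lit 3079200],
 .step (nat_lit 131) [nat_lit 2655234, nat_lit 2694146, nat_lit 3056704],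
 .step (nat_lit 131) [nat_lit 140291, nat_lit 657411, nat_lit 2914306, nat_lit 3058720],
 .step (nat_lit 100) [nat_lit 5124, nat_lit 2999296],
 .step (nat_lit 130) [nat_lit 2599936, nat_lit 775201, nat_lit 734242],
 .step (nat_lit 35) [nat_lit 43042, nat_lit 3060736],
 .step (nat_lit 131) [nat_lit 40962, nat_lit 3062880],
 .step (nat_lit 129) [nat_lit 490561, nat_lit 1750016, nat_lit 3010656],
 .step (nat_lit 97) [nat_lit 490529, nat_lit 1751040, nat_lit 1271873],
 .step (nat_lit 194) [nat_lit 46210, nat_lit 3065856],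
 .step (nat_lit 6) [nat_lit 17414, nat_lit 2668544],
 .step (nat_lit 66) [nat_lit 1267744, nat_lit 2635777, nat_lit 3004448, nat_lit 3005472],
 .step (nat_lit 98) [nat_lit 1353792, nat_lit 1360960, nat_lit 3066881],
 .step (nat_lit 131) [nat_lit 475170, nat_lit 464930, nat_lit 2600960],
 .sym (nat_lit 4181) true false false (nat_lit 5) (nat_lit 6),
 .sym (nat_lit 4181) false true false (nat_lit 5) (nat_lit 6),
 .sym (nat_lit 4181) false true true (nat_lit 5) (nat_lit 6),
 .sym (nat_lit 4181) true false true (nat_lit 5) (nat_lit 6),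
 .sym (nat_lit 4181) true true false (nat_lit 5) (nat_lit 6),
 .step (nat_lit 97) [nat_lit 9312, nat_lit 3070976],
 .step (nat_lit 100) [nat_lit 22595, nat_lit 3076096],
 .step (nat_lit 101) [nat_lit 496644, nat_lit 2622528, nat_lit 1560578],
 .step (nat_lit 67) [nat_lit 1409056, nat_lit 220195, nat_lit 212002, nat_lit 2652160],
 .step (nat_lit 97) [nat_lit 2597920, nat_lit 480256],
 .step (nat_lit 97) [nat_lit 2648064, nat_lit 2620416, nat_lit 133216],
 .step (nat_lit 97) [nat_lit 133216, nat_lit 576608, nat_lit 1936384, nat_lit 2402304],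
 .step (nat_lit 97) [nat_lit 2648064, nat_lit 2620416, nat_lit 2612224, nat_lit 576608],
 .step (nat_lit 131) [nat_lit 1355778, nat_lit 1362946, nat_lit 2780192],
 .sym (nat_lit 4195) false true true (nat_lit 5) (nat_lit 6),
 .sym (nat_lit 4195) true false true (nat_lit 5) (nat_lit 6),
 .step (nat_lit 99) [nat_lit 12291, nat_lit 2983968],
 .step (nat_lit 99) [nat_lit 5122, nat_lit 3085312],
 .step (nat_lit 65) [nat_lit 388129, nat_lit 1265696, nat_lit 2822144],
 .step (nat_lit 128) [nat_lit 15360, nat_lit 3088384],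
 .step (nat_lit 34) [nat_lit 11266, nat_lit 2665504],
 .sym (nat_lit 4202) true false false (nat_lit 3) (nat_lit 7),
 .sym (nat_lit 4202) true true true (nat_lit 3) (nat_lit 7),
 .step (nat_lit 68) [nat_lit 39968, nat_lit 3089408],
 .step (nat_lit 129) [nat_lit 28673, nat_lit 2658368],
 .step (nat_lit 38) [nat_lit 14373, nat_lit 3092480],
 .step (nat_lit 34) [nat_lit 21504, nat_lit 3093504],
 .sym (nat_lit 4208) true false false (nat_lit 7) (nat_lit 2),
 .step (nat_lit 32) [nat_lit 41984, nat_lit 2654208],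
 .sym (nat_lit 4210) false false true (nat_lit 4) (nat_lit 6),
 .sym (nat_lit 4210) true false true (nat_lit 4) (nat_lit 6),
 .step (nat_lit 34) [nat_lit 28673, nat_lit 3097600],
 .step (nat_lit 97) [nat_lit 12384, nat_lit 2672640],
 .sym (nat_lit 4214) true false true (nat_lit 2) (nat_lit 7),
 .step (nat_lit 99) [nat_lit 495619, nat_lit 2618432, nat_lit 2611264],
 .step (nat_lit 68) [nat_lit 6177, nat_lit 3296256],
 .sym (nat_lit 4217) true false false (nat_lit 5) (nat_lit 4),
 .sym (nat_lit 4217) false false true (nat_lit 5) (nat_lit 4),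
 .step (nat_lit 35) [nat_lit 10242, nat_lit 3812352],
 .sym (nat_lit 4220) false true true (nat_lit 6) (nat_lit 4),
 .step (nat_lit 101) [nat_lit 24642, nat_lit 3105792],
 .step (nat_lit 33) [nat_lit 9216, nat_lit 3107840],
 .step (nat_lit 38) [nat_lit 7171, nat_lit 3108864],
 .step (nat_lit 65) [nat_lit 490497, nat_lit 496641, nat_lit 3113984],
 .step (nat_lit 133) [nat_lit 28677, nat_lit 2935872],
 .sym (nat_lit 4226) true false true (nat_lit 6) (nat_lit 4),
 .step (nat_lit 130) [nat_lit 8289, nat_lit 3118080],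
 .step (nat_lit 33) [nat_lit 233472, nat_lit 2894849],
 .step (nat_lit 161) [nat_lit 8320, nat_lit 3125248],
 .sym (nat_lit 4230) true true false (nat_lit 4) (nat_lit 7),
 .step (nat_lit 65) [nat_lit 233504, nat_lit 3126272],
 .step (nat_lit 68) [nat_lit 3130400, nat_lit 3336193, nat_lit 4003873, nat_lit 3128353, nat_lit 4006945],
 .step (nat_lit 100) [nat_lit 5123, nat_lit 3135488],
 .step (nat_lit 37) [nat_lit 2619393, nat_lit 143363, nat_lit 1425410, nat_lit 1427456],
 .step (nat_lit 36) [nat_lit 13344, nat_lit 2931713],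
 .sym (nat_lit 4236) true false true (nat_lit 7) (nat_lit 2),
 .step (nat_lit 129) [nat_lit 14337, nat_lit 2932768],
 .step (nat_lit 65) [nat_lit 63552, nat_lit 3142656],
 .step (nat_lit 100) [nat_lit 6209, nat_lit 3143680],
 .sym (nat_lit 4240) false false true (nat_lit 5) (nat_lit 5),
 .step (nat_lit 164) [nat_lit 152611, nat_lit 3150848],
 .step (nat_lit 36) [nat_lit 173057, nat_lit 3151872],
 .step (nat_lit 36) [nat_lit 590880, nat_lit 2738176, nat_lit 2326529, nat_lit 3154944],
 .step (nat_lit 129) [nat_lit 798816, nat_lit 1946624, nat_lit 309312, nat_lit 3157024],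
 .step (nat_lit 132) [nat_lit 776256, nat_lit 2683905, nat_lit 1961025],
 .step (nat_lit 99) [nat_lit 141408, nat_lit 1424384, nat_lit 2722816],
 .step (nat_lit 36) [nat_lit 8224, nat_lit 2930689],
 .sym (nat_lit 4248) true true true (nat_lit 7) (nat_lit 2)]

theorem c4000 : checkFrom tbl r4000 (nat_lit 4250) (nat_lit 4000) = true := by decide +kernel

noncomputable def r6000 : List Rule := [
 .sym (nat_lit 5999) true false false (nat_lit 7) (nat_lit 2),
 .step (nat_lit 129) [nat_lit 9344, nat_lit 5385216],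
 .step (nat_lit 195) [nat_lit 6304, nat_lit 5386240],
 .step (nat_lit 100) [nat_lit 1268801, nat_lit 2598912, nat_lit 4033601, nat_lit 5281856, nat_lit 5387264],
 .step (nat_lit 36) [nat_lit 11268, nat_lit 5388320],
 .step (nat_lit 70) [nat_lit 16418, nat_lit 5389312],
 .step (nat_lit 133) [nat_lit 6274, nat_lit 5390336],
 .step (nat_lit 65) [nat_lit 43040, nat_lit 5391360],
 .step (nat_lit 99) [nat_lit 12322, nat_lit 5393408],
 .step (nat_lit 99) [nat_lit 12322, nat_lit 5394432],
 .step (nat_lit 65) [nat_lit 13345, nat_lit 5398528],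
 .step (nat_lit 68) [nat_lit 6177, nat_lit 5401600],
 .step (nat_lit 70) [nat_lit 16418, nat_lit 5402624],
 .step (nat_lit 70) [nat_lit 16418, nat_lit 5403648],
 .step (nat_lit 131) [nat_lit 4255744, nat_lit 4388865, nat_lit 3615746, nat_lit 4387840],
 .step (nat_lit 130) [nat_lit 2769953, nat_lit 2768929, nat_lit 680961, nat_lit 3226657, nat_lit 2016288, nat_lit 5404704],
 .step (nat_lit 66) [nat_lit 3228705, nat_lit 4455424, nat_lit 5405728, nat_lit 4393985],
 .sym (nat_lit 6016) true false false (nat_lit 7) (nat_lit 7),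
 .step (nat_lit 64) [nat_lit 23584, nat_lit 5407744],
 .step (nat_lit 3) [nat_lit 8192, nat_lit 5409792],
 .step (nat_lit 100) [nat_lit 490499, nat_lit 2033664, nat_lit 5410848],
 .step (nat_lit 131) [nat_lit 1357827, nat_lit 1361922, nat_lit 5411840],
 .step (nat_lit 101) [nat_lit 2920450, nat_lit 4963360, nat_lit 4411394, nat_lit 4415488, nat_lit 5414914, nat_lit 5413890],
 .step (nat_lit 67) [nat_lit 1767426, nat_lit 2045954, nat_lit 3251233, nat_lit 5415936],
 .step (nat_lit 131) [nat_lit 1603618, nat_lit 4298785, nat_lit 4421632, nat_lit 5751809],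
 .step (nat_lit 133) [nat_lit 1357829, nat_lit 1361924, nat_lit 5416960],
 .step (nat_lit 193) [nat_lit 40096, nat_lit 5419008],
 .step (nat_lit 197) [nat_lit 5220, nat_lit 5420032],
 .step (nat_lit 132) [nat_lit 5424160, nat_lit 64515],
 .step (nat_lit 99) [nat_lit 660576, nat_lit 5427202, nat_lit 2313216],
 .sym (nat_lit 6029) false true true (nat_lit 7) (nat_lit 6),
 .step (nat_lit 97) [nat_lit 27680, nat_lit 5188608],
 .step (nat_lit 129) [nat_lit 596000, nat_lit 637952, nat_lit 5429248],
 .step (nat_lit 97) [nat_lit 20544, nat_lit 5156865],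
 .step (nat_lit 133) [nat_lit 16481, nat_lit 5432320],
 .step (nat_lit 131) [nat_lit 1355778, nat_lit 1362946, nat_lit 5440544],
 .sym (nat_lit 6035) true false true (nat_lit 6) (nat_lit 6),
 .step (nat_lit 69) [nat_lit 142404, nat_lit 666660, nat_lit 667684, nat_lit 5442560],
 .sym (nat_lit 6037) true true false (nat_lit 8) (nat_lit 7),
 .step (nat_lit 161) [nat_lit 8320, nat_lit 5443584],
 .step (nat_lit 36) [nat_lit 1452032, nat_lit 1894401, nat_lit 5187584],
 .step (nat_lit 131) [nat_lit 3281920, nat_lit 5445664, nat_lit 656386],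
 .step (nat_lit 131) [nat_lit 4223009, nat_lit 5199904, nat_lit 5200896],
 .step (nat_lit 65) [nat_lit 21536, nat_lit 5229569],
 .step (nat_lit 129) [nat_lit 8288, nat_lit 5450752],
 .step (nat_lit 65) [nat_lit 46081, nat_lit 925760],
 .step (nat_lit 161) [nat_lit 1099840, nat_lit 2113536, nat_lit 5451776],
 .step (nat_lit 66) [nat_lit 491552, nat_lit 499744, nat_lit 5464064],
 .step (nat_lit 129) [nat_lit 3673088, nat_lit 5249024, nat_lit 4484129],
 .step (nat_lit 161) [nat_lit 3673120, nat_lit 3010624, nat_lit 5249056, nat_lit 4485121],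
 .step (nat_lit 97) [nat_lit 27648, nat_lit 5466112],
 .step (nat_lit 129) [nat_lit 10241, nat_lit 5467136],
 .step (nat_lit 99) [nat_lit 2613282, nat_lit 2590754, nat_lit 3173376, nat_lit 3266624],
 .step (nat_lit 129) [nat_lit 27680, nat_lit 5468160],
 .step (nat_lit 100) [nat_lit 1351776, nat_lit 1365056, nat_lit 5469184],
 .sym (nat_lit 6054) false true false (nat_lit 6) (nat_lit 6),
 .step (nat_lit 67) [nat_lit 10275, nat_lit 5470208],
 .step (nat_lit 133) [nat_lit 2866211, nat_lit 2993185, nat_lit 3102753, nat_lit 5790752, nat_lit 5472259],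
 .step (nat_lit 35) [nat_lit 6177, nat_lit 5377024],
 .step (nat_lit 101) [nat_lit 4983810, nat_lit 4984832, nat_lit 2122754, nat_lit 2123776, nat_lit 4881408],
 .step (nat_lit 131) [nat_lit 494658, nat_lit 486466, nat_lit 2774018, nat_lit 5195840],
 .sym (nat_lit 6060) true false true (nat_lit 6) (nat_lit 8),
 .step (nat_lit 131) [nat_lit 17410, nat_lit 5462048],
 .step (nat_lit 66) [nat_lit 29728, nat_lit 5482498],
 .step (nat_lit 100) [nat_lit 6209, nat_lit 5321728],
 .step (nat_lit 163) [nat_lit 2694147, nat_lit 2176032, nat_lit 5488672],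
 .step (nat_lit 131) [nat_lit 4709376, nat_lit 5177344, nat_lit 5768192, nat_lit 137312],
 .sym (nat_lit 6066) false true false (nat_lit 6) (nat_lit 8),
 .step (nat_lit 35) [nat_lit 63521, nat_lit 1928192, nat_lit 5483521],
 .step (nat_lit 67) [nat_lit 67648, nat_lit 692225, nat_lit 5492736],
 .step (nat_lit 133) [nat_lit 3090466, nat_lit 5418018, nat_lit 3094562, nat_lit 5495808],
 .step (nat_lit 66) [nat_lit 587778, nat_lit 2680898, nat_lit 2735137, nat_lit 5496832],
 .sym (nat_lit 6071) false true false (nat_lit 6) (nat_lit 8),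
 .sym (nat_lit 6071) false true true (nat_lit 6) (nat_lit 8),
 .sym (nat_lit 6071) true false true (nat_lit 6) (nat_lit 8),
 .sym (nat_lit 6071) true false false (nat_lit 6) (nat_lit 8),
 .step (nat_lit 68) [nat_lit 1270787, nat_lit 916512, nat_lit 5497888],
 .step (nat_lit 67) [nat_lit 37952, nat_lit 5500930],
 .step (nat_lit 133) [nat_lit 496676, nat_lit 2157603, nat_lit 5501952],
 .step (nat_lit 134) [nat_lit 12325, nat_lit 5502976],
 .step (nat_lit 99) [nat_lit 37984, nat_lit 5504003],
 .step (nat_lit 34) [nat_lit 10241, nat_lit 5505024],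
 .step (nat_lit 3) [nat_lit 31745, nat_lit 5509120],
 .step (nat_lit 35) [nat_lit 7200, nat_lit 5512192],
 .sym (nat_lit 6083) false true false (nat_lit 6) (nat_lit 6),
 .sym (nat_lit 6083) false true true (nat_lit 6) (nat_lit 6),
 .step (nat_lit 131) [nat_lit 1354881, nat_lit 4060256, nat_lit 4546561, nat_lit 4548609, nat_lit 5513250],
 .step (nat_lit 100) [nat_lit 1354848, nat_lit 3409921, nat_lit 5517313],
 .step (nat_lit 166) [nat_lit 1997826, nat_lit 5518465, nat_lit 5519392],
 .step (nat_lit 98) [nat_lit 1090562, nat_lit 3026977, nat_lit 2242561, nat_lit 5522496],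
 .step (nat_lit 133) [nat_lit 496676, nat_lit 1560610, nat_lit 3430432, nat_lit 5523457],
 .step (nat_lit 4) [nat_lit 31746, nat_lit 5528576],
 .step (nat_lit 101) [nat_lit 1351777, nat_lit 1754114, nat_lit 3405825, nat_lit 5531648],
 .step (nat_lit 65) [nat_lit 24640, nat_lit 5532672],
 .step (nat_lit 5) [nat_lit 37890, nat_lit 5533696],
 .step (nat_lit 131) [nat_lit 78945, nat_lit 5535744],
 .step (nat_lit 132) [nat_lit 134179, nat_lit 2076706, nat_lit 5699616, nat_lit 5537793],
 .step (nat_lit 129) [nat_lit 133216, nat_lit 2226176, nat_lit 2929696, nat_lit 5538816],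
 .step (nat_lit 33) [nat_lit 25632, nat_lit 5491712],
 .step (nat_lit 165) [nat_lit 2611328, nat_lit 2721856, nat_lit 1431618, nat_lit 5544003, nat_lit 5544960],
 .step (nat_lit 34) [nat_lit 1267712, nat_lit 777216, nat_lit 5252097],
 .sym (nat_lit 6100) false false true (nat_lit 9) (nat_lit 2),
 .step (nat_lit 35) [nat_lit 496643, nat_lit 1439744, nat_lit 5547008],
 .step (nat_lit 161) [nat_lit 1270784, nat_lit 5549120],
 .step (nat_lit 67) [nat_lit 7232, nat_lit 5558274],
 .step (nat_lit 196) [nat_lit 18499, nat_lit 5550080],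
 .step (nat_lit 194) [nat_lit 15426, nat_lit 5552128],
 .step (nat_lit 101) [nat_lit 27652, nat_lit 5554176],
 .step (nat_lit 100) [nat_lit 77827, nat_lit 5208096],
 .step (nat_lit 68) [nat_lit 5229569, nat_lit 1452064, nat_lit 1894433],
 .step (nat_lit 100) [nat_lit 874496, nat_lit 5229601],
 .step (nat_lit 98) [nat_lit 21568, nat_lit 5559296],
 .step (nat_lit 131) [nat_lit 1426464, nat_lit 3436544, nat_lit 1436704, nat_lit 2725920, nat_lit 5069888, nat_lit 2856960],
 .step (nat_lit 163) [nat_lit 497792, nat_lit 1561664, nat_lit 5564418],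
 .sym (nat_lit 6113) false false true (nat_lit 6) (nat_lit 9),
 .sym (nat_lit 6113) false true true (nat_lit 6) (nat_lit 9),
 .step (nat_lit 98) [nat_lit 3289152, nat_lit 3493889, nat_lit 5561376, nat_lit 5562368],
 .step (nat_lit 37) [nat_lit 10245, nat_lit 5566496],
 .step (nat_lit 66) [nat_lit 589825, nat_lit 4216864, nat_lit 5569600],
 .step (nat_lit 5) [nat_lit 19457, nat_lit 5571584],
 .step (nat_lit 65) [nat_lit 8224, nat_lit 5575680],
 .step (nat_lit 5) [nat_lit 19457, nat_lit 5576704],
 .step (nat_lit 69) [nat_lit 16417, nat_lit 5355520],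
 .step (nat_lit 36) [nat_lit 7172, nat_lit 5345280],
 .sym (nat_lit 6123) false false true (nat_lit 8) (nat_lit 2),
 .step (nat_lit 163) [nat_lit 15395, nat_lit 5580800],
 .step (nat_lit 197) [nat_lit 18500, nat_lit 5581824],
 .step (nat_lit 35) [nat_lit 3672064, nat_lit 5166080, nat_lit 4019200, nat_lit 5457922],
 .step (nat_lit 97) [nat_lit 24672, nat_lit 5583872],
 .step (nat_lit 7) [nat_lit 7172, nat_lit 5463040],
 .step (nat_lit 67) [nat_lit 7232, nat_lit 5578752],
 .step (nat_lit 161) [nat_lit 8320, nat_lit 5590016],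
 .step (nat_lit 67) [nat_lit 659521, nat_lit 1445890, nat_lit 5283840],
 .step (nat_lit 66) [nat_lit 24608, nat_lit 5592064],
 .step (nat_lit 100) [nat_lit 27651, nat_lit 5593088],
 .step (nat_lit 67) [nat_lit 1351744, nat_lit 1365024, nat_lit 5278720],
 .step (nat_lit 67) [nat_lit 1352736, nat_lit 1364000, nat_lit 5278720],
 .step (nat_lit 130) [nat_lit 1353824, nat_lit 1359968, nat_lit 5444610],
 .step (nat_lit 65) [nat_lit 13345, nat_lit 5597184],
 .step (nat_lit 37) [nat_lit 56321, nat_lit 5599232, nat_lit 5600256],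
 .step (nat_lit 164) [nat_lit 12355, nat_lit 5601280],
 .step (nat_lit 100) [nat_lit 2641984, nat_lit 5220416, nat_lit 4663296, nat_lit 4664320, nat_lit 5604352, nat_lit 5602304, nat_lit 5603329],
 .step (nat_lit 101) [nat_lit 2641985, nat_lit 4425729, nat_lit 5594114, nat_lit 2304032],
 .sym (nat_lit 6142) false true false (nat_lit 8) (nat_lit 6),
 .step (nat_lit 130) [nat_lit 488449, nat_lit 486465, nat_lit 5608513, nat_lit 4665344],
 .step (nat_lit 99) [nat_lit 486466, nat_lit 2655234, nat_lit 2083840, nat_lit 5869633],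
 .step (nat_lit 97) [nat_lit 494656, nat_lit 486464, nat_lit 2774016, nat_lit 5609536],
 .step (nat_lit 101) [nat_lit 2649092, nat_lit 5610562, nat_lit 5613632, nat_lit 5611553, nat_lit 5612544],
 .step (nat_lit 34) [nat_lit 11266, nat_lit 5614592],
 .step (nat_lit 192) [nat_lit 13472, nat_lit 5616640],
 .step (nat_lit 66) [nat_lit 1269761, nat_lit 472065, nat_lit 461826, nat_lit 5339136],
 .step (nat_lit 98) [nat_lit 1269761, nat_lit 472065, nat_lit 461826, nat_lit 5977088],
 .step (nat_lit 99) [nat_lit 656387, nat_lit 4683776, nat_lit 4682752, nat_lit 5619712],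
 .step (nat_lit 36) [nat_lit 32801, nat_lit 5621760],
 .step (nat_lit 99) [nat_lit 2618432, nat_lit 4690944, nat_lit 4689920, nat_lit 5622784],
 .step (nat_lit 36) [nat_lit 10243, nat_lit 5624832],
 .step (nat_lit 131) [nat_lit 2649122, nat_lit 2623522, nat_lit 3584064, nat_lit 3587105, nat_lit 5625920, nat_lit 5477376],
 .step (nat_lit 131) [nat_lit 490563, nat_lit 485379, nat_lit 5703744, nat_lit 5704704],
 .sym (nat_lit 6157) true false false (nat_lit 5) (nat_lit 8),
 .step (nat_lit 71) [nat_lit 6180, nat_lit 5626880],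
 .step (nat_lit 99) [nat_lit 2339936, nat_lit 4694113, nat_lit 5628928],
 .step (nat_lit 68) [nat_lit 514112, nat_lit 515136, nat_lit 5630976, nat_lit 5629952],
 .step (nat_lit 37) [nat_lit 2641921, nat_lit 2643969, nat_lit 2802690, nat_lit 1495040, nat_lit 5261312],
 .sym (nat_lit 6162) true false false (nat_lit 8) (nat_lit 6),
 .sym (nat_lit 6162) false true false (nat_lit 8) (nat_lit 6),
 .sym (nat_lit 6162) false false true (nat_lit 8) (nat_lit 6),
 .step (nat_lit 99) [nat_lit 3592288, nat_lit 5633121, nat_lit 5628928],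
 .step (nat_lit 37) [nat_lit 2658306, nat_lit 978976, nat_lit 4703234, nat_lit 5210112],
 .sym (nat_lit 6167) true false false (nat_lit 8) (nat_lit 5),
 .step (nat_lit 129) [nat_lit 10241, nat_lit 5634048],
 .sym (nat_lit 6169) true false false (nat_lit 5) (nat_lit 5),
 .step (nat_lit 70) [nat_lit 521281, nat_lit 2781186, nat_lit 5637120],
 .step (nat_lit 66) [nat_lit 9281, nat_lit 5639168],
 .step (nat_lit 37) [nat_lit 10244, nat_lit 5640224],
 .step (nat_lit 101) [nat_lit 2655236, nat_lit 3431458, nat_lit 5641312],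
 .sym (nat_lit 6174) true true true (nat_lit 6) (nat_lit 9),
 .step (nat_lit 34) [nat_lit 11266, nat_lit 5642240],
 .step (nat_lit 35) [nat_lit 1267713, nat_lit 5453824, nat_lit 3609603],
 .step (nat_lit 131) [nat_lit 488450, nat_lit 486466, nat_lit 2902048, nat_lit 5649474],
 .step (nat_lit 96) [nat_lit 12288, nat_lit 5277728],
 .step (nat_lit 65) [nat_lit 13345, nat_lit 5654528],
 .step (nat_lit 36) [nat_lit 7169, nat_lit 5655552],
 .step (nat_lit 71) [nat_lit 4253700, nat_lit 4609060, nat_lit 4608034, nat_lit 5656608],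
 .sym (nat_lit 6182) true false false (nat_lit 10) (nat_lit 8),
 .step (nat_lit 101) [nat_lit 2121728, nat_lit 3103808, nat_lit 3189762, nat_lit 3502114],
 .step (nat_lit 134) [nat_lit 586850, nat_lit 2681920, nat_lit 2734082, nat_lit 5657635],
 .step (nat_lit 163) [nat_lit 490595, nat_lit 496739, nat_lit 5111904, nat_lit 5659648],
 .step (nat_lit 132) [nat_lit 3670019, nat_lit 4246563, nat_lit 5251075, nat_lit 5661696],
 .step (nat_lit 161) [nat_lit 216097, nat_lit 223265, nat_lit 277537, nat_lit 5662720],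
 .step (nat_lit 131) [nat_lit 223235, nat_lit 5664768, nat_lit 4749314],
 .step (nat_lit 33) [nat_lit 46113, nat_lit 5665792],
 .step (nat_lit 99) [nat_lit 23554, nat_lit 5669888],
 .step (nat_lit 226) [nat_lit 9408, nat_lit 5670913],
 .step (nat_lit 163) [nat_lit 3631168, nat_lit 4610144, nat_lit 3375136, nat_lit 3630144, nat_lit 4762656, nat_lit 5673024, nat_lit 4764672],
 .step (nat_lit 131) [nat_lit 3631136, nat_lit 4610112, nat_lit 3375104, nat_lit 4765728, nat_lit 5674016, nat_lit 5675008],
 .step (nat_lit 163) [nat_lit 2365473, nat_lit 723969, nat_lit 5676064],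
 .step (nat_lit 102) [nat_lit 2624549, nat_lit 3203138, nat_lit 5677056],
 .step (nat_lit 131) [nat_lit 223235, nat_lit 5460064, nat_lit 5678082],
 .step (nat_lit 130) [nat_lit 12322, nat_lit 5679104],
 .step (nat_lit 99) [nat_lit 18531, nat_lit 5680128],
 .step (nat_lit 99) [nat_lit 18531, nat_lit 5681152],
 .step (nat_lit 36) [nat_lit 232449, nat_lit 5327904],
 .step (nat_lit 131) [nat_lit 924800, nat_lit 926816, nat_lit 5683200, nat_lit 5682176],
 .step (nat_lit 35) [nat_lit 55298, nat_lit 1359873, nat_lit 4060160],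
 .sym (nat_lit 6203) true false false (nat_lit 7) (nat_lit 2),
 .step (nat_lit 131) [nat_lit 173089, nat_lit 2385921, nat_lit 5684224],
 .step (nat_lit 1) [nat_lit 9216, nat_lit 5392385],
 .sym (nat_lit 6206) true false false (nat_lit 7) (nat_lit 5),
 .step (nat_lit 38) [nat_lit 7171, nat_lit 5686272],
 .step (nat_lit 162) [nat_lit 47234, nat_lit 5689344],
 .step (nat_lit 68) [nat_lit 10275, nat_lit 5691392],
 .step (nat_lit 132) [nat_lit 494659, nat_lit 2649091, nat_lit 5196864],
 .step (nat_lit 67) [nat_lit 11266, nat_lit 5316640],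
 .sym (nat_lit 6212) true false false (nat_lit 5) (nat_lit 5),
 .sym (nat_lit 6212) false true false (nat_lit 5) (nat_lit 5),
 .step (nat_lit 37) [nat_lit 10244, nat_lit 5693440],
 .step (nat_lit 164) [nat_lit 2996258, nat_lit 2392066, nat_lit 3662850, nat_lit 5694496],
 .step (nat_lit 97) [nat_lit 54337, nat_lit 5294080],
 .step (nat_lit 129) [nat_lit 1357825, nat_lit 1362944, nat_lit 1370112, nat_lit 5698560],
 .step (nat_lit 99) [nat_lit 51299, nat_lit 5701632],
 .step (nat_lit 99) [nat_lit 498752, nat_lit 4441088, nat_lit 5697536],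
 .step (nat_lit 65) [nat_lit 13345, nat_lit 5706752],
 .step (nat_lit 130) [nat_lit 12322, nat_lit 5708800],
 .step (nat_lit 38) [nat_lit 1268739, nat_lit 5709824],
 .step (nat_lit 132) [nat_lit 486467, nat_lit 494659, nat_lit 2705411, nat_lit 5196864],
 .step (nat_lit 132) [nat_lit 5155, nat_lit 5716992],
 .step (nat_lit 132) [nat_lit 12323, nat_lit 5718016],
 .step (nat_lit 195) [nat_lit 1361986, nat_lit 4824160, nat_lit 5719042],
 .step (nat_lit 131) [nat_lit 3313666, nat_lit 3259394, nat_lit 4932608, nat_lit 5720096],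
 .step (nat_lit 99) [nat_lit 12322, nat_lit 5722112],
 .step (nat_lit 37) [nat_lit 10244, nat_lit 5724160],
 .step (nat_lit 132) [nat_lit 1360993, nat_lit 2163714, nat_lit 5452832],
 .step (nat_lit 131) [nat_lit 13411, nat_lit 5729280],
 .step (nat_lit 101) [nat_lit 2398272, nat_lit 2810880, nat_lit 5727232, nat_lit 3701760, nat_lit 5730304],
 .step (nat_lit 103) [nat_lit 1268804, nat_lit 5166145, nat_lit 5732352],
 .step (nat_lit 131) [nat_lit 2588769, nat_lit 2163713, nat_lit 3711008, nat_lit 4968449, nat_lit 5733376],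
 .step (nat_lit 131) [nat_lit 1351810, nat_lit 3402784, nat_lit 5725184],
 .step (nat_lit 131) [nat_lit 1585186, nat_lit 5726208],
 .step (nat_lit 98) [nat_lit 1354848, nat_lit 1360960, nat_lit 5439490],
 .step (nat_lit 131) [nat_lit 1352800, nat_lit 1365088, nat_lit 5276673],
 .step (nat_lit 135) [nat_lit 16483, nat_lit 5735424],
 .step (nat_lit 226) [nat_lit 9408, nat_lit 5447680],
 .step (nat_lit 131) [nat_lit 15363, nat_lit 5737472],
 .step (nat_lit 100) [nat_lit 10307, nat_lit 5741568],
 .step (nat_lit 39) [nat_lit 7204, nat_lit 5742592],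
 .step (nat_lit 6) [nat_lit 19458, nat_lit 5743616],
 .step (nat_lit 69) [nat_lit 7234, nat_lit 5745664],
 .step (nat_lit 100) [nat_lit 1825859, nat_lit 4310080, nat_lit 4398115, nat_lit 5493795, nat_lit 5747713, nat_lit 5746688],
 .step (nat_lit 195) [nat_lit 2613314, nat_lit 2042912, nat_lit 4411488, nat_lit 5494784, nat_lit 5216320],
 .step (nat_lit 131) [nat_lit 5159968, nat_lit 3725312, nat_lit 3254272]]

theorem c6000 : checkFrom tbl r6000 (nat_lit 6250) (nat_lit 6000) = true := by decide +kernel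

end Crest.Agent.R035
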