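import Crest.Agent.R035.Table

set_option autoImplicit false
set_option maxRecDepth 100000

namespace Crest.Agent.R035

noncomputable def r250 : List Rule := [
 .sym (nat_lit 249) false true false (nat_lit 4) (nat_lit 4),
 .step (nat_lit 36) [nat_lit 9216, nat_lit 7169],
 .sym (nat_lit 251) true true false (nat_lit 5) (nat_lit 1),
 .sym (nat_lit 251) true true true (nat_lit 5) (nat_lit 1),
 .sym (nat_lit 251) false false true (nat_lit 5) (nat_lit 1),
 .sym (nat_lit 251) true false true (nat_lit 5) (nat_lit 1),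
 .sym (nat_lit 251) false true true (nat_lit 5) (nat_lit 1),
 .step (nat_lit 3) [nat_lit 25600, nat_lit 31745],
 .sym (nat_lit 257) false true true (nat_lit 5) (nat_lit 1),
 .step (nat_lit 1) [nat_lit 5121, nat_lit 15360],
 .sym (nat_lit 259) true true true (nat_lit 2) (nat_lit 4),
 .sym (nat_lit 259) false false true (nat_lit 2) (nat_lit 4),
 .sym (nat_lit 259) false true false (nat_lit 2) (nat_lit 4),
 .sym (nat_lit 259) true true false (nat_lit 2) (nat_lit 4),
 .sym (nat_lit 259) true false true (nat_lit 2) (nat_lit 4),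
 .step (nat_lit 99) [nat_lit 12291, nat_lit 25664],
 .sym (nat_lit 265) false true true (nat_lit 4) (nat_lit 4),
 .sym (nat_lit 265) false false true (nat_lit 4) (nat_lit 4),
 .sym (nat_lit 265) true false true (nat_lit 4) (nat_lit 4),
 .sym (nat_lit 265) false true false (nat_lit 4) (nat_lit 4),
 .step (nat_lit 65) [nat_lit 11264, nat_lit 22561],
 .step (nat_lit 96) [nat_lit 22560, nat_lit 33792],
 .sym (nat_lit 271) false true false (nat_lit 1) (nat_lit 5),
 .sym (nat_lit 271) true true false (nat_lit 1) (nat_lit 5),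
 .sym (nat_lit 271) true false false (nat_lit 1) (nat_lit 5),
 .sym (nat_lit 271) false false true (nat_lit 1) (nat_lit 5),
 .sym (nat_lit 271) false true true (nat_lit 1) (nat_lit 5),
 .step (nat_lit 99) [nat_lit 12291, nat_lit 8288],
 .sym (nat_lit 277) false true true (nat_lit 4) (nat_lit 4),
 .step (nat_lit 1) [nat_lit 26624, nat_lit 27649],
 .step (nat_lit 0) [nat_lit 39936, nat_lit 31744],
 .sym (nat_lit 280) false false true (nat_lit 4) (nat_lit 1),
 .step (nat_lit 100) [nat_lit 5123, nat_lit 29760],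
 .step (nat_lit 36) [nat_lit 32800, nat_lit 31744],
 .sym (nat_lit 283) false true true (nat_lit 4) (nat_lit 2),
 .sym (nat_lit 283) true true false (nat_lit 4) (nat_lit 2),
 .step (nat_lit 32) [nat_lit 11264, nat_lit 35840],
 .sym (nat_lit 286) true true false (nat_lit 4) (nat_lit 4),
 .step (nat_lit 128) [nat_lit 13408, nat_lit 15360],
 .sym (nat_lit 288) false true true (nat_lit 4) (nat_lit 4),
 .sym (nat_lit 288) true true false (nat_lit 4) (nat_lit 4),
 .step (nat_lit 65) [nat_lit 5153, nat_lit 11264],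
 .sym (nat_lit 291) false true true (nat_lit 2) (nat_lit 5),
 .sym (nat_lit 291) true true true (nat_lit 2) (nat_lit 5),
 .sym (nat_lit 291) true false true (nat_lit 2) (nat_lit 5),
 .sym (nat_lit 291) true true false (nat_lit 2) (nat_lit 5),
 .sym (nat_lit 291) true false false (nat_lit 2) (nat_lit 5),
 .step (nat_lit 3) [nat_lit 21504, nat_lit 27651],
 .sym (nat_lit 297) true false false (nat_lit 4) (nat_lit 4),
 .step (nat_lit 129) [nat_lit 8288, nat_lit 17408],
 .step (nat_lit 97) [nat_lit 8288, nat_lit 50177],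
 .step (nat_lit 99) [nat_lit 5123, nat_lit 32864],
 .step (nat_lit 32) [nat_lit 26624, nat_lit 39968],
 .step (nat_lit 34) [nat_lit 9216, nat_lit 24577],
 .sym (nat_lit 303) true true false (nat_lit 5) (nat_lit 1),
 .step (nat_lit 1) [nat_lit 34817, nat_lit 52224],
 .step (nat_lit 35) [nat_lit 10243, nat_lit 42016],
 .sym (nat_lit 306) true true true (nat_lit 4) (nat_lit 4),
 .sym (nat_lit 306) true false true (nat_lit 4) (nat_lit 4),
 .step (nat_lit 97) [nat_lit 9280, nat_lit 46081],
 .step (nat_lit 34) [nat_lit 6178, nat_lit 29696],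
 .step (nat_lit 35) [nat_lit 6176, nat_lit 11266],
 .sym (nat_lit 311) true false true (nat_lit 4) (nat_lit 4),
 .step (nat_lit 65) [nat_lit 9280, nat_lit 5121],
 .sym (nat_lit 313) false false true (nat_lit 4) (nat_lit 4),
 .sym (nat_lit 313) false true false (nat_lit 4) (nat_lit 4),
 .sym (nat_lit 313) true true true (nat_lit 4) (nat_lit 4),
 .sym (nat_lit 313) false true true (nat_lit 4) (nat_lit 4),
 .step (nat_lit 129) [nat_lit 8288, nat_lit 34816],
 .step (nat_lit 3) [nat_lit 6145, nat_lit 16384],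
 .step (nat_lit 100) [nat_lit 5123, nat_lit 49248],
 .sym (nat_lit 320) false true true (nat_lit 4) (nat_lit 4),
 .step (nat_lit 33) [nat_lit 26624, nat_lit 22528],
 .step (nat_lit 65) [nat_lit 9280, nat_lit 50176],
 .step (nat_lit 33) [nat_lit 12320, nat_lit 14337],
 .sym (nat_lit 324) false true false (nat_lit 2) (nat_lit 5),
 .sym (nat_lit 324) true true true (nat_lit 2) (nat_lit 5),
 .step (nat_lit 32) [nat_lit 38912, nat_lit 29728],
 .step (nat_lit 129) [nat_lit 5152, nat_lit 15361],
 .sym (nat_lit 328) false true false (nat_lit 2) (nat_lit 5),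
 .sym (nat_lit 328) true false true (nat_lit 2) (nat_lit 5),
 .step (nat_lit 33) [nat_lit 11265, nat_lit 44032],
 .step (nat_lit 34) [nat_lit 26657, nat_lit 29696],
 .sym (nat_lit 332) true false false (nat_lit 5) (nat_lit 2),
 .step (nat_lit 35) [nat_lit 10243, nat_lit 38944],
 .step (nat_lit 129) [nat_lit 8288, nat_lit 23552],
 .step (nat_lit 64) [nat_lit 23552, nat_lit 53312],
 .step (nat_lit 3) [nat_lit 8192, nat_lit 6145],
 .sym (nat_lit 337) false true false (nat_lit 5) (nat_lit 1),
 .sym (nat_lit 337) true false false (nat_lit 5) (nat_lit 1),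
 .sym (nat_lit 337) true false true (nat_lit 5) (nat_lit 1),
 .sym (nat_lit 337) false false true (nat_lit 5) (nat_lit 1),
 .sym (nat_lit 337) false true true (nat_lit 5) (nat_lit 1),
 .sym (nat_lit 337) true true true (nat_lit 5) (nat_lit 1),
 .sym (nat_lit 337) true true false (nat_lit 5) (nat_lit 1),
 .step (nat_lit 3) [nat_lit 21504, nat_lit 51203],
 .step (nat_lit 65) [nat_lit 5153, nat_lit 28672],
 .sym (nat_lit 346) false true true (nat_lit 2) (nat_lit 5),
 .step (nat_lit 32) [nat_lit 24608, nat_lit 26624],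
 .sym (nat_lit 348) true false false (nat_lit 4) (nat_lit 2),
 .sym (nat_lit 348) false false true (nat_lit 4) (nat_lit 2),
 .step (nat_lit 65) [nat_lit 5121, nat_lit 15360],
 .step (nat_lit 33) [nat_lit 9248, nat_lit 41985],
 .sym (nat_lit 352) true true true (nat_lit 5) (nat_lit 2),
 .sym (nat_lit 352) true false false (nat_lit 5) (nat_lit 2),
 .step (nat_lit 33) [nat_lit 14368, nat_lit 30720],
 .sym (nat_lit 355) true true false (nat_lit 1) (nat_lit 5),
 .sym (nat_lit 355) true false false (nat_lit 1) (nat_lit 5),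
 .step (nat_lit 98) [nat_lit 6240, nat_lit 5121],
 .step (nat_lit 33) [nat_lit 17441, nat_lit 35840],
 .step (nat_lit 97) [nat_lit 12320, nat_lit 14337],
 .sym (nat_lit 360) true false false (nat_lit 2) (nat_lit 5),
 .step (nat_lit 32) [nat_lit 5120, nat_lit 22528],
 .step (nat_lit 36) [nat_lit 11267, nat_lit 35872],
 .step (nat_lit 2) [nat_lit 24577, nat_lit 31744],
 .sym (nat_lit 364) false true true (nat_lit 5) (nat_lit 1),
 .step (nat_lit 32) [nat_lit 10240, nat_lit 24608],
 .step (nat_lit 99) [nat_lit 7264, nat_lit 11266],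
 .step (nat_lit 67) [nat_lit 21568, nat_lit 28674],
 .step (nat_lit 99) [nat_lit 7264, nat_lit 45059],
 .sym (nat_lit 369) true false false (nat_lit 4) (nat_lit 4),
 .sym (nat_lit 369) false false true (nat_lit 4) (nat_lit 4),
 .step (nat_lit 65) [nat_lit 5121, nat_lit 27648],
 .sym (nat_lit 372) false false true (nat_lit 2) (nat_lit 4),
 .sym (nat_lit 372) true false true (nat_lit 2) (nat_lit 4),
 .step (nat_lit 96) [nat_lit 12288, nat_lit 37984],
 .step (nat_lit 68) [nat_lit 19520, nat_lit 30724],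
 .sym (nat_lit 376) true true true (nat_lit 5) (nat_lit 4),
 .step (nat_lit 35) [nat_lit 25600, nat_lit 32800],
 .sym (nat_lit 378) true true false (nat_lit 4) (nat_lit 2),
 .step (nat_lit 132) [nat_lit 28676, nat_lit 16480],
 .step (nat_lit 33) [nat_lit 22528, nat_lit 27649],
 .step (nat_lit 129) [nat_lit 53248, nat_lit 49249],
 .step (nat_lit 99) [nat_lit 28675, nat_lit 42080],
 .step (nat_lit 34) [nat_lit 7170, nat_lit 29696],
 .sym (nat_lit 384) false true true (nat_lit 6) (nat_lit 1),
 .step (nat_lit 35) [nat_lit 21536, nat_lit 37888],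
 .step (nat_lit 33) [nat_lit 19457, nat_lit 20480],
 .sym (nat_lit 387) false true false (nat_lit 5) (nat_lit 1),
 .sym (nat_lit 387) false true true (nat_lit 5) (nat_lit 1),
 .step (nat_lit 97) [nat_lit 11264, nat_lit 17440],
 .sym (nat_lit 390) false false true (nat_lit 1) (nat_lit 5),
 .sym (nat_lit 390) true false false (nat_lit 1) (nat_lit 5),
 .step (nat_lit 99) [nat_lit 28675, nat_lit 37984],
 .step (nat_lit 34) [nat_lit 26656, nat_lit 21504],
 .step (nat_lit 32) [nat_lit 24608, nat_lit 41984],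
 .step (nat_lit 129) [nat_lit 26720, nat_lit 28673],
 .step (nat_lit 32) [nat_lit 39968, nat_lit 47104],
 .step (nat_lit 97) [nat_lit 26720, nat_lit 23552],
 .step (nat_lit 97) [nat_lit 22529, nat_lit 21568],
 .step (nat_lit 36) [nat_lit 14371, nat_lit 29696],
 .step (nat_lit 34) [nat_lit 11266, nat_lit 29696],
 .step (nat_lit 65) [nat_lit 28672, nat_lit 38976],
 .step (nat_lit 67) [nat_lit 6176, nat_lit 53250],
 .sym (nat_lit 403) true false true (nat_lit 4) (nat_lit 4),
 .step (nat_lit 65) [nat_lit 22592, nat_lit 28672],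
 .sym (nat_lit 405) true false false (nat_lit 1) (nat_lit 6),
 .step (nat_lit 98) [nat_lit 5121, nat_lit 21568],
 .step (nat_lit 35) [nat_lit 27650, nat_lit 25632],
 .sym (nat_lit 408) true true false (nat_lit 4) (nat_lit 4),
 .step (nat_lit 1) [nat_lit 22528, nat_lit 34817],
 .step (nat_lit 34) [nat_lit 21504, nat_lit 24576],
 .step (nat_lit 3) [nat_lit 22530, nat_lit 37888],
 .step (nat_lit 128) [nat_lit 42080, nat_lit 52224],
 .step (nat_lit 35) [nat_lit 9216, nat_lit 19457],
 .step (nat_lit 3) [nat_lit 27651, nat_lit 37888],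
 .step (nat_lit 33) [nat_lit 5121, nat_lit 15360],
 .step (nat_lit 130) [nat_lit 21600, nat_lit 15362],
 .step (nat_lit 97) [nat_lit 22529, nat_lit 15360],
 .step (nat_lit 0) [nat_lit 27648, nat_lit 20480],
 .sym (nat_lit 419) false true true (nat_lit 4) (nat_lit 4),
 .step (nat_lit 2) [nat_lit 27650, nat_lit 31744],
 .step (nat_lit 129) [nat_lit 9312, nat_lit 11264],
 .step (nat_lit 34) [nat_lit 13345, nat_lit 29696],
 .step (nat_lit 4) [nat_lit 21504, nat_lit 27652],
 .step (nat_lit 3) [nat_lit 18435, nat_lit 38912],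
 .step (nat_lit 2) [nat_lit 29697, nat_lit 31744],
 .sym (nat_lit 426) true true false (nat_lit 5) (nat_lit 1),
 .step (nat_lit 3) [nat_lit 37888, nat_lit 30722],
 .step (nat_lit 99) [nat_lit 7264, nat_lit 44034],
 .step (nat_lit 2) [nat_lit 31744, nat_lit 50177],
 .step (nat_lit 2) [nat_lit 12289, nat_lit 31744],
 .step (nat_lit 34) [nat_lit 43009, nat_lit 29696],
 .step (nat_lit 2) [nat_lit 43009, nat_lit 31744],
 .step (nat_lit 97) [nat_lit 27648, nat_lit 25696],
 .step (nat_lit 34) [nat_lit 26656, nat_lit 53250],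
 .step (nat_lit 32) [nat_lit 23552, nat_lit 48160],
 .step (nat_lit 36) [nat_lit 25600, nat_lit 27684],
 .step (nat_lit 35) [nat_lit 7169, nat_lit 16416],
 .step (nat_lit 97) [nat_lit 9312, nat_lit 30721],
 .step (nat_lit 67) [nat_lit 5123, nat_lit 48192],
 .step (nat_lit 32) [nat_lit 14336, nat_lit 18432],
 .step (nat_lit 3) [nat_lit 26624, nat_lit 25600],
 .sym (nat_lit 442) true true false (nat_lit 4) (nat_lit 1),
 .step (nat_lit 34) [nat_lit 28673, nat_lit 29696],
 .step (nat_lit 34) [nat_lit 8224, nat_lit 19456],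
 .step (nat_lit 35) [nat_lit 41984, nat_lit 53251],
 .step (nat_lit 34) [nat_lit 43041, nat_lit 32768],
 .step (nat_lit 34) [nat_lit 21504, nat_lit 27682],
 .step (nat_lit 33) [nat_lit 43008, nat_lit 39936],
 .step (nat_lit 97) [nat_lit 11264, nat_lit 5185],
 .step (nat_lit 128) [nat_lit 14336, nat_lit 54272],
 .sym (nat_lit 451) true false true (nat_lit 1) (nat_lit 5),
 .sym (nat_lit 451) false false true (nat_lit 1) (nat_lit 5),
 .sym (nat_lit 451) true false false (nat_lit 1) (nat_lit 5),
 .sym (nat_lit 451) true true true (nat_lit 1) (nat_lit 5),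
 .sym (nat_lit 451) false true false (nat_lit 1) (nat_lit 5),
 .sym (nat_lit 451) false true true (nat_lit 1) (nat_lit 5),
 .step (nat_lit 128) [nat_lit 15360, nat_lit 62496],
 .sym (nat_lit 458) true true true (nat_lit 2) (nat_lit 5),
 .sym (nat_lit 458) true false true (nat_lit 2) (nat_lit 5),
 .step (nat_lit 129) [nat_lit 14337, nat_lit 61440],
 .sym (nat_lit 461) false false true (nat_lit 2) (nat_lit 5),
 .sym (nat_lit 461) true false true (nat_lit 2) (nat_lit 5),
 .sym (nat_lit 461) true false false (nat_lit 2) (nat_lit 5),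
 .sym (nat_lit 461) true true true (nat_lit 2) (nat_lit 5),
 .sym (nat_lit 461) false true true (nat_lit 2) (nat_lit 5),
 .sym (nat_lit 461) true true false (nat_lit 2) (nat_lit 5),
 .step (nat_lit 35) [nat_lit 7200, nat_lit 73730],
 .sym (nat_lit 468) true true false (nat_lit 4) (nat_lit 5),
 .sym (nat_lit 468) false true false (nat_lit 4) (nat_lit 5),
 .sym (nat_lit 468) true true true (nat_lit 4) (nat_lit 5),
 .sym (nat_lit 468) false true true (nat_lit 4) (nat_lit 5),
 .sym (nat_lit 468) true false false (nat_lit 4) (nat_lit 5),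
 .step (nat_lit 65) [nat_lit 22592, nat_lit 82944],
 .sym (nat_lit 474) true true false (nat_lit 1) (nat_lit 6),
 .sym (nat_lit 474) false false true (nat_lit 1) (nat_lit 6),
 .sym (nat_lit 474) true false false (nat_lit 1) (nat_lit 6),
 .sym (nat_lit 474) false true true (nat_lit 1) (nat_lit 6),
 .sym (nat_lit 474) false true false (nat_lit 1) (nat_lit 6),
 .sym (nat_lit 474) true true true (nat_lit 1) (nat_lit 6),
 .sym (nat_lit 474) true false true (nat_lit 1) (nat_lit 6),
 .step (nat_lit 65) [nat_lit 22592, nat_lit 89088],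
 .sym (nat_lit 482) true true false (nat_lit 1) (nat_lit 6),
 .sym (nat_lit 482) true false false (nat_lit 1) (nat_lit 6),
 .sym (nat_lit 482) false true false (nat_lit 1) (nat_lit 6),
 .sym (nat_lit 482) false true true (nat_lit 1) (nat_lit 6),
 .sym (nat_lit 482) false false true (nat_lit 1) (nat_lit 6),
 .sym (nat_lit 482) true true true (nat_lit 1) (nat_lit 6),
 .sym (nat_lit 482) true false true (nat_lit 1) (nat_lit 6),
 .step (nat_lit 33) [nat_lit 11264, nat_lit 54305],
 .step (nat_lit 129) [nat_lit 26720, nat_lit 97280],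
 .sym (nat_lit 491) false true true (nat_lit 4) (nat_lit 5),
 .sym (nat_lit 491) true true false (nat_lit 4) (nat_lit 5),
 .sym (nat_lit 491) true true true (nat_lit 4) (nat_lit 5),
 .step (nat_lit 65) [nat_lit 8224, nat_lit 105473],
 .sym (nat_lit 495) false true true (nat_lit 5) (nat_lit 2),
 .sym (nat_lit 495) false false true (nat_lit 5) (nat_lit 2),
 .sym (nat_lit 495) true false false (nat_lit 5) (nat_lit 2),
 .sym (nat_lit 495) false true false (nat_lit 5) (nat_lit 2)]

theorem c250 : checkFrom tbl r250 (nat_lit 500) (nat_lit 250) = true := by decide +kernel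

noncomputable def r2250 : List Rule := [
 .step (nat_lit 35) [nat_lit 500768, nat_lit 803842, nat_lit 933890],
 .step (nat_lit 37) [nat_lit 7202, nat_lit 1222656],
 .step (nat_lit 97) [nat_lit 26688, nat_lit 705536],
 .step (nat_lit 98) [nat_lit 22562, nat_lit 1224704],
 .step (nat_lit 132) [nat_lit 37984, nat_lit 1187840],
 .step (nat_lit 132) [nat_lit 488451, nat_lit 1078368],
 .step (nat_lit 97) [nat_lit 14337, nat_lit 778272],
 .step (nat_lit 35) [nat_lit 26657, nat_lit 704512],
 .step (nat_lit 99) [nat_lit 500832, nat_lit 297986],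
 .step (nat_lit 101) [nat_lit 563202, nat_lit 1140800],
 .step (nat_lit 160) [nat_lit 49280, nat_lit 525312],
 .step (nat_lit 1) [nat_lit 24576, nat_lit 921601],
 .step (nat_lit 100) [nat_lit 6209, nat_lit 1186816],
 .step (nat_lit 131) [nat_lit 488450, nat_lit 1226848],
 .step (nat_lit 66) [nat_lit 22530, nat_lit 1078304],
 .step (nat_lit 100) [nat_lit 492608, nat_lit 1227779],
 .sym (nat_lit 2265) false false true (nat_lit 6) (nat_lit 6),
 .step (nat_lit 132) [nat_lit 10244, nat_lit 1067040],
 .step (nat_lit 3) [nat_lit 22530, nat_lit 550912],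
 .step (nat_lit 34) [nat_lit 17442, nat_lit 1229824],
 .step (nat_lit 129) [nat_lit 12352, nat_lit 502785],
 .step (nat_lit 34) [nat_lit 11265, nat_lit 753696],
 .step (nat_lit 67) [nat_lit 7200, nat_lit 685058],
 .step (nat_lit 99) [nat_lit 9281, nat_lit 846848],
 .step (nat_lit 100) [nat_lit 5123, nat_lit 1234944],
 .step (nat_lit 36) [nat_lit 11268, nat_lit 869376],
 .step (nat_lit 66) [nat_lit 22530, nat_lit 1236992],
 .step (nat_lit 65) [nat_lit 466945, nat_lit 848960],
 .step (nat_lit 36) [nat_lit 10244, nat_lit 1238048],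
 .step (nat_lit 131) [nat_lit 628739, nat_lit 392192],
 .step (nat_lit 97) [nat_lit 9280, nat_lit 619520],
 .step (nat_lit 34) [nat_lit 99328, nat_lit 665633],
 .step (nat_lit 36) [nat_lit 158720, nat_lit 144384, nat_lit 668672],
 .step (nat_lit 65) [nat_lit 9280, nat_lit 1102848],
 .step (nat_lit 2) [nat_lit 44034, nat_lit 1042432],
 .step (nat_lit 4) [nat_lit 27652, nat_lit 608256],
 .step (nat_lit 65) [nat_lit 39968, nat_lit 1239040],
 .sym (nat_lit 2286) true true true (nat_lit 4) (nat_lit 4),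
 .step (nat_lit 35) [nat_lit 491552, nat_lit 577538],
 .sym (nat_lit 2288) true false false (nat_lit 6) (nat_lit 5),
 .step (nat_lit 130) [nat_lit 12322, nat_lit 1162240],
 .step (nat_lit 37) [nat_lit 31745, nat_lit 949280],
 .sym (nat_lit 2291) true false false (nat_lit 6) (nat_lit 2),
 .sym (nat_lit 2291) false true true (nat_lit 6) (nat_lit 2),
 .step (nat_lit 33) [nat_lit 9216, nat_lit 1240064],
 .step (nat_lit 64) [nat_lit 29760, nat_lit 573440],
 .step (nat_lit 33) [nat_lit 11265, nat_lit 1241120],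
 .step (nat_lit 99) [nat_lit 5123, nat_lit 548864],
 .step (nat_lit 129) [nat_lit 206880, nat_lit 760832],
 .step (nat_lit 98) [nat_lit 5121, nat_lit 1244160],
 .step (nat_lit 1) [nat_lit 22528, nat_lit 462849],
 .step (nat_lit 34) [nat_lit 6177, nat_lit 506880],
 .step (nat_lit 65) [nat_lit 19489, nat_lit 539648],
 .step (nat_lit 129) [nat_lit 588801, nat_lit 1246209, nat_lit 1245184],
 .step (nat_lit 99) [nat_lit 43010, nat_lit 844800],
 .step (nat_lit 67) [nat_lit 70688, nat_lit 756736],
 .sym (nat_lit 2305) true true false (nat_lit 5) (nat_lit 5),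
 .step (nat_lit 130) [nat_lit 7264, nat_lit 697344],
 .step (nat_lit 163) [nat_lit 570432, nat_lit 896000],
 .step (nat_lit 162) [nat_lit 12354, nat_lit 1247232],
 .step (nat_lit 99) [nat_lit 7264, nat_lit 697344],
 .sym (nat_lit 2310) true true false (nat_lit 4) (nat_lit 5),
 .step (nat_lit 97) [nat_lit 64512, nat_lit 947200],
 .step (nat_lit 35) [nat_lit 6179, nat_lit 1009664],
 .step (nat_lit 98) [nat_lit 5121, nat_lit 868352],
 .step (nat_lit 36) [nat_lit 10243, nat_lit 1249312],
 .step (nat_lit 162) [nat_lit 6305, nat_lit 871424],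
 .step (nat_lit 162) [nat_lit 7297, nat_lit 871424],
 .step (nat_lit 160) [nat_lit 42112, nat_lit 794624],
 .step (nat_lit 68) [nat_lit 38976, nat_lit 1251331],
 .step (nat_lit 100) [nat_lit 5123, nat_lit 1252352],
 .step (nat_lit 3) [nat_lit 7168, nat_lit 1253376],
 .step (nat_lit 35) [nat_lit 26656, nat_lit 1254400],
 .step (nat_lit 99) [nat_lit 24641, nat_lit 715776],
 .step (nat_lit 35) [nat_lit 11266, nat_lit 1213440],
 .step (nat_lit 34) [nat_lit 26656, nat_lit 703488],
 .step (nat_lit 98) [nat_lit 24640, nat_lit 1139712],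
 .sym (nat_lit 2326) false true false (nat_lit 4) (nat_lit 4),
 .step (nat_lit 36) [nat_lit 7201, nat_lit 1256448],
 .step (nat_lit 131) [nat_lit 52227, nat_lit 1255424],
 .step (nat_lit 33) [nat_lit 44065, nat_lit 1128448],
 .step (nat_lit 99) [nat_lit 7264, nat_lit 1257472],
 .step (nat_lit 65) [nat_lit 8224, nat_lit 1096704],
 .step (nat_lit 65) [nat_lit 53248, nat_lit 702464],
 .step (nat_lit 131) [nat_lit 174112, nat_lit 651264],
 .step (nat_lit 130) [nat_lit 33826, nat_lit 807936],
 .step (nat_lit 129) [nat_lit 546816, nat_lit 200768],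
 .step (nat_lit 68) [nat_lit 52228, nat_lit 1206272],
 .step (nat_lit 68) [nat_lit 52228, nat_lit 915456],
 .step (nat_lit 33) [nat_lit 45088, nat_lit 1233921],
 .step (nat_lit 99) [nat_lit 498752, nat_lit 98307],
 .step (nat_lit 99) [nat_lit 7264, nat_lit 1263616],
 .step (nat_lit 34) [nat_lit 1267712, nat_lit 1268738],
 .sym (nat_lit 2342) true false true (nat_lit 7) (nat_lit 2),
 .sym (nat_lit 2342) false false true (nat_lit 7) (nat_lit 2),
 .sym (nat_lit 2342) true true false (nat_lit 7) (nat_lit 2),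
 .step (nat_lit 96) [nat_lit 488448, nat_lit 420960],
 .step (nat_lit 98) [nat_lit 7233, nat_lit 874496],
 .step (nat_lit 99) [nat_lit 5122, nat_lit 483328],
 .step (nat_lit 33) [nat_lit 26625, nat_lit 1276928],
 .step (nat_lit 0) [nat_lit 44032, nat_lit 1054720],
 .step (nat_lit 132) [nat_lit 11267, nat_lit 1309696],
 .step (nat_lit 98) [nat_lit 28674, nat_lit 1277952],
 .step (nat_lit 67) [nat_lit 350210, nat_lit 1129472],
 .step (nat_lit 66) [nat_lit 31808, nat_lit 523266],
 .step (nat_lit 3) [nat_lit 37888, nat_lit 775170],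
 .step (nat_lit 3) [nat_lit 37888, nat_lit 1280000],
 .step (nat_lit 129) [nat_lit 6273, nat_lit 1059840],
 .step (nat_lit 37) [nat_lit 26658, nat_lit 1281024],
 .step (nat_lit 99) [nat_lit 42048, nat_lit 1263616],
 .step (nat_lit 68) [nat_lit 18500, nat_lit 1282048],
 .step (nat_lit 68) [nat_lit 10276, nat_lit 1282048],
 .step (nat_lit 99) [nat_lit 661568, nat_lit 1263616],
 .step (nat_lit 3) [nat_lit 37888, nat_lit 998400],
 .step (nat_lit 97) [nat_lit 9312, nat_lit 1314816],
 .step (nat_lit 6) [nat_lit 40966, nat_lit 1283072],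
 .step (nat_lit 98) [nat_lit 30722, nat_lit 540672],
 .step (nat_lit 130) [nat_lit 7265, nat_lit 1286144],
 .step (nat_lit 129) [nat_lit 48257, nat_lit 717824],
 .step (nat_lit 132) [nat_lit 5155, nat_lit 1225728],
 .step (nat_lit 35) [nat_lit 20481, nat_lit 470016],
 .step (nat_lit 33) [nat_lit 14337, nat_lit 947200],
 .step (nat_lit 38) [nat_lit 6147, nat_lit 1287200],
 .step (nat_lit 132) [nat_lit 64515, nat_lit 988192],
 .step (nat_lit 132) [nat_lit 33796, nat_lit 1120352],
 .step (nat_lit 100) [nat_lit 37952, nat_lit 1176576],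
 .step (nat_lit 164) [nat_lit 18467, nat_lit 1289216],
 .step (nat_lit 100) [nat_lit 498784, nat_lit 1083393],
 .step (nat_lit 36) [nat_lit 7170, nat_lit 545792],
 .step (nat_lit 129) [nat_lit 13409, nat_lit 1290240],
 .step (nat_lit 67) [nat_lit 535616, nat_lit 1108992],
 .step (nat_lit 99) [nat_lit 153602, nat_lit 482368],
 .step (nat_lit 65) [nat_lit 11264, nat_lit 571424],
 .step (nat_lit 99) [nat_lit 98307, nat_lit 787520],
 .step (nat_lit 130) [nat_lit 28706, nat_lit 1143808],
 .step (nat_lit 34) [nat_lit 176129, nat_lit 1300512],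
 .step (nat_lit 98) [nat_lit 12290, nat_lit 1294368],
 .step (nat_lit 100) [nat_lit 20544, nat_lit 572417],
 .step (nat_lit 164) [nat_lit 16512, nat_lit 1295360],
 .step (nat_lit 161) [nat_lit 8320, nat_lit 1297409],
 .step (nat_lit 132) [nat_lit 9312, nat_lit 607232],
 .step (nat_lit 97) [nat_lit 12352, nat_lit 736257],
 .step (nat_lit 129) [nat_lit 49249, nat_lit 1158144],
 .step (nat_lit 35) [nat_lit 10243, nat_lit 1041408],
 .step (nat_lit 65) [nat_lit 26656, nat_lit 822273],
 .sym (nat_lit 2394) true true true (nat_lit 4) (nat_lit 6),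
 .step (nat_lit 99) [nat_lit 9280, nat_lit 854016],
 .step (nat_lit 98) [nat_lit 24640, nat_lit 653312],
 .step (nat_lit 100) [nat_lit 20580, nat_lit 1174528],
 .step (nat_lit 33) [nat_lit 569344, nat_lit 1160192],
 .step (nat_lit 132) [nat_lit 43012, nat_lit 1250400],
 .step (nat_lit 99) [nat_lit 486402, nat_lit 491584],
 .step (nat_lit 65) [nat_lit 8224, nat_lit 595969],
 .step (nat_lit 66) [nat_lit 481280, nat_lit 479232],
 .step (nat_lit 100) [nat_lit 5123, nat_lit 1033216],
 .step (nat_lit 67) [nat_lit 11266, nat_lit 862240],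
 .step (nat_lit 68) [nat_lit 48160, nat_lit 633857],
 .step (nat_lit 161) [nat_lit 734273, nat_lit 864256],
 .step (nat_lit 36) [nat_lit 53251, nat_lit 513024],
 .step (nat_lit 97) [nat_lit 46080, nat_lit 705536],
 .step (nat_lit 132) [nat_lit 32896, nat_lit 689153],
 .step (nat_lit 97) [nat_lit 9280, nat_lit 1157120],
 .step (nat_lit 65) [nat_lit 6209, nat_lit 1305600],
 .step (nat_lit 128) [nat_lit 47200, nat_lit 1306624],
 .step (nat_lit 97) [nat_lit 27648, nat_lit 935008],
 .step (nat_lit 67) [nat_lit 25632, nat_lit 494594],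
 .step (nat_lit 2) [nat_lit 44034, nat_lit 1230848],
 .step (nat_lit 65) [nat_lit 8224, nat_lit 1307648],
 .step (nat_lit 132) [nat_lit 64515, nat_lit 1293344],
 .step (nat_lit 3) [nat_lit 7168, nat_lit 1273858],
 .step (nat_lit 68) [nat_lit 16416, nat_lit 797699],
 .step (nat_lit 65) [nat_lit 8224, nat_lit 1311745],
 .step (nat_lit 97) [nat_lit 21568, nat_lit 1207296],
 .step (nat_lit 68) [nat_lit 67648, nat_lit 673793],
 .step (nat_lit 129) [nat_lit 9312, nat_lit 1314816],
 .step (nat_lit 65) [nat_lit 27648, nat_lit 474177],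
 .step (nat_lit 99) [nat_lit 11266, nat_lit 500832],
 .step (nat_lit 98) [nat_lit 183297, nat_lit 545856],
 .step (nat_lit 65) [nat_lit 509984, nat_lit 1084416],
 .step (nat_lit 101) [nat_lit 22533, nat_lit 659520],
 .step (nat_lit 34) [nat_lit 29696, nat_lit 1036289],
 .step (nat_lit 99) [nat_lit 39008, nat_lit 479233],
 .step (nat_lit 96) [nat_lit 16480, nat_lit 1315840],
 .step (nat_lit 68) [nat_lit 9248, nat_lit 770049],
 .step (nat_lit 35) [nat_lit 26657, nat_lit 1317888],
 .step (nat_lit 99) [nat_lit 977984, nat_lit 765954],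
 .step (nat_lit 65) [nat_lit 9280, nat_lit 1139713],
 .step (nat_lit 35) [nat_lit 11267, nat_lit 1318944],
 .step (nat_lit 193) [nat_lit 8352, nat_lit 1161217],
 .step (nat_lit 65) [nat_lit 11264, nat_lit 1319968],
 .step (nat_lit 100) [nat_lit 496643, nat_lit 79936],
 .step (nat_lit 69) [nat_lit 10245, nat_lit 465984],
 .step (nat_lit 99) [nat_lit 7264, nat_lit 1321984],
 .step (nat_lit 131) [nat_lit 10243, nat_lit 812064],
 .step (nat_lit 34) [nat_lit 29696, nat_lit 654337],
 .step (nat_lit 3) [nat_lit 37888, nat_lit 734211],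
 .step (nat_lit 33) [nat_lit 49153, nat_lit 1137664],
 .step (nat_lit 132) [nat_lit 6273, nat_lit 1059840],
 .step (nat_lit 132) [nat_lit 1059840, nat_lit 537665],
 .step (nat_lit 130) [nat_lit 752705, nat_lit 1059840],
 .step (nat_lit 36) [nat_lit 25600, nat_lit 601090],
 .step (nat_lit 132) [nat_lit 752705, nat_lit 1059840],
 .step (nat_lit 97) [nat_lit 24672, nat_lit 1301504],
 .step (nat_lit 96) [nat_lit 37984, nat_lit 1325056],
 .step (nat_lit 67) [nat_lit 27683, nat_lit 1223680],
 .step (nat_lit 36) [nat_lit 9217, nat_lit 545792],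
 .step (nat_lit 36) [nat_lit 48128, nat_lit 461859],
 .step (nat_lit 67) [nat_lit 39968, nat_lit 1147904],
 .step (nat_lit 97) [nat_lit 137280, nat_lit 996352],
 .step (nat_lit 161) [nat_lit 679936, nat_lit 215073],
 .sym (nat_lit 2459) true true false (nat_lit 2) (nat_lit 6),
 .step (nat_lit 97) [nat_lit 133184, nat_lit 773120, nat_lit 1212416, nat_lit 1326080],
 .step (nat_lit 65) [nat_lit 612353, nat_lit 194592],
 .step (nat_lit 34) [nat_lit 11266, nat_lit 1072160],
 .step (nat_lit 65) [nat_lit 9280, nat_lit 1327105],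
 .step (nat_lit 3) [nat_lit 499712, nat_lit 142338],
 .step (nat_lit 36) [nat_lit 119809, nat_lit 652288],
 .step (nat_lit 97) [nat_lit 7233, nat_lit 857088],
 .step (nat_lit 161) [nat_lit 5185, nat_lit 1119232],
 .step (nat_lit 100) [nat_lit 841729, nat_lit 1076256],
 .step (nat_lit 99) [nat_lit 119872, nat_lit 841728],
 .step (nat_lit 161) [nat_lit 495616, nat_lit 582784, nat_lit 1069120],
 .step (nat_lit 65) [nat_lit 25664, nat_lit 1329152],
 .step (nat_lit 98) [nat_lit 12290, nat_lit 1330208],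
 .step (nat_lit 66) [nat_lit 17409, nat_lit 842784],
 .step (nat_lit 100) [nat_lit 24641, nat_lit 1331200],
 .step (nat_lit 162) [nat_lit 24704, nat_lit 1113089],
 .step (nat_lit 99) [nat_lit 21600, nat_lit 1332224],
 .step (nat_lit 161) [nat_lit 21632, nat_lit 1316864],
 .step (nat_lit 161) [nat_lit 27744, nat_lit 1334272],
 .step (nat_lit 101) [nat_lit 5124, nat_lit 1335296],
 .step (nat_lit 97) [nat_lit 43104, nat_lit 1232896],
 .step (nat_lit 98) [nat_lit 12290, nat_lit 772096],
 .step (nat_lit 97) [nat_lit 22529, nat_lit 1336320],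
 .step (nat_lit 67) [nat_lit 28674, nat_lit 1029120],
 .step (nat_lit 99) [nat_lit 12290, nat_lit 1116160],
 .step (nat_lit 100) [nat_lit 464899, nat_lit 918528, nat_lit 954368],
 .step (nat_lit 129) [nat_lit 12320, nat_lit 1061888],
 .step (nat_lit 34) [nat_lit 45058, nat_lit 608256],
 .step (nat_lit 37) [nat_lit 820225, nat_lit 821248, nat_lit 990210, nat_lit 991232],
 .sym (nat_lit 2489) true false true (nat_lit 7) (nat_lit 1),
 .sym (nat_lit 2489) false true true (nat_lit 7) (nat_lit 1),
 .step (nat_lit 99) [nat_lit 12291, nat_lit 1020928],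
 .step (nat_lit 67) [nat_lit 8256, nat_lit 699392],
 .step (nat_lit 131) [nat_lit 24672, nat_lit 1338368],
 .step (nat_lit 34) [nat_lit 29696, nat_lit 688129],
 .step (nat_lit 129) [nat_lit 489600, nat_lit 959488],
 .step (nat_lit 34) [nat_lit 29696, nat_lit 1235969],
 .step (nat_lit 129) [nat_lit 8288, nat_lit 1339392],
 .step (nat_lit 97) [nat_lit 1340416, nat_lit 875521]]

theorem c2250 : checkFrom tbl r2250 (nat_lit 2500) (nat_lit 2250) = true := by decide +kernel

noncomputable def r4250 : List Rule := [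
 .sym (nat_lit 4248) true false true (nat_lit 7) (nat_lit 2),
 .step (nat_lit 99) [nat_lit 1409088, nat_lit 1411073, nat_lit 3166210],
 .step (nat_lit 165) [nat_lit 5188, nat_lit 3167232],
 .step (nat_lit 67) [nat_lit 58403, nat_lit 2840576, nat_lit 3169312],
 .step (nat_lit 132) [nat_lit 2734080, nat_lit 387168, nat_lit 1264736],
 .step (nat_lit 129) [nat_lit 480288, nat_lit 2828288],
 .step (nat_lit 66) [nat_lit 2670658, nat_lit 1697792],
 .step (nat_lit 163) [nat_lit 2623490, nat_lit 141408, nat_lit 1426496, nat_lit 1424384],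
 .sym (nat_lit 4257) false false true (nat_lit 4) (nat_lit 8),
 .sym (nat_lit 4257) true false true (nat_lit 4) (nat_lit 8),
 .sym (nat_lit 4257) true true true (nat_lit 4) (nat_lit 8),
 .sym (nat_lit 4257) false true true (nat_lit 4) (nat_lit 8),
 .step (nat_lit 99) [nat_lit 7264, nat_lit 2849793],
 .step (nat_lit 129) [nat_lit 17408, nat_lit 2665504],
 .step (nat_lit 133) [nat_lit 51297, nat_lit 3176448],
 .step (nat_lit 97) [nat_lit 2724928, nat_lit 1970176, nat_lit 3684416],
 .step (nat_lit 132) [nat_lit 11267, nat_lit 3180576],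
 .step (nat_lit 129) [nat_lit 2612224, nat_lit 2723840, nat_lit 3181664, nat_lit 3610624],
 .step (nat_lit 97) [nat_lit 49217, nat_lit 2657280],
 .step (nat_lit 101) [nat_lit 7266, nat_lit 3182592],
 .step (nat_lit 99) [nat_lit 1270818, nat_lit 1748994, nat_lit 1753122, nat_lit 3184704],
 .step (nat_lit 66) [nat_lit 9281, nat_lit 3185664],
 .step (nat_lit 67) [nat_lit 9282, nat_lit 3186688],
 .step (nat_lit 65) [nat_lit 50176, nat_lit 2656320],
 .sym (nat_lit 4273) true true false (nat_lit 6) (nat_lit 4),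
 .step (nat_lit 33) [nat_lit 9216, nat_lit 3191809],
 .step (nat_lit 133) [nat_lit 6274, nat_lit 3193856],
 .step (nat_lit 65) [nat_lit 8224, nat_lit 2955264],
 .step (nat_lit 97) [nat_lit 9312, nat_lit 3200000],
 .step (nat_lit 34) [nat_lit 8225, nat_lit 3308544],
 .step (nat_lit 101) [nat_lit 1351777, nat_lit 1365057, nat_lit 1368129, nat_lit 3202048],
 .step (nat_lit 34) [nat_lit 8193, nat_lit 3208192],
 .step (nat_lit 96) [nat_lit 12288, nat_lit 3215360],
 .step (nat_lit 33) [nat_lit 9216, nat_lit 3216385],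
 .step (nat_lit 33) [nat_lit 9216, nat_lit 3217409],
 .step (nat_lit 132) [nat_lit 499810, nat_lit 3209218, nat_lit 3218528],
 .step (nat_lit 66) [nat_lit 8225, nat_lit 3220480],
 .step (nat_lit 67) [nat_lit 490499, nat_lit 494594, nat_lit 3221536],
 .sym (nat_lit 4287) true false false (nat_lit 5) (nat_lit 6),
 .step (nat_lit 98) [nat_lit 9313, nat_lit 3224576],
 .step (nat_lit 129) [nat_lit 12321, nat_lit 3225600],
 .step (nat_lit 99) [nat_lit 486434, nat_lit 3231776, nat_lit 1065985],
 .step (nat_lit 99) [nat_lit 5219, nat_lit 2992128],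
 .step (nat_lit 100) [nat_lit 5123, nat_lit 3233792],
 .sym (nat_lit 4293) true false false (nat_lit 5) (nat_lit 4),
 .step (nat_lit 97) [nat_lit 2654208, nat_lit 1649696],
 .step (nat_lit 99) [nat_lit 495619, nat_lit 2595872],
 .step (nat_lit 129) [nat_lit 10241, nat_lit 2963456],
 .step (nat_lit 35) [nat_lit 8224, nat_lit 3138560],
 .step (nat_lit 35) [nat_lit 6177, nat_lit 3236864],
 .step (nat_lit 99) [nat_lit 5123, nat_lit 3237888],
 .step (nat_lit 165) [nat_lit 18468, nat_lit 3239936],
 .step (nat_lit 67) [nat_lit 2647042, nat_lit 2625538, nat_lit 141376],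
 .step (nat_lit 67) [nat_lit 6209, nat_lit 2595840],
 .sym (nat_lit 4303) true true true (nat_lit 5) (nat_lit 5),
 .step (nat_lit 67) [nat_lit 7201, nat_lit 2595840],
 .step (nat_lit 34) [nat_lit 29696, nat_lit 2691073],
 .step (nat_lit 66) [nat_lit 11265, nat_lit 3127328],
 .step (nat_lit 131) [nat_lit 1269794, nat_lit 3245056],
 .step (nat_lit 65) [nat_lit 489536, nat_lit 497728, nat_lit 3246080],
 .step (nat_lit 66) [nat_lit 499745, nat_lit 2588704, nat_lit 2798593],
 .step (nat_lit 130) [nat_lit 15362, nat_lit 3198976],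
 .step (nat_lit 100) [nat_lit 499778, nat_lit 2798626, nat_lit 3248128],
 .step (nat_lit 34) [nat_lit 11266, nat_lit 3249184],
 .step (nat_lit 68) [nat_lit 499746, nat_lit 491554, nat_lit 2775072, nat_lit 2650114],
 .sym (nat_lit 4314) false true true (nat_lit 8) (nat_lit 4),
 .sym (nat_lit 4314) true false true (nat_lit 8) (nat_lit 4),
 .sym (nat_lit 4314) false false true (nat_lit 8) (nat_lit 4),
 .step (nat_lit 100) [nat_lit 487520, nat_lit 2742274, nat_lit 1086465],
 .step (nat_lit 131) [nat_lit 1409120, nat_lit 1411105, nat_lit 3238914],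
 .step (nat_lit 37) [nat_lit 14372, nat_lit 3256320],
 .step (nat_lit 163) [nat_lit 12355, nat_lit 3258368],
 .step (nat_lit 97) [nat_lit 2598912, nat_lit 1583104],
 .sym (nat_lit 4322) true false false (nat_lit 5) (nat_lit 6),
 .step (nat_lit 34) [nat_lit 29696, nat_lit 2670593],
 .step (nat_lit 99) [nat_lit 9280, nat_lit 2763777],
 .sym (nat_lit 4325) false false true (nat_lit 5) (nat_lit 6),
 .step (nat_lit 66) [nat_lit 1854464, nat_lit 2670658],
 .step (nat_lit 36) [nat_lit 10243, nat_lit 3264544],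
 .step (nat_lit 130) [nat_lit 5153, nat_lit 3267584],
 .step (nat_lit 65) [nat_lit 11264, nat_lit 2671648],
 .step (nat_lit 34) [nat_lit 11266, nat_lit 2853920],
 .step (nat_lit 97) [nat_lit 36961, nat_lit 2667520],
 .step (nat_lit 65) [nat_lit 18497, nat_lit 1751040],
 .step (nat_lit 36) [nat_lit 221184, nat_lit 2700289, nat_lit 681984],
 .step (nat_lit 70) [nat_lit 19522, nat_lit 3269632],
 .step (nat_lit 97) [nat_lit 494593, nat_lit 1560576, nat_lit 2938912],
 .sym (nat_lit 4336) false true true (nat_lit 6) (nat_lit 6),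
 .step (nat_lit 98) [nat_lit 659552, nat_lit 1110017, nat_lit 3271680],
 .step (nat_lit 131) [nat_lit 6240, nat_lit 3272704],
 .step (nat_lit 100) [nat_lit 2660416, nat_lit 1707011],
 .step (nat_lit 131) [nat_lit 1269794, nat_lit 3229696],
 .sym (nat_lit 4341) false false true (nat_lit 6) (nat_lit 6),
 .step (nat_lit 35) [nat_lit 491522, nat_lit 3275778, nat_lit 1852416],
 .step (nat_lit 34) [nat_lit 13314, nat_lit 2675744],
 .step (nat_lit 3) [nat_lit 7168, nat_lit 2932738],
 .sym (nat_lit 4345) true false true (nat_lit 4) (nat_lit 6),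
 .step (nat_lit 98) [nat_lit 476224, nat_lit 465984, nat_lit 2784257],
 .step (nat_lit 100) [nat_lit 27651, nat_lit 3283968],
 .step (nat_lit 99) [nat_lit 7264, nat_lit 3288065],
 .step (nat_lit 65) [nat_lit 8224, nat_lit 3533824],
 .step (nat_lit 98) [nat_lit 9313, nat_lit 3290112],
 .step (nat_lit 131) [nat_lit 6240, nat_lit 3295232],
 .step (nat_lit 67) [nat_lit 46083, nat_lit 3297344],
 .step (nat_lit 129) [nat_lit 8288, nat_lit 3298304],
 .step (nat_lit 98) [nat_lit 26720, nat_lit 3300352],
 .step (nat_lit 65) [nat_lit 28672, nat_lit 3301408],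
 .step (nat_lit 130) [nat_lit 2737153, nat_lit 1097728, nat_lit 2348033],
 .sym (nat_lit 4357) false true false (nat_lit 6) (nat_lit 6),
 .step (nat_lit 34) [nat_lit 26656, nat_lit 3292160],
 .step (nat_lit 98) [nat_lit 8289, nat_lit 3302400],
 .step (nat_lit 98) [nat_lit 40962, nat_lit 3305472],
 .step (nat_lit 65) [nat_lit 18497, nat_lit 3087360],
 .step (nat_lit 35) [nat_lit 10243, nat_lit 2600960],
 .step (nat_lit 101) [nat_lit 1268802, nat_lit 3278848],
 .step (nat_lit 65) [nat_lit 9280, nat_lit 3311617],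
 .step (nat_lit 129) [nat_lit 8288, nat_lit 3312641],
 .step (nat_lit 101) [nat_lit 496644, nat_lit 2616384, nat_lit 126979],
 .step (nat_lit 65) [nat_lit 9280, nat_lit 3316737],
 .step (nat_lit 100) [nat_lit 1268801, nat_lit 3317760],
 .step (nat_lit 97) [nat_lit 11264, nat_lit 2671648],
 .step (nat_lit 161) [nat_lit 485377, nat_lit 2768960, nat_lit 493569, nat_lit 678913],
 .sym (nat_lit 4371) false true false (nat_lit 2) (nat_lit 8),
 .sym (nat_lit 4371) true false false (nat_lit 2) (nat_lit 8),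
 .step (nat_lit 131) [nat_lit 5155, nat_lit 3321856],
 .step (nat_lit 130) [nat_lit 216066, nat_lit 277506, nat_lit 2783232],
 .step (nat_lit 99) [nat_lit 3322976, nat_lit 2149378],
 .step (nat_lit 100) [nat_lit 20544, nat_lit 2685952],
 .step (nat_lit 34) [nat_lit 7168, nat_lit 2677760],
 .step (nat_lit 99) [nat_lit 1426432, nat_lit 1146880, nat_lit 1303552],
 .step (nat_lit 163) [nat_lit 1146944, nat_lit 3024896, nat_lit 3799040],
 .step (nat_lit 32) [nat_lit 11264, nat_lit 3323904],
 .step (nat_lit 34) [nat_lit 10241, nat_lit 3325952],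
 .step (nat_lit 33) [nat_lit 497696, nat_lit 2607104, nat_lit 430080],
 .sym (nat_lit 4383) true false true (nat_lit 6) (nat_lit 4),
 .step (nat_lit 35) [nat_lit 11266, nat_lit 3844096],
 .step (nat_lit 97) [nat_lit 11264, nat_lit 3329056],
 .step (nat_lit 161) [nat_lit 8320, nat_lit 3331073],
 .step (nat_lit 133) [nat_lit 16481, nat_lit 3341312],
 .step (nat_lit 97) [nat_lit 23552, nat_lit 924768],
 .step (nat_lit 34) [nat_lit 17442, nat_lit 3347456],
 .step (nat_lit 130) [nat_lit 8289, nat_lit 3349504],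
 .step (nat_lit 66) [nat_lit 50177, nat_lit 3351616],
 .step (nat_lit 100) [nat_lit 12292, nat_lit 3352576],
 .step (nat_lit 36) [nat_lit 6177, nat_lit 3544064],
 .step (nat_lit 164) [nat_lit 1351840, nat_lit 2978817],
 .step (nat_lit 35) [nat_lit 743424, nat_lit 749568, nat_lit 3116033, nat_lit 3000321],
 .step (nat_lit 130) [nat_lit 1267808, nat_lit 959489, nat_lit 3278880],
 .step (nat_lit 132) [nat_lit 18435, nat_lit 3355648],
 .step (nat_lit 99) [nat_lit 489570, nat_lit 2661440, nat_lit 3356674],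
 .step (nat_lit 131) [nat_lit 495618, nat_lit 488450, nat_lit 2769986, nat_lit 2896896],
 .step (nat_lit 131) [nat_lit 488450, nat_lit 2654274, nat_lit 2624546, nat_lit 3357696],
 .step (nat_lit 164) [nat_lit 18467, nat_lit 3358720],
 .step (nat_lit 131) [nat_lit 485379, nat_lit 2743328, nat_lit 2982976],
 .step (nat_lit 162) [nat_lit 12353, nat_lit 3360768],
 .step (nat_lit 98) [nat_lit 16482, nat_lit 3278848],
 .step (nat_lit 4) [nat_lit 12291, nat_lit 2605056],
 .step (nat_lit 66) [nat_lit 8225, nat_lit 3364864],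
 .step (nat_lit 36) [nat_lit 12323, nat_lit 3365888],
 .step (nat_lit 133) [nat_lit 5156, nat_lit 3366912],
 .step (nat_lit 36) [nat_lit 12323, nat_lit 3367936],
 .step (nat_lit 131) [nat_lit 2073601, nat_lit 2173984, nat_lit 3368992],
 .step (nat_lit 66) [nat_lit 29728, nat_lit 3100674],
 .step (nat_lit 67) [nat_lit 7232, nat_lit 3378178],
 .step (nat_lit 129) [nat_lit 17408, nat_lit 1743904],
 .step (nat_lit 97) [nat_lit 27680, nat_lit 2847744],
 .step (nat_lit 129) [nat_lit 2932768, nat_lit 2231296],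
 .step (nat_lit 99) [nat_lit 2654210, nat_lit 1378306, nat_lit 1497088],
 .step (nat_lit 99) [nat_lit 37984, nat_lit 2753539],
 .step (nat_lit 65) [nat_lit 497728, nat_lit 642048, nat_lit 3387425],
 .step (nat_lit 34) [nat_lit 11266, nat_lit 3388416],
 .step (nat_lit 164) [nat_lit 2624547, nat_lit 3173377, nat_lit 1175584],
 .step (nat_lit 34) [nat_lit 11266, nat_lit 3390464],
 .step (nat_lit 33) [nat_lit 28672, nat_lit 3391488],
 .step (nat_lit 163) [nat_lit 2115648, nat_lit 3179584, nat_lit 3393536],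
 .sym (nat_lit 4424) true true false (nat_lit 4) (nat_lit 8),
 .step (nat_lit 33) [nat_lit 23553, nat_lit 3394592],
 .step (nat_lit 35) [nat_lit 9216, nat_lit 3395585],
 .step (nat_lit 98) [nat_lit 24640, nat_lit 3396608],
 .step (nat_lit 131) [nat_lit 2624514, nat_lit 2615298, nat_lit 1637408, nat_lit 1971232],
 .sym (nat_lit 4429) true true false (nat_lit 4) (nat_lit 7),
 .step (nat_lit 166) [nat_lit 14374, nat_lit 3397632],
 .step (nat_lit 163) [nat_lit 135296, nat_lit 1426496, nat_lit 3398656],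
 .step (nat_lit 162) [nat_lit 12354, nat_lit 3139584],
 .step (nat_lit 68) [nat_lit 1356804, nat_lit 2212864, nat_lit 3303457],
 .step (nat_lit 163) [nat_lit 135296, nat_lit 3090432, nat_lit 1039424, nat_lit 2053152],
 .step (nat_lit 35) [nat_lit 26656, nat_lit 3277824],
 .step (nat_lit 68) [nat_lit 1268769, nat_lit 473121, nat_lit 463937, nat_lit 3831808],
 .sym (nat_lit 4437) true true false (nat_lit 6) (nat_lit 5),
 .step (nat_lit 98) [nat_lit 1267776, nat_lit 2217024, nat_lit 3404801, nat_lit 2219104],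
 .step (nat_lit 161) [nat_lit 13441, nat_lit 3406848],
 .step (nat_lit 97) [nat_lit 20577, nat_lit 3407872],
 .step (nat_lit 165) [nat_lit 6274, nat_lit 3408896],
 .step (nat_lit 131) [nat_lit 1364064, nat_lit 2156544, nat_lit 3409952],
 .step (nat_lit 97) [nat_lit 9312, nat_lit 3410945],
 .step (nat_lit 130) [nat_lit 778273, nat_lit 735265, nat_lit 2630656],
 .step (nat_lit 65) [nat_lit 50176, nat_lit 3411968],
 .step (nat_lit 129) [nat_lit 13409, nat_lit 3412992],
 .step (nat_lit 165) [nat_lit 1997825, nat_lit 3834912, nat_lit 3414144],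
 .step (nat_lit 131) [nat_lit 25696, nat_lit 3416064],
 .step (nat_lit 66) [nat_lit 20546, nat_lit 3417088],
 .step (nat_lit 98) [nat_lit 1433665, nat_lit 1090562, nat_lit 1299489, nat_lit 3835968],
 .step (nat_lit 97) [nat_lit 2625568, nat_lit 2724928, nat_lit 1090561, nat_lit 3421184],
 .step (nat_lit 33) [nat_lit 14337, nat_lit 2880544],
 .step (nat_lit 67) [nat_lit 50178, nat_lit 3422272],
 .step (nat_lit 100) [nat_lit 9280, nat_lit 3426305],
 .step (nat_lit 32) [nat_lit 11264, nat_lit 3428384],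
 .step (nat_lit 97) [nat_lit 9312, nat_lit 3137536],
 .step (nat_lit 66) [nat_lit 8256, nat_lit 3268609],
 .step (nat_lit 101) [nat_lit 117762, nat_lit 1752128],
 .step (nat_lit 129) [nat_lit 54273, nat_lit 2671648, nat_lit 3441664],
 .step (nat_lit 68) [nat_lit 50179, nat_lit 3442752],
 .step (nat_lit 66) [nat_lit 486401, nat_lit 2659329, nat_lit 421888, nat_lit 441344],
 .step (nat_lit 97) [nat_lit 8288, nat_lit 3444736],
 .step (nat_lit 4) [nat_lit 37889, nat_lit 3445760],
 .step (nat_lit 129) [nat_lit 30721, nat_lit 2654240],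
 .step (nat_lit 4) [nat_lit 40964, nat_lit 3446784],
 .sym (nat_lit 4466) false true false (nat_lit 5) (nat_lit 4),
 .step (nat_lit 65) [nat_lit 20545, nat_lit 3447808],
 .step (nat_lit 129) [nat_lit 13409, nat_lit 3448832],
 .step (nat_lit 165) [nat_lit 1997825, nat_lit 3453056, nat_lit 3453953],
 .step (nat_lit 35) [nat_lit 1359872, nat_lit 737280, nat_lit 3456002],
 .step (nat_lit 35) [nat_lit 1354784, nat_lit 777216, nat_lit 3459074],
 .step (nat_lit 98) [nat_lit 1555456, nat_lit 3459137],
 .step (nat_lit 98) [nat_lit 344066, nat_lit 2252800, nat_lit 3461216],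
 .step (nat_lit 100) [nat_lit 1380417, nat_lit 618496, nat_lit 3463169],
 .step (nat_lit 65) [nat_lit 30721, nat_lit 3464224],
 .step (nat_lit 33) [nat_lit 138272, nat_lit 3466240],
 .step (nat_lit 98) [nat_lit 129088, nat_lit 3467264],
 .step (nat_lit 163) [nat_lit 22627, nat_lit 3468288],
 .step (nat_lit 100) [nat_lit 2621504, nat_lit 2610240, nat_lit 1431553, nat_lit 1636353, nat_lit 3843073],
 .step (nat_lit 68) [nat_lit 19520, nat_lit 3470337],
 .step (nat_lit 98) [nat_lit 2226177, nat_lit 1854528, nat_lit 334945, nat_lit 3471361],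
 .step (nat_lit 32) [nat_lit 47104, nat_lit 2932736],
 .step (nat_lit 98) [nat_lit 12290, nat_lit 3473408],
 .step (nat_lit 97) [nat_lit 12288, nat_lit 3474432],
 .step (nat_lit 35) [nat_lit 11266, nat_lit 3475456],
 .step (nat_lit 228) [nat_lit 18531, nat_lit 3478528],
 .step (nat_lit 3) [nat_lit 20483, nat_lit 3479552],
 .sym (nat_lit 4488) true true true (nat_lit 7) (nat_lit 2),
 .sym (nat_lit 4488) true false true (nat_lit 7) (nat_lit 2),
 .step (nat_lit 162) [nat_lit 1269825, nat_lit 2599968, nat_lit 2273281, nat_lit 2272258],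
 .step (nat_lit 66) [nat_lit 6209, nat_lit 2595840],
 .step (nat_lit 161) [nat_lit 2035712, nat_lit 3489824],
 .step (nat_lit 98) [nat_lit 12290, nat_lit 3492864],
 .step (nat_lit 36) [nat_lit 11267, nat_lit 3304448],
 .step (nat_lit 66) [nat_lit 1584129, nat_lit 3342368],
 .step (nat_lit 164) [nat_lit 21664, nat_lit 1750018],
 .step (nat_lit 97) [nat_lit 9312, nat_lit 3045376],
 .step (nat_lit 97) [nat_lit 9312, nat_lit 3496960]]

theorem c4250 : checkFrom tbl r4250 (nat_lit 4500) (nat_lit 4250) = true := by decide +kernel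

noncomputable def r6250 : List Rule := [
 .step (nat_lit 99) [nat_lit 3252288, nat_lit 3694592, nat_lit 5749760, nat_lit 4862976],
 .step (nat_lit 133) [nat_lit 16481, nat_lit 5752832],
 .step (nat_lit 66) [nat_lit 50177, nat_lit 5529664],
 .step (nat_lit 36) [nat_lit 5156, nat_lit 5275648],
 .step (nat_lit 35) [nat_lit 10242, nat_lit 5317664],
 .step (nat_lit 100) [nat_lit 77827, nat_lit 5207072],
 .sym (nat_lit 6255) true false false (nat_lit 7) (nat_lit 6),
 .step (nat_lit 65) [nat_lit 155712, nat_lit 5758977],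
 .step (nat_lit 69) [nat_lit 2641953, nat_lit 3146753, nat_lit 2442272, nat_lit 5763074],
 .step (nat_lit 68) [nat_lit 787489, nat_lit 3566593, nat_lit 5454848, nat_lit 4879361],
 .step (nat_lit 193) [nat_lit 2647104, nat_lit 5219392, nat_lit 1886240, nat_lit 4311136, nat_lit 5769216],
 .step (nat_lit 32) [nat_lit 11264, nat_lit 5771264],
 .step (nat_lit 33) [nat_lit 25632, nat_lit 5764096],
 .step (nat_lit 67) [nat_lit 599073, nat_lit 608289, nat_lit 5772288],
 .step (nat_lit 132) [nat_lit 1355779, nat_lit 5380099, nat_lit 3180576],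
 .step (nat_lit 162) [nat_lit 1719298, nat_lit 2448386, nat_lit 5775360, nat_lit 4896800],
 .step (nat_lit 131) [nat_lit 495618, nat_lit 3357696, nat_lit 5524482],
 .step (nat_lit 228) [nat_lit 5270532, nat_lit 5776480, nat_lit 5723232],
 .step (nat_lit 161) [nat_lit 2035712, nat_lit 5779552, nat_lit 433248],
 .step (nat_lit 38) [nat_lit 14373, nat_lit 5781504],
 .step (nat_lit 100) [nat_lit 56384, nat_lit 3667008, nat_lit 5782528],
 .sym (nat_lit 6270) false true false (nat_lit 7) (nat_lit 6),
 .step (nat_lit 134) [nat_lit 1357830, nat_lit 1361925, nat_lit 5786624],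
 .step (nat_lit 100) [nat_lit 134148, nat_lit 4712449, nat_lit 5181440, nat_lit 5325824],
 .step (nat_lit 35) [nat_lit 37920, nat_lit 4644867],
 .step (nat_lit 163) [nat_lit 42112, nat_lit 5788672],
 .step (nat_lit 134) [nat_lit 2866211, nat_lit 2993185, nat_lit 3102753, nat_lit 5790752, nat_lit 5472259],
 .step (nat_lit 128) [nat_lit 15360, nat_lit 5792768],
 .step (nat_lit 32) [nat_lit 11264, nat_lit 5793824],
 .step (nat_lit 67) [nat_lit 11298, nat_lit 5795840],
 .step (nat_lit 196) [nat_lit 1698912, nat_lit 5460995],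
 .step (nat_lit 225) [nat_lit 1403008, nat_lit 734337, nat_lit 2933888, nat_lit 5250048],
 .step (nat_lit 229) [nat_lit 1758433, nat_lit 5798912],
 .step (nat_lit 70) [nat_lit 1268771, nat_lit 5166112, nat_lit 4940800],
 .step (nat_lit 100) [nat_lit 1353792, nat_lit 1360960, nat_lit 5302273],
 .sym (nat_lit 6284) true true false (nat_lit 6) (nat_lit 7),
 .step (nat_lit 35) [nat_lit 1269762, nat_lit 475138, nat_lit 464898, nat_lit 5316608],
 .sym (nat_lit 6286) true false false (nat_lit 5) (nat_lit 5),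
 .sym (nat_lit 6286) false true false (nat_lit 5) (nat_lit 5),
 .step (nat_lit 132) [nat_lit 5161984, nat_lit 2597952],
 .step (nat_lit 66) [nat_lit 13346, nat_lit 5803008],
 .step (nat_lit 129) [nat_lit 2597952, nat_lit 5165056],
 .step (nat_lit 163) [nat_lit 15395, nat_lit 5804032],
 .step (nat_lit 37) [nat_lit 10244, nat_lit 5805056],
 .step (nat_lit 130) [nat_lit 1362945, nat_lit 5212192, nat_lit 5808129],
 .step (nat_lit 34) [nat_lit 1452032, nat_lit 1894401, nat_lit 5187584],
 .step (nat_lit 131) [nat_lit 137344, nat_lit 4709408, nat_lit 5177376, nat_lit 5324800],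
 .sym (nat_lit 6296) false false true (nat_lit 5) (nat_lit 9),
 .step (nat_lit 100) [nat_lit 241668, nat_lit 4712449, nat_lit 5180417, nat_lit 5145600],
 .step (nat_lit 98) [nat_lit 1267776, nat_lit 4645890],
 .step (nat_lit 100) [nat_lit 1351776, nat_lit 1364032, nat_lit 5810176],
 .step (nat_lit 132) [nat_lit 579680, nat_lit 4709377, nat_lit 4535329, nat_lit 5812224],
 .step (nat_lit 131) [nat_lit 490563, nat_lit 2657282, nat_lit 5264384, nat_lit 4200514],
 .step (nat_lit 131) [nat_lit 2626594, nat_lit 5267489, nat_lit 1711170, nat_lit 2526273, nat_lit 5264384, nat_lit 4202561],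
 .step (nat_lit 67) [nat_lit 2619425, nat_lit 2588705, nat_lit 4297730, nat_lit 3586048],
 .step (nat_lit 99) [nat_lit 2401345, nat_lit 4980738, nat_lit 3817504, nat_lit 5645378],
 .step (nat_lit 69) [nat_lit 2644001, nat_lit 4182050, nat_lit 4178976, nat_lit 3582978],
 .sym (nat_lit 6306) true false false (nat_lit 8) (nat_lit 7),
 .step (nat_lit 97) [nat_lit 2633728, nat_lit 3783680],
 .step (nat_lit 163) [nat_lit 2643072, nat_lit 4184064, nat_lit 4180994, nat_lit 4157506, nat_lit 5265440],
 .step (nat_lit 37) [nat_lit 7202, nat_lit 5816320],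
 .step (nat_lit 163) [nat_lit 164930, nat_lit 2750466, nat_lit 5817344],
 .step (nat_lit 101) [nat_lit 487520, nat_lit 2658370, nat_lit 5266466, nat_lit 4168704],
 .step (nat_lit 131) [nat_lit 1269794, nat_lit 61442, nat_lit 5462048, nat_lit 4507648],
 .step (nat_lit 34) [nat_lit 49154, nat_lit 5300224],
 .step (nat_lit 69) [nat_lit 1270788, nat_lit 1584162, nat_lit 5818368],
 .step (nat_lit 129) [nat_lit 4893696, nat_lit 5022848, nat_lit 5811264, nat_lit 4895744, nat_lit 4367360, nat_lit 5643264],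
 .step (nat_lit 131) [nat_lit 1362946, nat_lit 461859, nat_lit 507906, nat_lit 5819392],
 .step (nat_lit 100) [nat_lit 4604929, nat_lit 4603968, nat_lit 1270819, nat_lit 5820480],
 .step (nat_lit 130) [nat_lit 485378, nat_lit 493570, nat_lit 5822496],
 .step (nat_lit 130) [nat_lit 2642016, nat_lit 3579936, nat_lit 3858464, nat_lit 4827136],
 .step (nat_lit 132) [nat_lit 2642016, nat_lit 3579936, nat_lit 3858464, nat_lit 4827136],
 .step (nat_lit 194) [nat_lit 4970496, nat_lit 2425921, nat_lit 3720288, nat_lit 5738592],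
 .step (nat_lit 100) [nat_lit 116737, nat_lit 538626, nat_lit 5584896],
 .step (nat_lit 66) [nat_lit 523266, nat_lit 1482752, nat_lit 5796928],
 .step (nat_lit 165) [nat_lit 1997825, nat_lit 5828736],
 .step (nat_lit 164) [nat_lit 2654275, nat_lit 1378371, nat_lit 1404995, nat_lit 5829632],
 .step (nat_lit 164) [nat_lit 2656385, nat_lit 2773121, nat_lit 1380481, nat_lit 5520384],
 .step (nat_lit 34) [nat_lit 11266, nat_lit 5830656],
 .step (nat_lit 64) [nat_lit 38944, nat_lit 5379072],
 .step (nat_lit 98) [nat_lit 2595873, nat_lit 4575232, nat_lit 5789696],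
 .step (nat_lit 68) [nat_lit 4517952, nat_lit 5489696, nat_lit 5359650, nat_lit 4334594],
 .step (nat_lit 161) [nat_lit 2035712, nat_lit 4975649, nat_lit 5835808],
 .step (nat_lit 69) [nat_lit 3512321, nat_lit 2211873, nat_lit 5094433, nat_lit 5836800],
 .step (nat_lit 34) [nat_lit 143362, nat_lit 1425409, nat_lit 5827584],
 .step (nat_lit 101) [nat_lit 5233696, nat_lit 2993153, nat_lit 4468738, nat_lit 4473859, nat_lit 3310595],
 .step (nat_lit 100) [nat_lit 2616384, nat_lit 3973122, nat_lit 5458944, nat_lit 3326976],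
 .step (nat_lit 101) [nat_lit 2616385, nat_lit 5222464, nat_lit 5171266, nat_lit 5170242, nat_lit 3738627, nat_lit 5839873],
 .step (nat_lit 66) [nat_lit 1356802, nat_lit 1366017, nat_lit 1371169, nat_lit 4242464],
 .step (nat_lit 70) [nat_lit 218181, nat_lit 225317, nat_lit 279589, nat_lit 5840896],
 .step (nat_lit 163) [nat_lit 485379, nat_lit 5841984, nat_lit 2501696, nat_lit 5842944],
 .step (nat_lit 162) [nat_lit 2035713, nat_lit 4804768, nat_lit 5848160],
 .step (nat_lit 65) [nat_lit 2179072, nat_lit 5856256, nat_lit 4474880, nat_lit 5003296],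
 .step (nat_lit 97) [nat_lit 2406400, nat_lit 4433920, nat_lit 5479520],
 .step (nat_lit 165) [nat_lit 2305120, nat_lit 1268866, nat_lit 5859328],
 .step (nat_lit 34) [nat_lit 11266, nat_lit 5860384],
 .step (nat_lit 132) [nat_lit 5054465, nat_lit 3868705, nat_lit 3869696, nat_lit 5814274],
 .step (nat_lit 132) [nat_lit 2406401, nat_lit 3870721, nat_lit 5008384, nat_lit 5430369],
 .step (nat_lit 98) [nat_lit 658496, nat_lit 521280, nat_lit 3280897, nat_lit 5861376],
 .step (nat_lit 97) [nat_lit 1701888, nat_lit 1681408, nat_lit 5862464],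
 .step (nat_lit 96) [nat_lit 152576, nat_lit 924768],
 .step (nat_lit 34) [nat_lit 11266, nat_lit 5863456],
 .step (nat_lit 100) [nat_lit 2612227, nat_lit 3090433, nat_lit 5013504, nat_lit 4007936],
 .step (nat_lit 227) [nat_lit 15459, nat_lit 5864448],
 .step (nat_lit 67) [nat_lit 867328, nat_lit 5411872],
 .step (nat_lit 161) [nat_lit 3877952, nat_lit 3472384, nat_lit 3549216, nat_lit 3340352, nat_lit 5866592],
 .step (nat_lit 98) [nat_lit 2641984, nat_lit 2082817, nat_lit 1620034, nat_lit 2867265],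
 .step (nat_lit 67) [nat_lit 2888704, nat_lit 2859043, nat_lit 5261344, nat_lit 2870272],
 .step (nat_lit 35) [nat_lit 2641921, nat_lit 2643969, nat_lit 2802690, nat_lit 1495040, nat_lit 5261312],
 .step (nat_lit 131) [nat_lit 486466, nat_lit 494658, nat_lit 5438464],
 .sym (nat_lit 6359) true true false (nat_lit 8) (nat_lit 8),
 .step (nat_lit 66) [nat_lit 2293792, nat_lit 5870625, nat_lit 3524608],
 .step (nat_lit 100) [nat_lit 5124, nat_lit 5871616],
 .step (nat_lit 100) [nat_lit 12291, nat_lit 5872640],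
 .step (nat_lit 131) [nat_lit 1357827, nat_lit 1269794, nat_lit 1361922, nat_lit 5874688],
 .step (nat_lit 36) [nat_lit 155648, nat_lit 188417, nat_lit 5875712],
 .step (nat_lit 1) [nat_lit 20481, nat_lit 5876736],
 .step (nat_lit 99) [nat_lit 6240, nat_lit 5878784],
 .step (nat_lit 131) [nat_lit 4921377, nat_lit 5208128, nat_lit 5032960, nat_lit 5033985],
 .step (nat_lit 132) [nat_lit 924801, nat_lit 2521120, nat_lit 5880832],
 .step (nat_lit 193) [nat_lit 1402976, nat_lit 1413216, nat_lit 5882880],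
 .step (nat_lit 163) [nat_lit 4070464, nat_lit 2750466, nat_lit 4088897, nat_lit 4083777, nat_lit 4923489, nat_lit 4085793],
 .sym (nat_lit 6371) true true false (nat_lit 7) (nat_lit 7),
 .sym (nat_lit 6371) true false false (nat_lit 7) (nat_lit 7),
 .sym (nat_lit 6371) true false true (nat_lit 7) (nat_lit 7),
 .step (nat_lit 97) [nat_lit 486432, nat_lit 127008, nat_lit 655360, nat_lit 5883936],
 .step (nat_lit 68) [nat_lit 7233, nat_lit 5884928],
 .step (nat_lit 100) [nat_lit 4813824, nat_lit 5710848, nat_lit 4646912, nat_lit 4812832, nat_lit 4270144],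
 .step (nat_lit 100) [nat_lit 5019648, nat_lit 2857987, nat_lit 4934656, nat_lit 4117504, nat_lit 4646912],
 .step (nat_lit 162) [nat_lit 496738, nat_lit 2799712, nat_lit 5527553],
 .step (nat_lit 99) [nat_lit 2655234, nat_lit 2774018, nat_lit 1381378, nat_lit 1408002, nat_lit 5885952],
 .step (nat_lit 100) [nat_lit 494659, nat_lit 486467, nat_lit 2774019, nat_lit 5280832],
 .step (nat_lit 101) [nat_lit 1270820, nat_lit 4604930, nat_lit 4603969, nat_lit 5889088],
 .step (nat_lit 131) [nat_lit 1582146, nat_lit 3901440, nat_lit 5891074, nat_lit 5042178],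
 .step (nat_lit 34) [nat_lit 10241, nat_lit 5560320],
 .step (nat_lit 69) [nat_lit 3240992, nat_lit 3170336, nat_lit 4781058, nat_lit 5897216],
 .step (nat_lit 101) [nat_lit 1651716, nat_lit 3243010, nat_lit 3695650, nat_lit 5892096],
 .step (nat_lit 65) [nat_lit 2179072, nat_lit 5856256, nat_lit 3287040, nat_lit 5003296],
 .step (nat_lit 66) [nat_lit 11298, nat_lit 5899264],
 .step (nat_lit 100) [nat_lit 116737, nat_lit 538626, nat_lit 5577728],
 .step (nat_lit 97) [nat_lit 1681408, nat_lit 2406400, nat_lit 5589088],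
 .step (nat_lit 97) [nat_lit 1681408, nat_lit 5272672],
 .step (nat_lit 99) [nat_lit 1681410, nat_lit 3243008, nat_lit 3726336, nat_lit 3828736],
 .step (nat_lit 37) [nat_lit 14372, nat_lit 5901312],
 .step (nat_lit 131) [nat_lit 61442, nat_lit 3522592, nat_lit 4643872],
 .step (nat_lit 131) [nat_lit 1701890, nat_lit 3243008, nat_lit 2265090, nat_lit 5551104, nat_lit 5902368],
 .step (nat_lit 99) [nat_lit 489570, nat_lit 2661440, nat_lit 2775104, nat_lit 5903360],
 .step (nat_lit 35) [nat_lit 1563648, nat_lit 1499139, nat_lit 5506049],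
 .step (nat_lit 101) [nat_lit 1365058, nat_lit 2989056, nat_lit 5517314, nat_lit 5059584],
 .step (nat_lit 165) [nat_lit 492672, nat_lit 500864, nat_lit 5063682, nat_lit 5908481],
 .step (nat_lit 161) [nat_lit 4914208, nat_lit 5521472, nat_lit 5065728, nat_lit 5062656],
 .step (nat_lit 163) [nat_lit 4915264, nat_lit 4444224, nat_lit 3930176, nat_lit 4972546, nat_lit 5909505, nat_lit 4973570],
 .step (nat_lit 4) [nat_lit 31746, nat_lit 5911552],
 .step (nat_lit 100) [nat_lit 2775105, nat_lit 4284417, nat_lit 1518593, nat_lit 4451329, nat_lit 2584579, nat_lit 5912576],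
 .step (nat_lit 161) [nat_lit 4075616, nat_lit 2925664, nat_lit 4914208, nat_lit 5914624, nat_lit 4558848],
 .step (nat_lit 162) [nat_lit 4075617, nat_lit 2925665, nat_lit 5914625, nat_lit 5910593, nat_lit 4557824],
 .step (nat_lit 100) [nat_lit 1331200, nat_lit 5915649],
 .step (nat_lit 4) [nat_lit 31746, nat_lit 5917696],
 .step (nat_lit 163) [nat_lit 3423234, nat_lit 3424258, nat_lit 5918720],
 .step (nat_lit 161) [nat_lit 3423232, nat_lit 3424256, nat_lit 5916672, nat_lit 3598368],
 .step (nat_lit 195) [nat_lit 1355842, nat_lit 5919744],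
 .step (nat_lit 161) [nat_lit 133248, nat_lit 3420160, nat_lit 5832704],
 .step (nat_lit 3) [nat_lit 37888, nat_lit 5921792],
 .step (nat_lit 194) [nat_lit 3944513, nat_lit 5286976, nat_lit 5083136],
 .step (nat_lit 165) [nat_lit 5188, nat_lit 5926912],
 .step (nat_lit 68) [nat_lit 30724, nat_lit 5928000],
 .step (nat_lit 129) [nat_lit 3010592, nat_lit 5423104],
 .step (nat_lit 162) [nat_lit 2035713, nat_lit 433249, nat_lit 5929056, nat_lit 5780545],
 .step (nat_lit 67) [nat_lit 7232, nat_lit 5929984],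
 .step (nat_lit 100) [nat_lit 5160960, nat_lit 3213315, nat_lit 3952643],
 .step (nat_lit 131) [nat_lit 3672160, nat_lit 2831488, nat_lit 2832513, nat_lit 4891650],
 .step (nat_lit 34) [nat_lit 1184768, nat_lit 5935105],
 .step (nat_lit 163) [nat_lit 3313698, nat_lit 5099553, nat_lit 5936128],
 .step (nat_lit 100) [nat_lit 1691652, nat_lit 3964931, nat_lit 5101568, nat_lit 5938180],
 .step (nat_lit 100) [nat_lit 494596, nat_lit 5441537, nat_lit 4290592],
 .step (nat_lit 69) [nat_lit 7234, nat_lit 5940224],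
 .step (nat_lit 164) [nat_lit 1703972, nat_lit 2146337, nat_lit 1126433, nat_lit 5941248],
 .step (nat_lit 131) [nat_lit 3313666, nat_lit 5099521, nat_lit 5108768, nat_lit 4987936],
 .step (nat_lit 99) [nat_lit 1354849, nat_lit 2132993, nat_lit 5484544],
 .step (nat_lit 132) [nat_lit 2643040, nat_lit 2616416, nat_lit 5171297, nat_lit 2312192, nat_lit 5112864],
 .step (nat_lit 193) [nat_lit 875617, nat_lit 5942272],
 .step (nat_lit 67) [nat_lit 1376259, nat_lit 1310720, nat_lit 5943296],
 .step (nat_lit 132) [nat_lit 6241, nat_lit 5945344],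
 .step (nat_lit 133) [nat_lit 2618464, nat_lit 2610273, nat_lit 2721824, nat_lit 5256226, nat_lit 2881538],
 .step (nat_lit 131) [nat_lit 135264, nat_lit 1136640, nat_lit 4460544, nat_lit 5946368],
 .step (nat_lit 198) [nat_lit 6307, nat_lit 5948416],
 .step (nat_lit 65) [nat_lit 39968, nat_lit 5949440],
 .step (nat_lit 134) [nat_lit 7299, nat_lit 5950464],
 .step (nat_lit 227) [nat_lit 5365889, nat_lit 3982338, nat_lit 3981314, nat_lit 5121024],
 .step (nat_lit 69) [nat_lit 24610, nat_lit 5952512],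
 .step (nat_lit 130) [nat_lit 1354880, nat_lit 1359968, nat_lit 5953537],
 .step (nat_lit 68) [nat_lit 12291, nat_lit 5702656],
 .step (nat_lit 98) [nat_lit 68610, nat_lit 2459680, nat_lit 5449728],
 .step (nat_lit 132) [nat_lit 6241, nat_lit 5954560],
 .step (nat_lit 98) [nat_lit 1354848, nat_lit 1788992, nat_lit 1624128, nat_lit 5754881],
 .step (nat_lit 131) [nat_lit 27714, nat_lit 5956608],
 .step (nat_lit 35) [nat_lit 40963, nat_lit 5957632],
 .step (nat_lit 131) [nat_lit 136227, nat_lit 5127200, nat_lit 3989536, nat_lit 5428225],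
 .step (nat_lit 66) [nat_lit 20546, nat_lit 5959680],
 .step (nat_lit 163) [nat_lit 2647106, nat_lit 2768994, nat_lit 5962752, nat_lit 3330144],
 .step (nat_lit 163) [nat_lit 493571, nat_lit 485379, nat_lit 2592770, nat_lit 5194752],
 .step (nat_lit 131) [nat_lit 583776, nat_lit 5136417, nat_lit 5849089],
 .step (nat_lit 97) [nat_lit 133184, nat_lit 576576, nat_lit 4075552, nat_lit 4155392],
 .step (nat_lit 67) [nat_lit 2642976, nat_lit 5044226, nat_lit 4008962, nat_lit 3807264, nat_lit 5968928],
 .step (nat_lit 161) [nat_lit 3178496, nat_lit 4951104, nat_lit 3811328, nat_lit 5969920],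
 .step (nat_lit 166) [nat_lit 500865, nat_lit 492673, nat_lit 2773123, nat_lit 5971968],
 .step (nat_lit 133) [nat_lit 4445216, nat_lit 2319392, nat_lit 4000770, nat_lit 5972994, nat_lit 3751939],
 .step (nat_lit 133) [nat_lit 152580, nat_lit 4573184, nat_lit 5974049],
 .step (nat_lit 99) [nat_lit 5122, nat_lit 5282816],
 .step (nat_lit 134) [nat_lit 5157, nat_lit 5976064],
 .step (nat_lit 36) [nat_lit 5275648, nat_lit 1388577],
 .step (nat_lit 100) [nat_lit 2655235, nat_lit 1284161, nat_lit 5826656],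
 .step (nat_lit 99) [nat_lit 2645056, nat_lit 2641985, nat_lit 2643008, nat_lit 2806784, nat_lit 2875394],
 .step (nat_lit 163) [nat_lit 2793538, nat_lit 5985344, nat_lit 2788418, nat_lit 5997632, nat_lit 6000640],
 .step (nat_lit 163) [nat_lit 2788418, nat_lit 5985344, nat_lit 5984256, nat_lit 2793538, nat_lit 5997632],
 .step (nat_lit 68) [nat_lit 1351744, nat_lit 1268769, nat_lit 6044672, nat_lit 1364000],
 .sym (nat_lit 6465) false true true (nat_lit 6) (nat_lit 5),
 .sym (nat_lit 6465) true false false (nat_lit 6) (nat_lit 5),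
 .sym (nat_lit 6465) true false true (nat_lit 6) (nat_lit 5),
 .sym (nat_lit 6465) false false true (nat_lit 6) (nat_lit 5),
 .sym (nat_lit 6465) false true false (nat_lit 6) (nat_lit 5),
 .sym (nat_lit 6465) true true false (nat_lit 6) (nat_lit 5),
 .step (nat_lit 68) [nat_lit 1351744, nat_lit 1365024, nat_lit 1368096, nat_lit 6004736],
 .sym (nat_lit 6472) true true true (nat_lit 6) (nat_lit 6),
 .step (nat_lit 131) [nat_lit 1357827, nat_lit 1361922, nat_lit 6005792],
 .step (nat_lit 163) [nat_lit 67744, nat_lit 6007809],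
 .sym (nat_lit 6475) false false true (nat_lit 5) (nat_lit 9),
 .step (nat_lit 36) [nat_lit 1351712, nat_lit 1268737, nat_lit 1363968, nat_lit 6013952],
 .sym (nat_lit 6477) false true true (nat_lit 6) (nat_lit 4),
 .sym (nat_lit 6477) true false true (nat_lit 6) (nat_lit 4),
 .step (nat_lit 67) [nat_lit 1358850, nat_lit 1366018, nat_lit 6019104],
 .step (nat_lit 35) [nat_lit 2630657, nat_lit 6019072],
 .step (nat_lit 130) [nat_lit 66657, nat_lit 637024, nat_lit 6021122],
 .step (nat_lit 68) [nat_lit 1356804, nat_lit 1366019, nat_lit 6231104],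
 .sym (nat_lit 6483) true true true (nat_lit 6) (nat_lit 8),
 .sym (nat_lit 6483) false false true (nat_lit 6) (nat_lit 8),
 .step (nat_lit 34) [nat_lit 1354784, nat_lit 1267712, nat_lit 1359872, nat_lit 6038529],
 .sym (nat_lit 6486) true true false (nat_lit 6) (nat_lit 5),
 .sym (nat_lit 6486) true false true (nat_lit 6) (nat_lit 5),
 .sym (nat_lit 6486) false true false (nat_lit 6) (nat_lit 5),
 .sym (nat_lit 6486) false false true (nat_lit 6) (nat_lit 5),
 .step (nat_lit 129) [nat_lit 8320, nat_lit 6026240],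
 .step (nat_lit 162) [nat_lit 485378, nat_lit 2768961, nat_lit 493570, nat_lit 6028288],
 .sym (nat_lit 6492) true false false (nat_lit 5) (nat_lit 8),
 .sym (nat_lit 6492) false true false (nat_lit 5) (nat_lit 8),
 .sym (nat_lit 6492) false true true (nat_lit 5) (nat_lit 8),
 .step (nat_lit 101) [nat_lit 2618432, nat_lit 2616384, nat_lit 5982208, nat_lit 5991426],
 .sym (nat_lit 6496) false true false (nat_lit 8) (nat_lit 7),
 .sym (nat_lit 6496) true true true (nat_lit 8) (nat_lit 7),
 .step (nat_lit 99) [nat_lit 2618432, nat_lit 2616384, nat_lit 5982208, nat_lit 5991426]]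

theorem c6250 : checkFrom tbl r6250 (nat_lit 6500) (nat_lit 6250) = true := by decide +kernel

end Crest.Agent.R035
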