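import Crest.Agent.R035.Table

set_option autoImplicit false
set_option maxRecDepth 100000

namespace Crest.Agent.R035

noncomputable def r500 : List Rule := [
 .step (nat_lit 65) [nat_lit 8224, nat_lit 108545],
 .step (nat_lit 37) [nat_lit 24578, nat_lit 93184],
 .sym (nat_lit 501) false true false (nat_lit 6) (nat_lit 1),
 .sym (nat_lit 501) true false false (nat_lit 6) (nat_lit 1),
 .sym (nat_lit 501) true true true (nat_lit 6) (nat_lit 1),
 .sym (nat_lit 501) true true false (nat_lit 6) (nat_lit 1),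
 .sym (nat_lit 501) false false true (nat_lit 6) (nat_lit 1),
 .sym (nat_lit 501) true false true (nat_lit 6) (nat_lit 1),
 .sym (nat_lit 501) false true true (nat_lit 6) (nat_lit 1),
 .step (nat_lit 4) [nat_lit 26626, nat_lit 88064],
 .sym (nat_lit 509) true false false (nat_lit 6) (nat_lit 1),
 .sym (nat_lit 509) false true true (nat_lit 6) (nat_lit 1),
 .sym (nat_lit 509) true true true (nat_lit 6) (nat_lit 1),
 .sym (nat_lit 509) false false true (nat_lit 6) (nat_lit 1),
 .sym (nat_lit 509) true false true (nat_lit 6) (nat_lit 1),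
 .step (nat_lit 67) [nat_lit 21568, nat_lit 72707],
 .sym (nat_lit 515) true false false (nat_lit 4) (nat_lit 5),
 .sym (nat_lit 515) true true false (nat_lit 4) (nat_lit 5),
 .sym (nat_lit 515) false true true (nat_lit 4) (nat_lit 5),
 .step (nat_lit 36) [nat_lit 25600, nat_lit 112641],
 .sym (nat_lit 519) true true false (nat_lit 5) (nat_lit 1),
 .sym (nat_lit 519) false false true (nat_lit 5) (nat_lit 1),
 .sym (nat_lit 519) true false true (nat_lit 5) (nat_lit 1),
 .sym (nat_lit 519) false true false (nat_lit 5) (nat_lit 1),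
 .sym (nat_lit 519) false true true (nat_lit 5) (nat_lit 1),
 .step (nat_lit 99) [nat_lit 6208, nat_lit 113664],
 .sym (nat_lit 525) false false true (nat_lit 4) (nat_lit 4),
 .sym (nat_lit 525) true false false (nat_lit 4) (nat_lit 4),
 .sym (nat_lit 525) true true false (nat_lit 4) (nat_lit 4),
 .sym (nat_lit 525) false true true (nat_lit 4) (nat_lit 4),
 .step (nat_lit 129) [nat_lit 5152, nat_lit 114688],
 .sym (nat_lit 530) true true true (nat_lit 2) (nat_lit 5),
 .step (nat_lit 36) [nat_lit 6145, nat_lit 125952],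
 .step (nat_lit 33) [nat_lit 19457, nat_lit 63520],
 .sym (nat_lit 533) false true true (nat_lit 5) (nat_lit 2),
 .step (nat_lit 100) [nat_lit 25664, nat_lit 77827],
 .sym (nat_lit 535) true true true (nat_lit 4) (nat_lit 5),
 .step (nat_lit 4) [nat_lit 26625, nat_lit 111616],
 .step (nat_lit 4) [nat_lit 24579, nat_lit 99328],
 .sym (nat_lit 538) false true true (nat_lit 7) (nat_lit 1),
 .sym (nat_lit 538) true false false (nat_lit 7) (nat_lit 1),
 .sym (nat_lit 538) true true true (nat_lit 7) (nat_lit 1),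
 .sym (nat_lit 538) false true false (nat_lit 7) (nat_lit 1),
 .sym (nat_lit 538) true true false (nat_lit 7) (nat_lit 1),
 .step (nat_lit 35) [nat_lit 6176, nat_lit 94208],
 .step (nat_lit 65) [nat_lit 9280, nat_lit 131073],
 .sym (nat_lit 545) true true true (nat_lit 4) (nat_lit 4),
 .step (nat_lit 66) [nat_lit 49184, nat_lit 64514],
 .sym (nat_lit 547) false false true (nat_lit 4) (nat_lit 5),
 .step (nat_lit 97) [nat_lit 8256, nat_lit 98305],
 .sym (nat_lit 549) false true false (nat_lit 4) (nat_lit 5),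
 .sym (nat_lit 549) true true true (nat_lit 4) (nat_lit 5),
 .sym (nat_lit 549) false true true (nat_lit 4) (nat_lit 5),
 .sym (nat_lit 549) true false false (nat_lit 4) (nat_lit 5),
 .sym (nat_lit 549) true true false (nat_lit 4) (nat_lit 5),
 .sym (nat_lit 549) true false true (nat_lit 4) (nat_lit 5),
 .step (nat_lit 32) [nat_lit 11264, nat_lit 147456],
 .sym (nat_lit 556) true true false (nat_lit 4) (nat_lit 4),
 .sym (nat_lit 556) false true false (nat_lit 4) (nat_lit 4),
 .sym (nat_lit 556) true true true (nat_lit 4) (nat_lit 4),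
 .sym (nat_lit 556) true false false (nat_lit 4) (nat_lit 4),
 .sym (nat_lit 556) true false true (nat_lit 4) (nat_lit 4),
 .step (nat_lit 35) [nat_lit 21536, nat_lit 148481],
 .step (nat_lit 2) [nat_lit 8192, nat_lit 63488],
 .sym (nat_lit 563) true true true (nat_lit 5) (nat_lit 1),
 .sym (nat_lit 563) true false true (nat_lit 5) (nat_lit 1),
 .sym (nat_lit 563) true true false (nat_lit 5) (nat_lit 1),
 .sym (nat_lit 563) true false false (nat_lit 5) (nat_lit 1),
 .sym (nat_lit 563) false false true (nat_lit 5) (nat_lit 1),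
 .sym (nat_lit 563) false true false (nat_lit 5) (nat_lit 1),
 .step (nat_lit 1) [nat_lit 29697, nat_lit 162816],
 .sym (nat_lit 570) true true true (nat_lit 6) (nat_lit 1),
 .sym (nat_lit 570) false true false (nat_lit 6) (nat_lit 1),
 .sym (nat_lit 570) true true false (nat_lit 6) (nat_lit 1),
 .sym (nat_lit 570) false false true (nat_lit 6) (nat_lit 1),
 .sym (nat_lit 570) true false true (nat_lit 6) (nat_lit 1),
 .sym (nat_lit 570) false true true (nat_lit 6) (nat_lit 1),
 .sym (nat_lit 570) true false false (nat_lit 6) (nat_lit 1),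
 .step (nat_lit 67) [nat_lit 33794, nat_lit 163872],
 .step (nat_lit 36) [nat_lit 13344, nat_lit 94209],
 .step (nat_lit 36) [nat_lit 35872, nat_lit 94209],
 .step (nat_lit 130) [nat_lit 32864, nat_lit 167936],
 .step (nat_lit 129) [nat_lit 27680, nat_lit 54273],
 .sym (nat_lit 582) true false true (nat_lit 2) (nat_lit 5),
 .sym (nat_lit 582) false true false (nat_lit 2) (nat_lit 5),
 .sym (nat_lit 582) false true true (nat_lit 2) (nat_lit 5),
 .sym (nat_lit 582) true true false (nat_lit 2) (nat_lit 5),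
 .sym (nat_lit 582) true false false (nat_lit 2) (nat_lit 5),
 .sym (nat_lit 582) true true true (nat_lit 2) (nat_lit 5),
 .step (nat_lit 36) [nat_lit 8224, nat_lit 181249],
 .sym (nat_lit 589) false true true (nat_lit 5) (nat_lit 4),
 .step (nat_lit 34) [nat_lit 43009, nat_lit 182272],
 .sym (nat_lit 591) true true false (nat_lit 4) (nat_lit 4),
 .step (nat_lit 98) [nat_lit 6241, nat_lit 183296],
 .step (nat_lit 33) [nat_lit 21504, nat_lit 55296],
 .sym (nat_lit 594) false false true (nat_lit 5) (nat_lit 1),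
 .sym (nat_lit 594) true false false (nat_lit 5) (nat_lit 1),
 .sym (nat_lit 594) true false true (nat_lit 5) (nat_lit 1),
 .sym (nat_lit 594) false true true (nat_lit 5) (nat_lit 1),
 .sym (nat_lit 594) true true false (nat_lit 5) (nat_lit 1),
 .sym (nat_lit 594) true true true (nat_lit 5) (nat_lit 1),
 .sym (nat_lit 594) false true false (nat_lit 5) (nat_lit 1),
 .step (nat_lit 34) [nat_lit 27682, nat_lit 193536],
 .sym (nat_lit 602) false true false (nat_lit 4) (nat_lit 5),
 .sym (nat_lit 602) false false true (nat_lit 4) (nat_lit 5),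
 .sym (nat_lit 602) true true false (nat_lit 4) (nat_lit 5),
 .step (nat_lit 68) [nat_lit 6177, nat_lit 175104],
 .sym (nat_lit 606) false true true (nat_lit 5) (nat_lit 4),
 .step (nat_lit 34) [nat_lit 10241, nat_lit 199712],
 .sym (nat_lit 608) false false true (nat_lit 4) (nat_lit 5),
 .step (nat_lit 35) [nat_lit 26656, nat_lit 140290],
 .sym (nat_lit 610) false false true (nat_lit 4) (nat_lit 4),
 .step (nat_lit 128) [nat_lit 5152, nat_lit 68608],
 .sym (nat_lit 612) true false true (nat_lit 1) (nat_lit 5),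
 .sym (nat_lit 612) true false false (nat_lit 1) (nat_lit 5),
 .sym (nat_lit 612) false false true (nat_lit 1) (nat_lit 5),
 .sym (nat_lit 612) false true true (nat_lit 1) (nat_lit 5),
 .sym (nat_lit 612) true true true (nat_lit 1) (nat_lit 5),
 .step (nat_lit 35) [nat_lit 10242, nat_lit 76832],
 .sym (nat_lit 618) false true false (nat_lit 5) (nat_lit 4),
 .sym (nat_lit 618) true true false (nat_lit 5) (nat_lit 4),
 .step (nat_lit 97) [nat_lit 21568, nat_lit 192513],
 .step (nat_lit 33) [nat_lit 21504, nat_lit 57377],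
 .sym (nat_lit 622) true false true (nat_lit 6) (nat_lit 2),
 .sym (nat_lit 622) false true true (nat_lit 6) (nat_lit 2),
 .sym (nat_lit 622) false false true (nat_lit 6) (nat_lit 2),
 .step (nat_lit 132) [nat_lit 16480, nat_lit 203777],
 .sym (nat_lit 626) true false true (nat_lit 5) (nat_lit 4),
 .sym (nat_lit 626) true true true (nat_lit 5) (nat_lit 4),
 .sym (nat_lit 626) false true true (nat_lit 5) (nat_lit 4),
 .sym (nat_lit 626) true false false (nat_lit 5) (nat_lit 4),
 .step (nat_lit 33) [nat_lit 7169, nat_lit 102400],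
 .sym (nat_lit 631) false false true (nat_lit 5) (nat_lit 2),
 .sym (nat_lit 631) false true true (nat_lit 5) (nat_lit 2),
 .step (nat_lit 98) [nat_lit 5121, nat_lit 207872],
 .sym (nat_lit 634) true false true (nat_lit 4) (nat_lit 4),
 .sym (nat_lit 634) true true false (nat_lit 4) (nat_lit 4),
 .sym (nat_lit 634) false true true (nat_lit 4) (nat_lit 4),
 .sym (nat_lit 634) false false true (nat_lit 4) (nat_lit 4),
 .sym (nat_lit 634) true true true (nat_lit 4) (nat_lit 4),
 .step (nat_lit 32) [nat_lit 27680, nat_lit 210944],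
 .step (nat_lit 64) [nat_lit 23552, nat_lit 80928],
 .sym (nat_lit 641) true false false (nat_lit 1) (nat_lit 6),
 .sym (nat_lit 641) false true true (nat_lit 1) (nat_lit 6),
 .sym (nat_lit 641) true true true (nat_lit 1) (nat_lit 6),
 .sym (nat_lit 641) false false true (nat_lit 1) (nat_lit 6),
 .sym (nat_lit 641) true false true (nat_lit 1) (nat_lit 6),
 .sym (nat_lit 641) false true false (nat_lit 1) (nat_lit 6),
 .sym (nat_lit 641) true true false (nat_lit 1) (nat_lit 6),
 .step (nat_lit 32) [nat_lit 14336, nat_lit 54272],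
 .sym (nat_lit 649) false true true (nat_lit 1) (nat_lit 5),
 .step (nat_lit 97) [nat_lit 12320, nat_lit 104448],
 .sym (nat_lit 651) true false false (nat_lit 2) (nat_lit 5),
 .sym (nat_lit 651) true true true (nat_lit 2) (nat_lit 5),
 .sym (nat_lit 651) false true false (nat_lit 2) (nat_lit 5),
 .sym (nat_lit 651) true true false (nat_lit 2) (nat_lit 5),
 .step (nat_lit 97) [nat_lit 8256, nat_lit 91137],
 .sym (nat_lit 656) false true true (nat_lit 4) (nat_lit 5),
 .sym (nat_lit 656) true false false (nat_lit 4) (nat_lit 5),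
 .sym (nat_lit 656) true false true (nat_lit 4) (nat_lit 5),
 .step (nat_lit 65) [nat_lit 9248, nat_lit 151552],
 .step (nat_lit 129) [nat_lit 61472, nat_lit 59392],
 .sym (nat_lit 661) true false false (nat_lit 1) (nat_lit 6),
 .sym (nat_lit 661) true true false (nat_lit 1) (nat_lit 6),
 .sym (nat_lit 661) false true false (nat_lit 1) (nat_lit 6),
 .step (nat_lit 33) [nat_lit 54273, nat_lit 61440],
 .sym (nat_lit 665) false false true (nat_lit 2) (nat_lit 5),
 .step (nat_lit 65) [nat_lit 28672, nat_lit 110624],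
 .sym (nat_lit 667) false false true (nat_lit 1) (nat_lit 5),
 .sym (nat_lit 667) true true false (nat_lit 1) (nat_lit 5),
 .step (nat_lit 99) [nat_lit 5123, nat_lit 146432],
 .step (nat_lit 35) [nat_lit 10242, nat_lit 229408],
 .step (nat_lit 129) [nat_lit 26720, nat_lit 153600],
 .sym (nat_lit 672) true true false (nat_lit 4) (nat_lit 5),
 .step (nat_lit 99) [nat_lit 6208, nat_lit 109570],
 .step (nat_lit 131) [nat_lit 25696, nat_lit 153603],
 .step (nat_lit 32) [nat_lit 24608, nat_lit 100352],
 .sym (nat_lit 676) true false true (nat_lit 4) (nat_lit 5),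
 .step (nat_lit 36) [nat_lit 7201, nat_lit 231424],
 .sym (nat_lit 678) false false true (nat_lit 5) (nat_lit 2),
 .sym (nat_lit 678) true false false (nat_lit 5) (nat_lit 2),
 .step (nat_lit 35) [nat_lit 12322, nat_lit 232448],
 .sym (nat_lit 681) true true false (nat_lit 4) (nat_lit 5),
 .step (nat_lit 36) [nat_lit 7201, nat_lit 237568],
 .step (nat_lit 33) [nat_lit 5153, nat_lit 179200],
 .sym (nat_lit 684) false true false (nat_lit 4) (nat_lit 5),
 .sym (nat_lit 684) false true true (nat_lit 4) (nat_lit 5),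
 .sym (nat_lit 684) true true false (nat_lit 4) (nat_lit 5),
 .step (nat_lit 33) [nat_lit 6177, nat_lit 66560],
 .sym (nat_lit 688) false false true (nat_lit 5) (nat_lit 2),
 .sym (nat_lit 688) false true false (nat_lit 5) (nat_lit 2),
 .sym (nat_lit 688) true true false (nat_lit 5) (nat_lit 2),
 .sym (nat_lit 688) true true true (nat_lit 5) (nat_lit 2),
 .step (nat_lit 66) [nat_lit 21536, nat_lit 122880],
 .step (nat_lit 36) [nat_lit 14371, nat_lit 246784],
 .sym (nat_lit 694) false true true (nat_lit 4) (nat_lit 5),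
 .step (nat_lit 34) [nat_lit 11266, nat_lit 247840],
 .sym (nat_lit 696) true false false (nat_lit 4) (nat_lit 4),
 .step (nat_lit 32) [nat_lit 11264, nat_lit 56320],
 .sym (nat_lit 698) false true false (nat_lit 5) (nat_lit 4),
 .sym (nat_lit 698) true false false (nat_lit 5) (nat_lit 4),
 .step (nat_lit 33) [nat_lit 14337, nat_lit 61440],
 .sym (nat_lit 701) true true true (nat_lit 2) (nat_lit 5),
 .step (nat_lit 65) [nat_lit 58369, nat_lit 61472],
 .sym (nat_lit 703) false true true (nat_lit 2) (nat_lit 6),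
 .sym (nat_lit 703) true false true (nat_lit 2) (nat_lit 6),
 .step (nat_lit 129) [nat_lit 12352, nat_lit 58369],
 .sym (nat_lit 706) true false false (nat_lit 2) (nat_lit 6),
 .step (nat_lit 67) [nat_lit 50178, nat_lit 166944],
 .step (nat_lit 65) [nat_lit 26656, nat_lit 165888],
 .step (nat_lit 35) [nat_lit 11266, nat_lit 205824],
 .sym (nat_lit 710) true true true (nat_lit 4) (nat_lit 4),
 .sym (nat_lit 710) true false true (nat_lit 4) (nat_lit 4),
 .sym (nat_lit 710) false false true (nat_lit 4) (nat_lit 4),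
 .sym (nat_lit 710) true true false (nat_lit 4) (nat_lit 4),
 .step (nat_lit 65) [nat_lit 5185, nat_lit 59392],
 .step (nat_lit 65) [nat_lit 28672, nat_lit 209920],
 .step (nat_lit 129) [nat_lit 18432, nat_lit 262144],
 .sym (nat_lit 717) true false false (nat_lit 1) (nat_lit 5),
 .sym (nat_lit 717) false true false (nat_lit 1) (nat_lit 5),
 .sym (nat_lit 717) true true true (nat_lit 1) (nat_lit 5),
 .sym (nat_lit 717) true false true (nat_lit 1) (nat_lit 5),
 .sym (nat_lit 717) true true false (nat_lit 1) (nat_lit 5),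
 .sym (nat_lit 717) false true true (nat_lit 1) (nat_lit 5),
 .sym (nat_lit 717) false false true (nat_lit 1) (nat_lit 5),
 .step (nat_lit 97) [nat_lit 22592, nat_lit 89088],
 .sym (nat_lit 725) true false true (nat_lit 1) (nat_lit 6),
 .sym (nat_lit 725) false false true (nat_lit 1) (nat_lit 6),
 .sym (nat_lit 725) false true true (nat_lit 1) (nat_lit 6),
 .step (nat_lit 33) [nat_lit 30752, nat_lit 264192],
 .sym (nat_lit 729) true false false (nat_lit 1) (nat_lit 5),
 .sym (nat_lit 729) false true true (nat_lit 1) (nat_lit 5),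
 .sym (nat_lit 729) true false true (nat_lit 1) (nat_lit 5),
 .sym (nat_lit 729) true true true (nat_lit 1) (nat_lit 5),
 .step (nat_lit 129) [nat_lit 10241, nat_lit 269344],
 .step (nat_lit 99) [nat_lit 6208, nat_lit 80898],
 .sym (nat_lit 735) false false true (nat_lit 4) (nat_lit 5),
 .sym (nat_lit 735) true true true (nat_lit 4) (nat_lit 5),
 .sym (nat_lit 735) false true false (nat_lit 4) (nat_lit 5),
 .sym (nat_lit 735) true false false (nat_lit 4) (nat_lit 5),
 .sym (nat_lit 735) false true true (nat_lit 4) (nat_lit 5),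
 .step (nat_lit 131) [nat_lit 17410, nat_lit 116768],
 .sym (nat_lit 741) false true false (nat_lit 4) (nat_lit 5),
 .step (nat_lit 33) [nat_lit 5153, nat_lit 118784],
 .sym (nat_lit 743) true false true (nat_lit 4) (nat_lit 5),
 .sym (nat_lit 743) true true true (nat_lit 4) (nat_lit 5),
 .step (nat_lit 33) [nat_lit 8224, nat_lit 66560],
 .sym (nat_lit 746) false false true (nat_lit 5) (nat_lit 2),
 .step (nat_lit 32) [nat_lit 27680, nat_lit 261120],
 .sym (nat_lit 748) false false true (nat_lit 1) (nat_lit 5)]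

theorem c500 : checkFrom tbl r500 (nat_lit 750) (nat_lit 500) = true := by decide +kernel

noncomputable def r2500 : List Rule := [
 .step (nat_lit 131) [nat_lit 10243, nat_lit 866336],
 .step (nat_lit 67) [nat_lit 570432, nat_lit 1341440],
 .step (nat_lit 65) [nat_lit 39968, nat_lit 1342464],
 .step (nat_lit 161) [nat_lit 8352, nat_lit 1342464],
 .step (nat_lit 129) [nat_lit 582784, nat_lit 1208320],
 .step (nat_lit 129) [nat_lit 5249, nat_lit 1208320],
 .step (nat_lit 65) [nat_lit 39968, nat_lit 1344512],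
 .step (nat_lit 132) [nat_lit 40963, nat_lit 1345568],
 .step (nat_lit 131) [nat_lit 6240, nat_lit 1346561],
 .step (nat_lit 97) [nat_lit 927840, nat_lit 354304],
 .step (nat_lit 36) [nat_lit 10243, nat_lit 1337376],
 .step (nat_lit 97) [nat_lit 26720, nat_lit 598017],
 .step (nat_lit 68) [nat_lit 42048, nat_lit 632833],
 .step (nat_lit 97) [nat_lit 6241, nat_lit 1142784],
 .step (nat_lit 98) [nat_lit 468064, nat_lit 1142785],
 .step (nat_lit 65) [nat_lit 39968, nat_lit 1274880],
 .step (nat_lit 65) [nat_lit 10273, nat_lit 760832],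
 .step (nat_lit 99) [nat_lit 6241, nat_lit 1165312],
 .step (nat_lit 34) [nat_lit 49152, nat_lit 999456],
 .step (nat_lit 65) [nat_lit 27648, nat_lit 694304],
 .step (nat_lit 66) [nat_lit 583744, nat_lit 1098754, nat_lit 334881],
 .step (nat_lit 3) [nat_lit 7168, nat_lit 1348608],
 .step (nat_lit 132) [nat_lit 40963, nat_lit 1349632],
 .step (nat_lit 98) [nat_lit 8288, nat_lit 1019905],
 .step (nat_lit 65) [nat_lit 490497, nat_lit 404512],
 .step (nat_lit 129) [nat_lit 569344, nat_lit 709664],
 .step (nat_lit 65) [nat_lit 5153, nat_lit 964608],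
 .step (nat_lit 37) [nat_lit 22532, nat_lit 1242112],
 .step (nat_lit 37) [nat_lit 1351713, nat_lit 1267712, nat_lit 1364993],
 .sym (nat_lit 2528) true true false (nat_lit 7) (nat_lit 2),
 .sym (nat_lit 2528) false true true (nat_lit 7) (nat_lit 2),
 .sym (nat_lit 2528) false true false (nat_lit 7) (nat_lit 2),
 .sym (nat_lit 2528) true true true (nat_lit 7) (nat_lit 2),
 .sym (nat_lit 2528) true false false (nat_lit 7) (nat_lit 2),
 .sym (nat_lit 2528) true false true (nat_lit 7) (nat_lit 2),
 .step (nat_lit 97) [nat_lit 8256, nat_lit 1372160],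
 .sym (nat_lit 2535) false true false (nat_lit 5) (nat_lit 5),
 .sym (nat_lit 2535) true false false (nat_lit 5) (nat_lit 5),
 .sym (nat_lit 2535) true true false (nat_lit 5) (nat_lit 5),
 .sym (nat_lit 2535) true false true (nat_lit 5) (nat_lit 5),
 .sym (nat_lit 2535) true true true (nat_lit 5) (nat_lit 5),
 .step (nat_lit 32) [nat_lit 11264, nat_lit 1268736],
 .sym (nat_lit 2541) false true true (nat_lit 5) (nat_lit 4),
 .sym (nat_lit 2541) true false true (nat_lit 5) (nat_lit 4),
 .sym (nat_lit 2541) true true false (nat_lit 5) (nat_lit 4),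
 .sym (nat_lit 2541) false true false (nat_lit 5) (nat_lit 4),
 .step (nat_lit 36) [nat_lit 10243, nat_lit 1351712],
 .sym (nat_lit 2546) true true false (nat_lit 6) (nat_lit 4),
 .sym (nat_lit 2546) true false false (nat_lit 6) (nat_lit 4),
 .step (nat_lit 37) [nat_lit 1351713, nat_lit 1268738, nat_lit 1360896],
 .sym (nat_lit 2549) true false false (nat_lit 7) (nat_lit 2),
 .sym (nat_lit 2549) true true true (nat_lit 7) (nat_lit 2),
 .sym (nat_lit 2549) false true true (nat_lit 7) (nat_lit 2),
 .sym (nat_lit 2549) true false true (nat_lit 7) (nat_lit 2),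
 .sym (nat_lit 2549) false false true (nat_lit 7) (nat_lit 2),
 .sym (nat_lit 2549) true true false (nat_lit 7) (nat_lit 2),
 .sym (nat_lit 2549) false true false (nat_lit 7) (nat_lit 2),
 .step (nat_lit 34) [nat_lit 1351713, nat_lit 1267712, nat_lit 1359872],
 .sym (nat_lit 2557) true true false (nat_lit 7) (nat_lit 2),
 .sym (nat_lit 2557) false true true (nat_lit 7) (nat_lit 2),
 .sym (nat_lit 2557) true false false (nat_lit 7) (nat_lit 2),
 .sym (nat_lit 2557) false true false (nat_lit 7) (nat_lit 2),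
 .sym (nat_lit 2557) false false true (nat_lit 7) (nat_lit 2),
 .sym (nat_lit 2557) true false true (nat_lit 7) (nat_lit 2),
 .sym (nat_lit 2557) true true true (nat_lit 7) (nat_lit 2),
 .step (nat_lit 161) [nat_lit 1355808, nat_lit 1270784, nat_lit 1366016],
 .sym (nat_lit 2565) true false true (nat_lit 2) (nat_lit 7),
 .sym (nat_lit 2565) true false false (nat_lit 2) (nat_lit 7),
 .sym (nat_lit 2565) false false true (nat_lit 2) (nat_lit 7),
 .step (nat_lit 129) [nat_lit 12321, nat_lit 1375232],
 .sym (nat_lit 2569) true false true (nat_lit 5) (nat_lit 5),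
 .sym (nat_lit 2569) true true false (nat_lit 5) (nat_lit 5),
 .sym (nat_lit 2569) true true true (nat_lit 5) (nat_lit 5),
 .sym (nat_lit 2569) true false false (nat_lit 5) (nat_lit 5),
 .sym (nat_lit 2569) false true true (nat_lit 5) (nat_lit 5),
 .sym (nat_lit 2569) false false true (nat_lit 5) (nat_lit 5),
 .step (nat_lit 65) [nat_lit 1356801, nat_lit 1361952, nat_lit 1371168],
 .sym (nat_lit 2576) false false true (nat_lit 2) (nat_lit 7),
 .step (nat_lit 161) [nat_lit 1358848, nat_lit 1361952, nat_lit 1370144],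
 .sym (nat_lit 2578) false true true (nat_lit 2) (nat_lit 7),
 .step (nat_lit 37) [nat_lit 1353728, nat_lit 1268738, nat_lit 1359872],
 .sym (nat_lit 2580) true false false (nat_lit 7) (nat_lit 2),
 .sym (nat_lit 2580) false true false (nat_lit 7) (nat_lit 2),
 .sym (nat_lit 2580) true true false (nat_lit 7) (nat_lit 2),
 .sym (nat_lit 2580) false true true (nat_lit 7) (nat_lit 2),
 .sym (nat_lit 2580) false false true (nat_lit 7) (nat_lit 2),
 .sym (nat_lit 2580) true false true (nat_lit 7) (nat_lit 2),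
 .sym (nat_lit 2580) true true true (nat_lit 7) (nat_lit 2),
 .step (nat_lit 68) [nat_lit 1352736, nat_lit 1365024, nat_lit 537601],
 .sym (nat_lit 2588) false true true (nat_lit 6) (nat_lit 4),
 .step (nat_lit 66) [nat_lit 476192, nat_lit 1368097, nat_lit 1410049],
 .sym (nat_lit 2590) true false true (nat_lit 6) (nat_lit 3),
 .step (nat_lit 129) [nat_lit 11264, nat_lit 1269792],
 .sym (nat_lit 2592) false true false (nat_lit 2) (nat_lit 6),
 .sym (nat_lit 2592) false false true (nat_lit 2) (nat_lit 6),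
 .sym (nat_lit 2592) true true false (nat_lit 2) (nat_lit 6),
 .sym (nat_lit 2592) true false true (nat_lit 2) (nat_lit 6),
 .sym (nat_lit 2592) true false false (nat_lit 2) (nat_lit 6),
 .sym (nat_lit 2592) false true true (nat_lit 2) (nat_lit 6),
 .sym (nat_lit 2592) true true true (nat_lit 2) (nat_lit 6),
 .step (nat_lit 131) [nat_lit 1357827, nat_lit 116768, nat_lit 1104896],
 .sym (nat_lit 2600) true false true (nat_lit 4) (nat_lit 6),
 .sym (nat_lit 2600) false false true (nat_lit 4) (nat_lit 6),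
 .step (nat_lit 129) [nat_lit 14337, nat_lit 1269792],
 .sym (nat_lit 2603) false false true (nat_lit 2) (nat_lit 6),
 .sym (nat_lit 2603) false true false (nat_lit 2) (nat_lit 6),
 .sym (nat_lit 2603) true true true (nat_lit 2) (nat_lit 6),
 .sym (nat_lit 2603) false true true (nat_lit 2) (nat_lit 6),
 .sym (nat_lit 2603) true false true (nat_lit 2) (nat_lit 6),
 .sym (nat_lit 2603) true false false (nat_lit 2) (nat_lit 6),
 .sym (nat_lit 2603) true true false (nat_lit 2) (nat_lit 6),
 .step (nat_lit 1) [nat_lit 20481, nat_lit 1415168],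
 .sym (nat_lit 2611) false true false (nat_lit 7) (nat_lit 2),
 .step (nat_lit 34) [nat_lit 9217, nat_lit 1354784],
 .sym (nat_lit 2613) true false false (nat_lit 6) (nat_lit 2),
 .step (nat_lit 36) [nat_lit 20480, nat_lit 1351712],
 .sym (nat_lit 2615) false true true (nat_lit 6) (nat_lit 2),
 .sym (nat_lit 2615) false true false (nat_lit 6) (nat_lit 2),
 .sym (nat_lit 2615) false false true (nat_lit 6) (nat_lit 2),
 .sym (nat_lit 2615) true true false (nat_lit 6) (nat_lit 2),
 .sym (nat_lit 2615) true true true (nat_lit 6) (nat_lit 2),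
 .step (nat_lit 65) [nat_lit 9280, nat_lit 1416193],
 .sym (nat_lit 2621) true true true (nat_lit 5) (nat_lit 6),
 .sym (nat_lit 2621) false true false (nat_lit 5) (nat_lit 6),
 .step (nat_lit 36) [nat_lit 6177, nat_lit 1363968],
 .step (nat_lit 33) [nat_lit 9216, nat_lit 1417248],
 .step (nat_lit 33) [nat_lit 8224, nat_lit 1369088],
 .step (nat_lit 34) [nat_lit 16418, nat_lit 1360896],
 .sym (nat_lit 2627) true true false (nat_lit 6) (nat_lit 2),
 .step (nat_lit 96) [nat_lit 12288, nat_lit 1419264],
 .step (nat_lit 100) [nat_lit 6209, nat_lit 1423360],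
 .step (nat_lit 65) [nat_lit 12352, nat_lit 1367040],
 .sym (nat_lit 2631) false false true (nat_lit 2) (nat_lit 6),
 .sym (nat_lit 2631) false true false (nat_lit 2) (nat_lit 6),
 .sym (nat_lit 2631) true true false (nat_lit 2) (nat_lit 6),
 .sym (nat_lit 2631) true true true (nat_lit 2) (nat_lit 6),
 .sym (nat_lit 2631) true false false (nat_lit 2) (nat_lit 6),
 .sym (nat_lit 2631) false true true (nat_lit 2) (nat_lit 6),
 .step (nat_lit 161) [nat_lit 1366016, nat_lit 464960, nat_lit 508960],
 .sym (nat_lit 2638) true true false (nat_lit 2) (nat_lit 7),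
 .sym (nat_lit 2638) true false false (nat_lit 2) (nat_lit 7),
 .sym (nat_lit 2638) false false true (nat_lit 2) (nat_lit 7),
 .sym (nat_lit 2638) false true false (nat_lit 2) (nat_lit 7),
 .step (nat_lit 65) [nat_lit 5185, nat_lit 1358848],
 .sym (nat_lit 2643) true false true (nat_lit 2) (nat_lit 6),
 .sym (nat_lit 2643) false true false (nat_lit 2) (nat_lit 6),
 .sym (nat_lit 2643) true true false (nat_lit 2) (nat_lit 6),
 .sym (nat_lit 2643) false true true (nat_lit 2) (nat_lit 6),
 .sym (nat_lit 2643) true true true (nat_lit 2) (nat_lit 6),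
 .step (nat_lit 161) [nat_lit 1356801, nat_lit 475200, nat_lit 508960],
 .sym (nat_lit 2649) false true false (nat_lit 2) (nat_lit 7),
 .sym (nat_lit 2649) true false false (nat_lit 2) (nat_lit 7),
 .sym (nat_lit 2649) false false true (nat_lit 2) (nat_lit 7),
 .sym (nat_lit 2649) true true false (nat_lit 2) (nat_lit 7),
 .sym (nat_lit 2649) false true true (nat_lit 2) (nat_lit 7),
 .sym (nat_lit 2649) true true true (nat_lit 2) (nat_lit 7),
 .step (nat_lit 131) [nat_lit 1269794, nat_lit 573440],
 .sym (nat_lit 2656) false false true (nat_lit 4) (nat_lit 6),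
 .sym (nat_lit 2656) false true true (nat_lit 4) (nat_lit 6),
 .sym (nat_lit 2656) false true false (nat_lit 4) (nat_lit 6),
 .sym (nat_lit 2656) true true false (nat_lit 4) (nat_lit 6),
 .sym (nat_lit 2656) true false false (nat_lit 4) (nat_lit 6),
 .step (nat_lit 100) [nat_lit 37952, nat_lit 1439744],
 .step (nat_lit 67) [nat_lit 26689, nat_lit 1444864],
 .sym (nat_lit 2663) true false false (nat_lit 5) (nat_lit 5),
 .sym (nat_lit 2663) false true true (nat_lit 5) (nat_lit 5),
 .step (nat_lit 99) [nat_lit 5155, nat_lit 1449984],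
 .step (nat_lit 66) [nat_lit 10273, nat_lit 1443840],
 .step (nat_lit 35) [nat_lit 10243, nat_lit 1448960],
 .sym (nat_lit 2668) false false true (nat_lit 5) (nat_lit 5),
 .sym (nat_lit 2668) false true true (nat_lit 5) (nat_lit 5),
 .sym (nat_lit 2668) true false false (nat_lit 5) (nat_lit 5),
 .sym (nat_lit 2668) true false true (nat_lit 5) (nat_lit 5),
 .sym (nat_lit 2668) true true false (nat_lit 5) (nat_lit 5),
 .sym (nat_lit 2668) true true true (nat_lit 5) (nat_lit 5),
 .sym (nat_lit 2668) false true false (nat_lit 5) (nat_lit 5),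
 .step (nat_lit 34) [nat_lit 12321, nat_lit 1447936],
 .sym (nat_lit 2676) false true false (nat_lit 5) (nat_lit 5),
 .sym (nat_lit 2676) true true true (nat_lit 5) (nat_lit 5),
 .sym (nat_lit 2676) true false false (nat_lit 5) (nat_lit 5),
 .sym (nat_lit 2676) false true true (nat_lit 5) (nat_lit 5),
 .step (nat_lit 34) [nat_lit 11266, nat_lit 1454112],
 .step (nat_lit 96) [nat_lit 11328, nat_lit 1455104],
 .step (nat_lit 98) [nat_lit 599104, nat_lit 1401858],
 .step (nat_lit 38) [nat_lit 24579, nat_lit 1453056],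
 .sym (nat_lit 2684) true false false (nat_lit 7) (nat_lit 2),
 .sym (nat_lit 2684) false true true (nat_lit 7) (nat_lit 2),
 .sym (nat_lit 2684) false false true (nat_lit 7) (nat_lit 2),
 .sym (nat_lit 2684) true true false (nat_lit 7) (nat_lit 2),
 .sym (nat_lit 2684) true false true (nat_lit 7) (nat_lit 2),
 .step (nat_lit 131) [nat_lit 5154, nat_lit 1456128],
 .sym (nat_lit 2690) true false true (nat_lit 5) (nat_lit 5),
 .step (nat_lit 99) [nat_lit 22531, nat_lit 1394688],
 .sym (nat_lit 2692) false false true (nat_lit 6) (nat_lit 4),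
 .sym (nat_lit 2692) true false false (nat_lit 6) (nat_lit 4),
 .step (nat_lit 34) [nat_lit 10241, nat_lit 1461280],
 .step (nat_lit 65) [nat_lit 9280, nat_lit 1462273],
 .step (nat_lit 97) [nat_lit 8256, nat_lit 1463297],
 .step (nat_lit 65) [nat_lit 9280, nat_lit 1465344],
 .sym (nat_lit 2698) true true false (nat_lit 4) (nat_lit 6),
 .sym (nat_lit 2698) true true true (nat_lit 4) (nat_lit 6),
 .sym (nat_lit 2698) true false true (nat_lit 4) (nat_lit 6),
 .step (nat_lit 3) [nat_lit 7168, nat_lit 1466368],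
 .step (nat_lit 100) [nat_lit 610369, nat_lit 1398784],
 .step (nat_lit 129) [nat_lit 472096, nat_lit 461857, nat_lit 1371136],
 .sym (nat_lit 2704) true false false (nat_lit 2) (nat_lit 6),
 .sym (nat_lit 2704) false false true (nat_lit 2) (nat_lit 6),
 .sym (nat_lit 2704) false true false (nat_lit 2) (nat_lit 6),
 .sym (nat_lit 2704) true false true (nat_lit 2) (nat_lit 6),
 .sym (nat_lit 2704) true true false (nat_lit 2) (nat_lit 6),
 .sym (nat_lit 2704) true true true (nat_lit 2) (nat_lit 6),
 .sym (nat_lit 2704) false true true (nat_lit 2) (nat_lit 6),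
 .step (nat_lit 130) [nat_lit 99424, nat_lit 1474561],
 .step (nat_lit 65) [nat_lit 38976, nat_lit 1475584],
 .step (nat_lit 36) [nat_lit 7201, nat_lit 1476608],
 .step (nat_lit 98) [nat_lit 12290, nat_lit 1477632],
 .sym (nat_lit 2715) true true false (nat_lit 5) (nat_lit 4),
 .sym (nat_lit 2715) false false true (nat_lit 5) (nat_lit 4),
 .sym (nat_lit 2715) true true true (nat_lit 5) (nat_lit 4),
 .sym (nat_lit 2715) false true true (nat_lit 5) (nat_lit 4),
 .sym (nat_lit 2715) true false false (nat_lit 5) (nat_lit 4),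
 .sym (nat_lit 2715) true false true (nat_lit 5) (nat_lit 4),
 .step (nat_lit 65) [nat_lit 9280, nat_lit 1480705],
 .step (nat_lit 129) [nat_lit 1355776, nat_lit 1362944, nat_lit 1371136],
 .sym (nat_lit 2723) false false true (nat_lit 2) (nat_lit 6),
 .sym (nat_lit 2723) true false true (nat_lit 2) (nat_lit 6),
 .sym (nat_lit 2723) false true false (nat_lit 2) (nat_lit 6),
 .sym (nat_lit 2723) true true false (nat_lit 2) (nat_lit 6),
 .sym (nat_lit 2723) true false false (nat_lit 2) (nat_lit 6),
 .sym (nat_lit 2723) false true true (nat_lit 2) (nat_lit 6),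
 .sym (nat_lit 2723) true true true (nat_lit 2) (nat_lit 6),
 .step (nat_lit 98) [nat_lit 595969, nat_lit 611329, nat_lit 1488896],
 .sym (nat_lit 2731) false false true (nat_lit 5) (nat_lit 5),
 .step (nat_lit 68) [nat_lit 1351744, nat_lit 1364000, nat_lit 537601],
 .sym (nat_lit 2733) false true true (nat_lit 6) (nat_lit 4),
 .sym (nat_lit 2733) false false true (nat_lit 6) (nat_lit 4),
 .sym (nat_lit 2733) false true false (nat_lit 6) (nat_lit 4),
 .step (nat_lit 36) [nat_lit 1268737, nat_lit 652288],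
 .sym (nat_lit 2737) false false true (nat_lit 6) (nat_lit 4),
 .sym (nat_lit 2737) false true false (nat_lit 6) (nat_lit 4),
 .sym (nat_lit 2737) true false false (nat_lit 6) (nat_lit 4),
 .sym (nat_lit 2737) true true false (nat_lit 6) (nat_lit 4),
 .step (nat_lit 101) [nat_lit 663556, nat_lit 1511488],
 .step (nat_lit 98) [nat_lit 1353792, nat_lit 1360960, nat_lit 1390593],
 .sym (nat_lit 2743) true false false (nat_lit 6) (nat_lit 6),
 .sym (nat_lit 2743) false true false (nat_lit 6) (nat_lit 6),
 .sym (nat_lit 2743) true true false (nat_lit 6) (nat_lit 6),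
 .sym (nat_lit 2743) true false true (nat_lit 6) (nat_lit 6),
 .step (nat_lit 67) [nat_lit 487456, nat_lit 1524737],
 .step (nat_lit 162) [nat_lit 24704, nat_lit 1531904]]

theorem c2500 : checkFrom tbl r2500 (nat_lit 2750) (nat_lit 2500) = true := by decide +kernel

noncomputable def r4500 : List Rule := [
 .step (nat_lit 98) [nat_lit 9313, nat_lit 3499008],
 .step (nat_lit 99) [nat_lit 7264, nat_lit 3500032],
 .step (nat_lit 131) [nat_lit 1357827, nat_lit 1582112, nat_lit 3077120],
 .sym (nat_lit 4502) true false true (nat_lit 6) (nat_lit 6),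
 .step (nat_lit 34) [nat_lit 2659328, nat_lit 3020800],
 .sym (nat_lit 4504) true false false (nat_lit 6) (nat_lit 6),
 .sym (nat_lit 4504) false true false (nat_lit 6) (nat_lit 6),
 .sym (nat_lit 4504) false true true (nat_lit 6) (nat_lit 6),
 .step (nat_lit 98) [nat_lit 490497, nat_lit 3019840],
 .sym (nat_lit 4508) false true false (nat_lit 6) (nat_lit 6),
 .step (nat_lit 35) [nat_lit 8224, nat_lit 2934785],
 .step (nat_lit 4) [nat_lit 19456, nat_lit 3505153],
 .step (nat_lit 132) [nat_lit 1269795, nat_lit 3506176],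
 .step (nat_lit 5) [nat_lit 19457, nat_lit 3507200],
 .step (nat_lit 67) [nat_lit 25632, nat_lit 3508224],
 .step (nat_lit 101) [nat_lit 5124, nat_lit 3096576],
 .step (nat_lit 164) [nat_lit 17443, nat_lit 3509248],
 .step (nat_lit 67) [nat_lit 25632, nat_lit 3510272],
 .step (nat_lit 131) [nat_lit 1218656, nat_lit 3111938, nat_lit 1914976, nat_lit 3514432],
 .step (nat_lit 131) [nat_lit 1218656, nat_lit 3111938, nat_lit 3115104, nat_lit 3113056],
 .step (nat_lit 132) [nat_lit 49280, nat_lit 2928640],
 .step (nat_lit 197) [nat_lit 18500, nat_lit 3516416],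
 .step (nat_lit 161) [nat_lit 48289, nat_lit 3517440],
 .step (nat_lit 132) [nat_lit 42112, nat_lit 2928640],
 .step (nat_lit 99) [nat_lit 12291, nat_lit 2752544],
 .step (nat_lit 6) [nat_lit 27654, nat_lit 2668544],
 .sym (nat_lit 4525) false true true (nat_lit 7) (nat_lit 4),
 .step (nat_lit 100) [nat_lit 1747009, nat_lit 1386496],
 .sym (nat_lit 4527) true false false (nat_lit 7) (nat_lit 6),
 .step (nat_lit 65) [nat_lit 609280, nat_lit 2852896],
 .step (nat_lit 130) [nat_lit 15362, nat_lit 3361792],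
 .step (nat_lit 161) [nat_lit 1404992, nat_lit 213024, nat_lit 719872],
 .step (nat_lit 101) [nat_lit 498784, nat_lit 3344386, nat_lit 2309121, nat_lit 3527682],
 .step (nat_lit 68) [nat_lit 2311200, nat_lit 445473, nat_lit 2128928, nat_lit 3528705],
 .step (nat_lit 165) [nat_lit 6274, nat_lit 3529728],
 .step (nat_lit 130) [nat_lit 15362, nat_lit 3291136],
 .step (nat_lit 130) [nat_lit 15362, nat_lit 3531776],
 .sym (nat_lit 4536) false false true (nat_lit 4) (nat_lit 6),
 .step (nat_lit 101) [nat_lit 2618432, nat_lit 2616384, nat_lit 2589760, nat_lit 1623043],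
 .step (nat_lit 160) [nat_lit 42112, nat_lit 3314688],
 .step (nat_lit 131) [nat_lit 498784, nat_lit 493571, nat_lit 3539010],
 .step (nat_lit 131) [nat_lit 2742274, nat_lit 815201, nat_lit 2316320],
 .step (nat_lit 99) [nat_lit 7233, nat_lit 3043328],
 .step (nat_lit 67) [nat_lit 663555, nat_lit 525314, nat_lit 3541056],
 .step (nat_lit 99) [nat_lit 2643008, nat_lit 1495104, nat_lit 1620035, nat_lit 2850816],
 .step (nat_lit 65) [nat_lit 27648, nat_lit 2666497],
 .step (nat_lit 129) [nat_lit 52225, nat_lit 3542016],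
 .step (nat_lit 38) [nat_lit 6179, nat_lit 3543040],
 .step (nat_lit 65) [nat_lit 27648, nat_lit 3440640],
 .step (nat_lit 129) [nat_lit 490561, nat_lit 485377, nat_lit 2657280, nat_lit 2659392],
 .step (nat_lit 34) [nat_lit 17442, nat_lit 3546112],
 .step (nat_lit 67) [nat_lit 487456, nat_lit 3188736],
 .step (nat_lit 66) [nat_lit 2658305, nat_lit 2903040],
 .step (nat_lit 131) [nat_lit 495618, nat_lit 3537952],
 .step (nat_lit 97) [nat_lit 1583104, nat_lit 2631680],
 .step (nat_lit 101) [nat_lit 1353792, nat_lit 1268802, nat_lit 3547137],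
 .step (nat_lit 66) [nat_lit 12353, nat_lit 3548160],
 .step (nat_lit 161) [nat_lit 5184, nat_lit 3552256],
 .step (nat_lit 65) [nat_lit 791585, nat_lit 2286592, nat_lit 3553280],
 .step (nat_lit 69) [nat_lit 1270788, nat_lit 1584162, nat_lit 3554336],
 .step (nat_lit 133) [nat_lit 174114, nat_lit 3555328],
 .step (nat_lit 100) [nat_lit 126978, nat_lit 1560577, nat_lit 3558400],
 .sym (nat_lit 4561) false true false (nat_lit 7) (nat_lit 4),
 .step (nat_lit 68) [nat_lit 26659, nat_lit 3560448],
 .step (nat_lit 35) [nat_lit 11267, nat_lit 3561504],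
 .step (nat_lit 34) [nat_lit 489505, nat_lit 840704, nat_lit 3562496],
 .step (nat_lit 129) [nat_lit 490561, nat_lit 496705, nat_lit 3110976, nat_lit 2331648],
 .step (nat_lit 68) [nat_lit 11299, nat_lit 3563520],
 .step (nat_lit 161) [nat_lit 27744, nat_lit 3567616],
 .sym (nat_lit 4568) false true true (nat_lit 2) (nat_lit 7),
 .step (nat_lit 36) [nat_lit 138240, nat_lit 1092609, nat_lit 3568640],
 .step (nat_lit 34) [nat_lit 35872, nat_lit 3016705],
 .step (nat_lit 99) [nat_lit 7233, nat_lit 2633728],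
 .step (nat_lit 98) [nat_lit 489569, nat_lit 2278401, nat_lit 3572768],
 .step (nat_lit 98) [nat_lit 489569, nat_lit 497761, nat_lit 3585024],
 .step (nat_lit 98) [nat_lit 499777, nat_lit 3573760, nat_lit 3574785],
 .step (nat_lit 36) [nat_lit 19457, nat_lit 3575840],
 .step (nat_lit 99) [nat_lit 10243, nat_lit 2600960],
 .step (nat_lit 68) [nat_lit 19489, nat_lit 3523584],
 .step (nat_lit 131) [nat_lit 485379, nat_lit 490563, nat_lit 2982976, nat_lit 1085474],
 .step (nat_lit 6) [nat_lit 32771, nat_lit 3578880],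
 .step (nat_lit 6) [nat_lit 32771, nat_lit 3580928],
 .step (nat_lit 36) [nat_lit 13344, nat_lit 3885057],
 .step (nat_lit 6) [nat_lit 27654, nat_lit 3439616],
 .step (nat_lit 132) [nat_lit 11267, nat_lit 3589120],
 .step (nat_lit 131) [nat_lit 469026, nat_lit 3590144],
 .step (nat_lit 99) [nat_lit 489570, nat_lit 2661440, nat_lit 2081792, nat_lit 2891778],
 .sym (nat_lit 4586) false true false (nat_lit 8) (nat_lit 6),
 .step (nat_lit 34) [nat_lit 11266, nat_lit 3591168],
 .step (nat_lit 131) [nat_lit 1743906, nat_lit 754688],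
 .step (nat_lit 7) [nat_lit 6148, nat_lit 3099648],
 .step (nat_lit 130) [nat_lit 2679874, nat_lit 2733057, nat_lit 2347104],
 .sym (nat_lit 4591) true false false (nat_lit 8) (nat_lit 5),
 .step (nat_lit 129) [nat_lit 10241, nat_lit 3594240],
 .step (nat_lit 131) [nat_lit 12323, nat_lit 3595264],
 .step (nat_lit 34) [nat_lit 1267712, nat_lit 63521, nat_lit 2940929],
 .step (nat_lit 34) [nat_lit 69634, nat_lit 3596288],
 .step (nat_lit 32) [nat_lit 35840, nat_lit 3313664],
 .step (nat_lit 101) [nat_lit 6210, nat_lit 3674112],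
 .step (nat_lit 163) [nat_lit 2612226, nat_lit 141408, nat_lit 2400258],
 .sym (nat_lit 4599) false true false (nat_lit 4) (nat_lit 7),
 .sym (nat_lit 4599) true true false (nat_lit 4) (nat_lit 7),
 .sym (nat_lit 4599) false true true (nat_lit 4) (nat_lit 7),
 .sym (nat_lit 4599) false false true (nat_lit 4) (nat_lit 7),
 .sym (nat_lit 4599) true false false (nat_lit 4) (nat_lit 7),
 .step (nat_lit 37) [nat_lit 1268738, nat_lit 780290, nat_lit 3599360],
 .step (nat_lit 129) [nat_lit 22561, nat_lit 3600384],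
 .step (nat_lit 65) [nat_lit 1006625, nat_lit 3140608],
 .step (nat_lit 130) [nat_lit 496706, nat_lit 2716673, nat_lit 2799680],
 .sym (nat_lit 4608) true false false (nat_lit 4) (nat_lit 8),
 .step (nat_lit 130) [nat_lit 490562, nat_lit 496706, nat_lit 2702337, nat_lit 2651200],
 .sym (nat_lit 4610) true false false (nat_lit 4) (nat_lit 8),
 .step (nat_lit 131) [nat_lit 10243, nat_lit 3606560],
 .step (nat_lit 69) [nat_lit 2641953, nat_lit 2622496, nat_lit 3582978, nat_lit 3588098, nat_lit 3306496],
 .sym (nat_lit 4613) true false false (nat_lit 8) (nat_lit 5),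
 .step (nat_lit 68) [nat_lit 586784, nat_lit 728065, nat_lit 3095552],
 .sym (nat_lit 4615) true false true (nat_lit 6) (nat_lit 6),
 .step (nat_lit 68) [nat_lit 2732064, nat_lit 746499, nat_lit 3183680],
 .sym (nat_lit 4617) false true true (nat_lit 5) (nat_lit 9),
 .step (nat_lit 99) [nat_lit 2621505, nat_lit 1935424, nat_lit 2802754, nat_lit 2872320],
 .step (nat_lit 35) [nat_lit 2621441, nat_lit 2611200, nat_lit 2802690, nat_lit 1935360, nat_lit 3177472],
 .step (nat_lit 98) [nat_lit 486465, nat_lit 2623489, nat_lit 2655233, nat_lit 3536960],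
 .step (nat_lit 100) [nat_lit 1351776, nat_lit 1365056, nat_lit 2762752],
 .step (nat_lit 129) [nat_lit 13409, nat_lit 3612672],
 .step (nat_lit 67) [nat_lit 6176, nat_lit 2729984],
 .step (nat_lit 97) [nat_lit 2631680, nat_lit 539680],
 .step (nat_lit 37) [nat_lit 6178, nat_lit 3616768],
 .step (nat_lit 100) [nat_lit 2649091, nat_lit 3083265, nat_lit 2390081, nat_lit 3581952, nat_lit 3840064],
 .step (nat_lit 130) [nat_lit 32864, nat_lit 3618816],
 .step (nat_lit 131) [nat_lit 1357827, nat_lit 1362946, nat_lit 3504128],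
 .sym (nat_lit 4629) false false true (nat_lit 5) (nat_lit 6),
 .step (nat_lit 67) [nat_lit 525314, nat_lit 516099, nat_lit 3619904],
 .step (nat_lit 129) [nat_lit 486464, nat_lit 493569, nat_lit 3495936],
 .sym (nat_lit 4632) true false false (nat_lit 2) (nat_lit 8),
 .step (nat_lit 101) [nat_lit 8290, nat_lit 3263488],
 .step (nat_lit 100) [nat_lit 2188352, nat_lit 3620865, nat_lit 2363393, nat_lit 2362369],
 .step (nat_lit 35) [nat_lit 2599937, nat_lit 232448],
 .step (nat_lit 132) [nat_lit 1354880, nat_lit 2365442, nat_lit 3153922],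
 .step (nat_lit 97) [nat_lit 30721, nat_lit 3515424],
 .step (nat_lit 129) [nat_lit 59392, nat_lit 1748032],
 .step (nat_lit 97) [nat_lit 1269792, nat_lit 1748000, nat_lit 947200, nat_lit 61440],
 .step (nat_lit 129) [nat_lit 43009, nat_lit 3550208],
 .step (nat_lit 38) [nat_lit 43045, nat_lit 3623936],
 .step (nat_lit 35) [nat_lit 2198528, nat_lit 3136512, nat_lit 3624960],
 .step (nat_lit 131) [nat_lit 1351808, nat_lit 1364064, nat_lit 3153921],
 .step (nat_lit 97) [nat_lit 33793, nat_lit 3513376],
 .step (nat_lit 97) [nat_lit 30721, nat_lit 3513376],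
 .step (nat_lit 131) [nat_lit 5187, nat_lit 3627008],
 .step (nat_lit 68) [nat_lit 2726912, nat_lit 1248289, nat_lit 3628033],
 .step (nat_lit 65) [nat_lit 12320, nat_lit 2846720],
 .step (nat_lit 131) [nat_lit 10275, nat_lit 3629056],
 .step (nat_lit 129) [nat_lit 59392, nat_lit 3273792],
 .step (nat_lit 128) [nat_lit 12320, nat_lit 3620864],
 .step (nat_lit 164) [nat_lit 2373664, nat_lit 3632128],
 .step (nat_lit 32) [nat_lit 156672, nat_lit 3633152],
 .step (nat_lit 128) [nat_lit 52224, nat_lit 3620864],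
 .step (nat_lit 36) [nat_lit 14371, nat_lit 3634176],
 .step (nat_lit 32) [nat_lit 156672, nat_lit 3635200],
 .step (nat_lit 165) [nat_lit 6274, nat_lit 3637248],
 .step (nat_lit 36) [nat_lit 10243, nat_lit 3638272],
 .step (nat_lit 65) [nat_lit 1080320, nat_lit 3640352, nat_lit 3015680],
 .step (nat_lit 67) [nat_lit 10275, nat_lit 3641344],
 .step (nat_lit 68) [nat_lit 14403, nat_lit 3545088],
 .step (nat_lit 99) [nat_lit 2623490, nat_lit 2614274, nat_lit 239712, nat_lit 2649090],
 .step (nat_lit 99) [nat_lit 1434624, nat_lit 3090432, nat_lit 2054208],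
 .step (nat_lit 67) [nat_lit 26689, nat_lit 3645440],
 .step (nat_lit 101) [nat_lit 498784, nat_lit 2658370, nat_lit 2309121, nat_lit 3527682],
 .step (nat_lit 2) [nat_lit 9217, nat_lit 3197952],
 .step (nat_lit 69) [nat_lit 16417, nat_lit 3190784],
 .step (nat_lit 68) [nat_lit 1351744, nat_lit 474145, nat_lit 3386368],
 .step (nat_lit 66) [nat_lit 491552, nat_lit 499744, nat_lit 3230720],
 .step (nat_lit 34) [nat_lit 29696, nat_lit 2677761],
 .step (nat_lit 131) [nat_lit 23586, nat_lit 3648512],
 .step (nat_lit 65) [nat_lit 1654784, nat_lit 1702912, nat_lit 3650592],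
 .step (nat_lit 132) [nat_lit 5155, nat_lit 3651584],
 .step (nat_lit 99) [nat_lit 1748994, nat_lit 1481824],
 .step (nat_lit 131) [nat_lit 1355778, nat_lit 1361922, nat_lit 3141632],
 .step (nat_lit 66) [nat_lit 1398784, nat_lit 3462145],
 .sym (nat_lit 4677) true true true (nat_lit 6) (nat_lit 6),
 .step (nat_lit 68) [nat_lit 7233, nat_lit 3597312],
 .step (nat_lit 34) [nat_lit 21504, nat_lit 2711552],
 .step (nat_lit 99) [nat_lit 2654275, nat_lit 3047424],
 .sym (nat_lit 4681) true false false (nat_lit 5) (nat_lit 8),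
 .step (nat_lit 66) [nat_lit 8225, nat_lit 3658752],
 .step (nat_lit 1) [nat_lit 9216, nat_lit 3195904],
 .step (nat_lit 130) [nat_lit 349186, nat_lit 3663904],
 .step (nat_lit 98) [nat_lit 485377, nat_lit 3046400],
 .step (nat_lit 35) [nat_lit 2634752, nat_lit 672768],
 .step (nat_lit 34) [nat_lit 10241, nat_lit 3675136],
 .step (nat_lit 67) [nat_lit 8226, nat_lit 3676160],
 .step (nat_lit 101) [nat_lit 496644, nat_lit 2644033, nat_lit 1562624],
 .step (nat_lit 68) [nat_lit 11267, nat_lit 2967552],
 .step (nat_lit 35) [nat_lit 583680, nat_lit 2677762, nat_lit 2675712],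
 .step (nat_lit 130) [nat_lit 1443873, nat_lit 3109889, nat_lit 2405472],
 .step (nat_lit 132) [nat_lit 18435, nat_lit 3682304],
 .step (nat_lit 131) [nat_lit 68611, nat_lit 2634752],
 .sym (nat_lit 4695) false true false (nat_lit 5) (nat_lit 5),
 .step (nat_lit 34) [nat_lit 489505, nat_lit 3038209, nat_lit 2293760, nat_lit 3556353],
 .step (nat_lit 163) [nat_lit 2644097, nat_lit 2806848, nat_lit 2804802, nat_lit 1494016],
 .step (nat_lit 33) [nat_lit 8224, nat_lit 3686401],
 .step (nat_lit 69) [nat_lit 2618400, nat_lit 2610209, nat_lit 2805792, nat_lit 1934370, nat_lit 2871298],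
 .step (nat_lit 101) [nat_lit 2805824, nat_lit 2872320, nat_lit 3728388, nat_lit 3534880],
 .step (nat_lit 68) [nat_lit 1352736, nat_lit 1907713, nat_lit 3687456],
 .step (nat_lit 33) [nat_lit 25632, nat_lit 3279872],
 .sym (nat_lit 4703) true true false (nat_lit 6) (nat_lit 5),
 .step (nat_lit 131) [nat_lit 489568, nat_lit 3359745],
 .step (nat_lit 130) [nat_lit 12322, nat_lit 3688448],
 .step (nat_lit 33) [nat_lit 25632, nat_lit 3377152],
 .step (nat_lit 100) [nat_lit 23555, nat_lit 3689504],
 .step (nat_lit 33) [nat_lit 25632, nat_lit 3690496],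
 .step (nat_lit 164) [nat_lit 5188, nat_lit 3691520],
 .step (nat_lit 98) [nat_lit 12290, nat_lit 3133440],
 .step (nat_lit 130) [nat_lit 22625, nat_lit 3692544],
 .step (nat_lit 100) [nat_lit 489570, nat_lit 497762, nat_lit 3274754, nat_lit 3318784],
 .step (nat_lit 35) [nat_lit 37920, nat_lit 3698688],
 .step (nat_lit 36) [nat_lit 10243, nat_lit 3699712],
 .step (nat_lit 35) [nat_lit 37920, nat_lit 2728961],
 .step (nat_lit 130) [nat_lit 3697664, nat_lit 2174976, nat_lit 1313824],
 .step (nat_lit 130) [nat_lit 16514, nat_lit 3697664],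
 .step (nat_lit 130) [nat_lit 19554, nat_lit 3697664],
 .step (nat_lit 130) [nat_lit 1364065, nat_lit 3697664, nat_lit 2174976],
 .step (nat_lit 97) [nat_lit 1701888, nat_lit 1314816, nat_lit 3484672, nat_lit 3704832],
 .step (nat_lit 97) [nat_lit 1314816, nat_lit 1124352, nat_lit 3705856],
 .step (nat_lit 68) [nat_lit 50179, nat_lit 3520512],
 .step (nat_lit 130) [nat_lit 2782242, nat_lit 3697664],
 .step (nat_lit 99) [nat_lit 1402914, nat_lit 1263616, nat_lit 3709952],
 .step (nat_lit 99) [nat_lit 19523, nat_lit 3402752],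
 .step (nat_lit 97) [nat_lit 2677857, nat_lit 1164288, nat_lit 1696768],
 .step (nat_lit 161) [nat_lit 13441, nat_lit 3712000],
 .step (nat_lit 99) [nat_lit 2550786, nat_lit 2458656, nat_lit 1228864],
 .sym (nat_lit 4729) false true true (nat_lit 6) (nat_lit 7),
 .step (nat_lit 131) [nat_lit 8290, nat_lit 3714048],
 .step (nat_lit 130) [nat_lit 1351809, nat_lit 3697664, nat_lit 2174976],
 .step (nat_lit 100) [nat_lit 2618432, nat_lit 142339, nat_lit 1742849, nat_lit 1739778],
 .step (nat_lit 36) [nat_lit 47138, nat_lit 3715072],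
 .step (nat_lit 129) [nat_lit 717824, nat_lit 1812480, nat_lit 3717121],
 .step (nat_lit 97) [nat_lit 717824, nat_lit 970753, nat_lit 3657760],
 .step (nat_lit 165) [nat_lit 18468, nat_lit 3719168],
 .step (nat_lit 132) [nat_lit 5156, nat_lit 3721216],
 .step (nat_lit 131) [nat_lit 2812960, nat_lit 717826, nat_lit 2960386, nat_lit 2427906],
 .step (nat_lit 36) [nat_lit 22531, nat_lit 3722240],
 .step (nat_lit 96) [nat_lit 11328, nat_lit 3403776],
 .step (nat_lit 36) [nat_lit 7201, nat_lit 3723264],
 .step (nat_lit 132) [nat_lit 47234, nat_lit 3139584],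
 .step (nat_lit 69) [nat_lit 6178, nat_lit 3381248],
 .step (nat_lit 133) [nat_lit 1357829, nat_lit 3674144, nat_lit 1288226],
 .step (nat_lit 132) [nat_lit 26723, nat_lit 3724288],
 .step (nat_lit 97) [nat_lit 2614272, nat_lit 300128, nat_lit 2432065],
 .step (nat_lit 99) [nat_lit 1651714, nat_lit 3243008, nat_lit 3695648, nat_lit 2434048],
 .step (nat_lit 67) [nat_lit 11266, nat_lit 2918432]]

theorem c4500 : checkFrom tbl r4500 (nat_lit 4750) (nat_lit 4500) = true := by decide +kernel

noncomputable def r6500 : List Rule := [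
 .sym (nat_lit 6499) false true false (nat_lit 8) (nat_lit 7),
 .sym (nat_lit 6499) false false true (nat_lit 8) (nat_lit 7),
 .sym (nat_lit 6499) true false true (nat_lit 8) (nat_lit 7),
 .step (nat_lit 131) [nat_lit 1354880, nat_lit 1360992, nat_lit 6021122],
 .step (nat_lit 131) [nat_lit 1359968, nat_lit 1353824, nat_lit 6021122],
 .step (nat_lit 100) [nat_lit 1352768, nat_lit 1364032, nat_lit 1368128, nat_lit 6045696],
 .sym (nat_lit 6505) false true false (nat_lit 6) (nat_lit 5),
 .sym (nat_lit 6505) true true false (nat_lit 6) (nat_lit 5),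
 .sym (nat_lit 6505) true false false (nat_lit 6) (nat_lit 5),
 .step (nat_lit 130) [nat_lit 4067392, nat_lit 2749536, nat_lit 4091936, nat_lit 5185568, nat_lit 6040576],
 .step (nat_lit 132) [nat_lit 4920321, nat_lit 4918304, nat_lit 5206018, nat_lit 5207104, nat_lit 6041600],
 .step (nat_lit 101) [nat_lit 2619457, nat_lit 2610241, nat_lit 2588737, nat_lit 5980162, nat_lit 5988352],
 .sym (nat_lit 6511) false false true (nat_lit 8) (nat_lit 7),
 .sym (nat_lit 6511) true false true (nat_lit 8) (nat_lit 7),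
 .step (nat_lit 100) [nat_lit 7265, nat_lit 6042624],
 .sym (nat_lit 6514) false false true (nat_lit 5) (nat_lit 6),
 .step (nat_lit 99) [nat_lit 2646050, nat_lit 2649090, nat_lit 5989376, nat_lit 5990464],
 .step (nat_lit 162) [nat_lit 2620417, nat_lit 2613281, nat_lit 2723841, nat_lit 4080641, nat_lit 5255232, nat_lit 6046752],
 .step (nat_lit 164) [nat_lit 1351840, nat_lit 1268865, nat_lit 1364096, nat_lit 6047744],
 .step (nat_lit 131) [nat_lit 486466, nat_lit 2774018, nat_lit 494658, nat_lit 5985344],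
 .sym (nat_lit 6519) false true false (nat_lit 7) (nat_lit 8),
 .sym (nat_lit 6519) true false false (nat_lit 7) (nat_lit 8),
 .sym (nat_lit 6519) false false true (nat_lit 7) (nat_lit 8),
 .step (nat_lit 101) [nat_lit 2641985, nat_lit 2643008, nat_lit 2644033, nat_lit 2804738, nat_lit 6052864],
 .step (nat_lit 133) [nat_lit 2644065, nat_lit 2643040, nat_lit 2642017, nat_lit 2921504, nat_lit 6054914],
 .step (nat_lit 100) [nat_lit 6209, nat_lit 6056960],
 .sym (nat_lit 6525) false true false (nat_lit 5) (nat_lit 5),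
 .step (nat_lit 35) [nat_lit 11267, nat_lit 6062080],
 .step (nat_lit 131) [nat_lit 15363, nat_lit 6064128],
 .sym (nat_lit 6528) true true false (nat_lit 5) (nat_lit 6),
 .step (nat_lit 130) [nat_lit 1357826, nat_lit 1269793, nat_lit 1361921, nat_lit 6404096],
 .sym (nat_lit 6530) false false true (nat_lit 5) (nat_lit 6),
 .sym (nat_lit 6530) false true false (nat_lit 5) (nat_lit 6),
 .sym (nat_lit 6530) true true true (nat_lit 5) (nat_lit 6),
 .step (nat_lit 163) [nat_lit 15395, nat_lit 6066176],
 .step (nat_lit 129) [nat_lit 5299232, nat_lit 2968576, nat_lit 1757216, nat_lit 3040288, nat_lit 6067232],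
 .step (nat_lit 36) [nat_lit 10243, nat_lit 6071296],
 .step (nat_lit 67) [nat_lit 46083, nat_lit 6075392],
 .step (nat_lit 131) [nat_lit 9346, nat_lit 6077440],
 .step (nat_lit 132) [nat_lit 4145186, nat_lit 6070274, nat_lit 3677280, nat_lit 2988128],
 .step (nat_lit 132) [nat_lit 2589792, nat_lit 1679489, nat_lit 6079490],
 .step (nat_lit 133) [nat_lit 2611296, nat_lit 2593888, nat_lit 5992450, nat_lit 2994272],
 .step (nat_lit 100) [nat_lit 2593856, nat_lit 6069250, nat_lit 3023872, nat_lit 3022849, nat_lit 3021824],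
 .step (nat_lit 163) [nat_lit 5996608, nat_lit 6085728, nat_lit 4296768, nat_lit 3036162],
 .step (nat_lit 98) [nat_lit 1353792, nat_lit 1359936, nat_lit 6076418],
 .step (nat_lit 197) [nat_lit 6089728, nat_lit 4810784, nat_lit 1832995, nat_lit 5304385, nat_lit 6089728],
 .step (nat_lit 131) [nat_lit 5993472, nat_lit 720994, nat_lit 963683],
 .sym (nat_lit 6546) true true false (nat_lit 8) (nat_lit 7),
 .step (nat_lit 65) [nat_lit 9280, nat_lit 6094848],
 .step (nat_lit 130) [nat_lit 12322, nat_lit 6099968],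
 .step (nat_lit 130) [nat_lit 3033120, nat_lit 6100992, nat_lit 5318656],
 .step (nat_lit 132) [nat_lit 2588769, nat_lit 1677315, nat_lit 6078496],
 .sym (nat_lit 6551) true false false (nat_lit 8) (nat_lit 8),
 .step (nat_lit 132) [nat_lit 6241, nat_lit 6103040],
 .step (nat_lit 34) [nat_lit 4257793, nat_lit 6092801, nat_lit 4230144],
 .step (nat_lit 164) [nat_lit 12356, nat_lit 6113280],
 .step (nat_lit 69) [nat_lit 14404, nat_lit 6114304],
 .step (nat_lit 197) [nat_lit 381092, nat_lit 6116352],
 .step (nat_lit 67) [nat_lit 1366018, nat_lit 1356803, nat_lit 6020160],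
 .step (nat_lit 34) [nat_lit 11266, nat_lit 6117376],
 .step (nat_lit 68) [nat_lit 2666529, nat_lit 3041312, nat_lit 6120448],
 .sym (nat_lit 6560) true true false (nat_lit 7) (nat_lit 6),
 .step (nat_lit 66) [nat_lit 76865, nat_lit 2826272, nat_lit 6121472],
 .step (nat_lit 66) [nat_lit 13346, nat_lit 6123520],
 .sym (nat_lit 6563) true true true (nat_lit 6) (nat_lit 5),
 .step (nat_lit 100) [nat_lit 1352768, nat_lit 1268801, nat_lit 1365056, nat_lit 6033408],
 .step (nat_lit 133) [nat_lit 48225, nat_lit 6124544],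
 .step (nat_lit 163) [nat_lit 1267841, nat_lit 4327488, nat_lit 6126594, nat_lit 6127649],
 .step (nat_lit 100) [nat_lit 1352768, nat_lit 1365056, nat_lit 6128640],
 .step (nat_lit 100) [nat_lit 2643009, nat_lit 2616385, nat_lit 5217344, nat_lit 5248064, nat_lit 5368865, nat_lit 5372928, nat_lit 5806083],
 .step (nat_lit 132) [nat_lit 117793, nat_lit 537665, nat_lit 6137856],
 .step (nat_lit 132) [nat_lit 6241, nat_lit 6139904],
 .step (nat_lit 34) [nat_lit 11266, nat_lit 6140928],
 .step (nat_lit 34) [nat_lit 25632, nat_lit 6141952],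
 .step (nat_lit 69) [nat_lit 14404, nat_lit 6145024],
 .step (nat_lit 164) [nat_lit 1352832, nat_lit 1365120, nat_lit 6146049],
 .step (nat_lit 69) [nat_lit 12324, nat_lit 6148096],
 .step (nat_lit 34) [nat_lit 8225, nat_lit 6149120],
 .step (nat_lit 165) [nat_lit 16513, nat_lit 6150144],
 .step (nat_lit 132) [nat_lit 7265, nat_lit 6151168],
 .step (nat_lit 1) [nat_lit 9216, nat_lit 6155264],
 .step (nat_lit 132) [nat_lit 2643040, nat_lit 2589792, nat_lit 3209218, nat_lit 6068256],
 .step (nat_lit 34) [nat_lit 8225, nat_lit 6156288],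
 .step (nat_lit 34) [nat_lit 8225, nat_lit 6157312],
 .step (nat_lit 33) [nat_lit 9248, nat_lit 6159361],
 .step (nat_lit 161) [nat_lit 26752, nat_lit 6162432],
 .step (nat_lit 130) [nat_lit 24673, nat_lit 5555200],
 .step (nat_lit 133) [nat_lit 1355780, nat_lit 4414498, nat_lit 4416514, nat_lit 6168576],
 .step (nat_lit 165) [nat_lit 2623492, nat_lit 2612228, nat_lit 2592772, nat_lit 5417986, nat_lit 6169664],
 .step (nat_lit 67) [nat_lit 17475, nat_lit 6170624],
 .step (nat_lit 37) [nat_lit 14372, nat_lit 6171648],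
 .step (nat_lit 36) [nat_lit 7201, nat_lit 6172672],
 .step (nat_lit 164) [nat_lit 1268865, nat_lit 2978817, nat_lit 5431360, nat_lit 6178880],
 .step (nat_lit 68) [nat_lit 1354816, nat_lit 1360928, nat_lit 1369121, nat_lit 6044673],
 .sym (nat_lit 6593) true true false (nat_lit 6) (nat_lit 5),
 .step (nat_lit 65) [nat_lit 5153, nat_lit 6183936],
 .step (nat_lit 34) [nat_lit 21504, nat_lit 6184960],
 .step (nat_lit 163) [nat_lit 2646050, nat_lit 2712610, nat_lit 2701346, nat_lit 6095968, nat_lit 6030336],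
 .sym (nat_lit 6597) true false false (nat_lit 5) (nat_lit 8),
 .step (nat_lit 67) [nat_lit 474144, nat_lit 462880, nat_lit 6111232],
 .step (nat_lit 100) [nat_lit 75873, nat_lit 2757634, nat_lit 6188096],
 .step (nat_lit 163) [nat_lit 2568193, nat_lit 4454464, nat_lit 4458496, nat_lit 6597632],
 .step (nat_lit 131) [nat_lit 6240, nat_lit 6190081],
 .step (nat_lit 133) [nat_lit 6084643, nat_lit 4963392, nat_lit 4295714, nat_lit 4417600, nat_lit 4481024],
 .step (nat_lit 132) [nat_lit 4709377, nat_lit 4359169, nat_lit 4483169, nat_lit 5465121, nat_lit 6193184, nat_lit 6194176],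
 .step (nat_lit 65) [nat_lit 74752, nat_lit 1900544, nat_lit 6195264],
 .step (nat_lit 34) [nat_lit 4400128, nat_lit 2152480, nat_lit 2151425, nat_lit 6196224],
 .step (nat_lit 33) [nat_lit 73728, nat_lit 6198272],
 .step (nat_lit 102) [nat_lit 4033603, nat_lit 1031232, nat_lit 6200323],
 .step (nat_lit 102) [nat_lit 4032579, nat_lit 1032256, nat_lit 6199299],
 .step (nat_lit 68) [nat_lit 14403, nat_lit 6201344],
 .step (nat_lit 133) [nat_lit 2647044, nat_lit 2714628, nat_lit 2703364, nat_lit 5433376, nat_lit 6037538],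
 .sym (nat_lit 6611) false true false (nat_lit 8) (nat_lit 7),
 .step (nat_lit 132) [nat_lit 1351808, nat_lit 1364064, nat_lit 6230017],
 .step (nat_lit 130) [nat_lit 29792, nat_lit 6230018],
 .step (nat_lit 34) [nat_lit 11266, nat_lit 6207520],
 .step (nat_lit 133) [nat_lit 2646052, nat_lit 2712612, nat_lit 2701348, nat_lit 6095970, nat_lit 6138880],
 .step (nat_lit 68) [nat_lit 1351744, nat_lit 1268769, nat_lit 1364000, nat_lit 6228993],
 .step (nat_lit 100) [nat_lit 4107266, nat_lit 6216705, nat_lit 4524064, nat_lit 3385409, nat_lit 5770272, nat_lit 6221824],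
 .step (nat_lit 99) [nat_lit 2624546, nat_lit 2614274, nat_lit 2719808, nat_lit 4078624, nat_lit 4462592, nat_lit 5498880],
 .step (nat_lit 65) [nat_lit 2115616, nat_lit 4090880, nat_lit 4529152, nat_lit 6176800],
 .step (nat_lit 70) [nat_lit 1270789, nat_lit 6424640],
 .step (nat_lit 134) [nat_lit 2115619, nat_lit 5499904, nat_lit 6222848],
 .step (nat_lit 134) [nat_lit 579682, nat_lit 3374083, nat_lit 4535331, nat_lit 6223904],
 .step (nat_lit 133) [nat_lit 588805, nat_lit 1097731, nat_lit 6224896],
 .step (nat_lit 163) [nat_lit 2620418, nat_lit 2614274, nat_lit 2594818, nat_lit 6179904, nat_lit 3350528],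
 .step (nat_lit 66) [nat_lit 1354816, nat_lit 1360928, nat_lit 1369121, nat_lit 6187009],
 .step (nat_lit 130) [nat_lit 5153, nat_lit 6226944],
 .step (nat_lit 196) [nat_lit 5220, nat_lit 5508096],
 .step (nat_lit 130) [nat_lit 46081, nat_lit 6227968],
 .step (nat_lit 163) [nat_lit 496706, nat_lit 4440128, nat_lit 6478848],
 .step (nat_lit 132) [nat_lit 3429378, nat_lit 4471841, nat_lit 5068832, nat_lit 6236161],
 .step (nat_lit 37) [nat_lit 12324, nat_lit 6614016],
 .step (nat_lit 193) [nat_lit 12384, nat_lit 6237184],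
 .step (nat_lit 99) [nat_lit 3171328, nat_lit 2269184, nat_lit 3443714, nat_lit 6238209],
 .step (nat_lit 66) [nat_lit 2736161, nat_lit 2245633, nat_lit 583744, nat_lit 6239234],
 .step (nat_lit 132) [nat_lit 443395, nat_lit 6241280],
 .step (nat_lit 34) [nat_lit 11266, nat_lit 6244352],
 .step (nat_lit 97) [nat_lit 5274657, nat_lit 5198848, nat_lit 6129664],
 .step (nat_lit 100) [nat_lit 734244, nat_lit 796675, nat_lit 6039552],
 .step (nat_lit 101) [nat_lit 134148, nat_lit 4363264, nat_lit 5699585, nat_lit 5154817],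
 .step (nat_lit 195) [nat_lit 5543008, nat_lit 4587617, nat_lit 5541888, nat_lit 6245408],
 .step (nat_lit 99) [nat_lit 7264, nat_lit 6247426],
 .step (nat_lit 67) [nat_lit 37952, nat_lit 6248448],
 .step (nat_lit 99) [nat_lit 2595872, nat_lit 6250497],
 .step (nat_lit 129) [nat_lit 656384, nat_lit 1389632, nat_lit 6251520],
 .step (nat_lit 133) [nat_lit 46084, nat_lit 6253632],
 .step (nat_lit 101) [nat_lit 3435585, nat_lit 4285474, nat_lit 4109314, nat_lit 3485696],
 .step (nat_lit 163) [nat_lit 2024512, nat_lit 4018240, nat_lit 6254656, nat_lit 5557250, nat_lit 5548096],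
 .step (nat_lit 66) [nat_lit 21536, nat_lit 6255616],
 .step (nat_lit 98) [nat_lit 21568, nat_lit 6256640],
 .step (nat_lit 65) [nat_lit 39968, nat_lit 6257664],
 .step (nat_lit 98) [nat_lit 81984, nat_lit 88128, nat_lit 6258690],
 .step (nat_lit 193) [nat_lit 13473, nat_lit 6263808],
 .step (nat_lit 97) [nat_lit 8256, nat_lit 6209536],
 .step (nat_lit 132) [nat_lit 2649091, nat_lit 2646051, nat_lit 3337217, nat_lit 4620352],
 .step (nat_lit 131) [nat_lit 15363, nat_lit 6266880],
 .step (nat_lit 33) [nat_lit 8224, nat_lit 6268928],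
 .step (nat_lit 164) [nat_lit 12355, nat_lit 6273024],
 .step (nat_lit 36) [nat_lit 1363968, nat_lit 1352704, nat_lit 6038528],
 .sym (nat_lit 6659) false true true (nat_lit 6) (nat_lit 5),
 .sym (nat_lit 6659) true false true (nat_lit 6) (nat_lit 5),
 .step (nat_lit 132) [nat_lit 2643040, nat_lit 2642017, nat_lit 6068256, nat_lit 3647490],
 .step (nat_lit 130) [nat_lit 7266, nat_lit 6465536],
 .step (nat_lit 97) [nat_lit 9312, nat_lit 6275073],
 .step (nat_lit 99) [nat_lit 60514, nat_lit 5982208, nat_lit 4037696],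
 .sym (nat_lit 6665) false true false (nat_lit 7) (nat_lit 7),
 .step (nat_lit 99) [nat_lit 8288, nat_lit 6277121],
 .step (nat_lit 131) [nat_lit 3669088, nat_lit 2365441, nat_lit 6278144],
 .step (nat_lit 71) [nat_lit 6180, nat_lit 6281216],
 .step (nat_lit 164) [nat_lit 6282336, nat_lit 6283360, nat_lit 2317313, nat_lit 4652032],
 .step (nat_lit 68) [nat_lit 1268769, nat_lit 4044833, nat_lit 6352929, nat_lit 4341760, nat_lit 6144033],
 .step (nat_lit 34) [nat_lit 9217, nat_lit 6285312],
 .step (nat_lit 35) [nat_lit 1353729, nat_lit 4036608, nat_lit 4039680, nat_lit 6286338],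
 .step (nat_lit 65) [nat_lit 9280, nat_lit 6287360],
 .step (nat_lit 131) [nat_lit 658560, nat_lit 6292480, nat_lit 6293506, nat_lit 5690368],
 .step (nat_lit 226) [nat_lit 485442, nat_lit 2769025, nat_lit 493634, nat_lit 6294528],
 .step (nat_lit 130) [nat_lit 12322, nat_lit 6295552],
 .step (nat_lit 196) [nat_lit 6305, nat_lit 6296576],
 .step (nat_lit 99) [nat_lit 3678208, nat_lit 6298657, nat_lit 5617696],
 .step (nat_lit 132) [nat_lit 1651715, nat_lit 1701891, nat_lit 4407297, nat_lit 3571715, nat_lit 6299648],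
 .step (nat_lit 164) [nat_lit 4508673, nat_lit 3577922, nat_lit 4688897, nat_lit 4687906, nat_lit 6301760],
 .step (nat_lit 130) [nat_lit 12322, nat_lit 6302720],
 .step (nat_lit 197) [nat_lit 793760, nat_lit 4359234, nat_lit 4738081, nat_lit 6303746],
 .step (nat_lit 131) [nat_lit 486466, nat_lit 494658, nat_lit 4283392, nat_lit 6308928],
 .step (nat_lit 99) [nat_lit 491586, nat_lit 6318081, nat_lit 1666049, nat_lit 6316032],
 .step (nat_lit 132) [nat_lit 1355779, nat_lit 1361923, nat_lit 1370115, nat_lit 6319104],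
 .step (nat_lit 132) [nat_lit 1267810, nat_lit 5344352, nat_lit 5626976, nat_lit 6320162, nat_lit 6307842],
 .step (nat_lit 161) [nat_lit 48289, nat_lit 6321152],
 .step (nat_lit 67) [nat_lit 1270786, nat_lit 65570, nat_lit 6324256],
 .step (nat_lit 195) [nat_lit 64578, nat_lit 6119424],
 .step (nat_lit 100) [nat_lit 5269572, nat_lit 6458400, nat_lit 5644288, nat_lit 4730944, nat_lit 6456320],
 .step (nat_lit 68) [nat_lit 2645025, nat_lit 2863139, nat_lit 4725795, nat_lit 3607553, nat_lit 6325280],
 .sym (nat_lit 6692) true false false (nat_lit 9) (nat_lit 7),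
 .step (nat_lit 69) [nat_lit 249889, nat_lit 6323232, nat_lit 5648384],
 .step (nat_lit 101) [nat_lit 5271619, nat_lit 6310976, nat_lit 6457377, nat_lit 5650464, nat_lit 5029889],
 .step (nat_lit 99) [nat_lit 1407040, nat_lit 1412096, nat_lit 6327296],
 .step (nat_lit 5) [nat_lit 396288, nat_lit 6329345],
 .step (nat_lit 100) [nat_lit 3098720, nat_lit 4662274, nat_lit 1605699, nat_lit 6332417],
 .step (nat_lit 101) [nat_lit 492608, nat_lit 2656322, nat_lit 6317058, nat_lit 6315008],
 .step (nat_lit 164) [nat_lit 676867, nat_lit 3622915, nat_lit 4751395, nat_lit 4750339, nat_lit 2367523, nat_lit 6337568],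
 .step (nat_lit 129) [nat_lit 9312, nat_lit 6338560],
 .step (nat_lit 98) [nat_lit 10242, nat_lit 6339584],
 .step (nat_lit 193) [nat_lit 59456, nat_lit 6340608],
 .step (nat_lit 166) [nat_lit 4709411, nat_lit 1216547, nat_lit 3639330, nat_lit 6344704],
 .step (nat_lit 164) [nat_lit 676867, nat_lit 3622915, nat_lit 4751395, nat_lit 5700643, nat_lit 6345760],
 .step (nat_lit 131) [nat_lit 22563, nat_lit 6346752],
 .step (nat_lit 228) [nat_lit 5251, nat_lit 6347776],
 .step (nat_lit 228) [nat_lit 5251, nat_lit 6348800],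
 .step (nat_lit 129) [nat_lit 216065, nat_lit 6349824],
 .step (nat_lit 161) [nat_lit 72736, nat_lit 6350848],
 .step (nat_lit 101) [nat_lit 2644033, nat_lit 2876448, nat_lit 4661313, nat_lit 4660288, nat_lit 6333440],
 .step (nat_lit 97) [nat_lit 8256, nat_lit 6353920],
 .step (nat_lit 99) [nat_lit 10243, nat_lit 6355968],
 .step (nat_lit 65) [nat_lit 13345, nat_lit 6356992],
 .step (nat_lit 163) [nat_lit 1355810, nat_lit 1361954, nat_lit 1370146, nat_lit 6359040],
 .step (nat_lit 98) [nat_lit 490530, nat_lit 496674, nat_lit 6032384],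
 .sym (nat_lit 6716) true false false (nat_lit 5) (nat_lit 7),
 .step (nat_lit 133) [nat_lit 2644065, nat_lit 2643040, nat_lit 2642017, nat_lit 6087680, nat_lit 6054914],
 .sym (nat_lit 6718) true false false (nat_lit 8) (nat_lit 6),
 .step (nat_lit 99) [nat_lit 2643008, nat_lit 2619457, nat_lit 2616384, nat_lit 2081792, nat_lit 2891778, nat_lit 5988352],
 .step (nat_lit 68) [nat_lit 11267, nat_lit 6354944],
 .step (nat_lit 68) [nat_lit 11267, nat_lit 6364160],
 .step (nat_lit 100) [nat_lit 25664, nat_lit 6365185],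
 .step (nat_lit 97) [nat_lit 496705, nat_lit 490561, nat_lit 2771968, nat_lit 6367296],
 .step (nat_lit 131) [nat_lit 2645088, nat_lit 2644065, nat_lit 2643040, nat_lit 2805856, nat_lit 6088706],
 .sym (nat_lit 6725) true true false (nat_lit 8) (nat_lit 7),
 .sym (nat_lit 6725) true false false (nat_lit 8) (nat_lit 7),
 .step (nat_lit 132) [nat_lit 1267810, nat_lit 5344352, nat_lit 6110241, nat_lit 6306912, nat_lit 6313986],
 .sym (nat_lit 6728) true false false (nat_lit 8) (nat_lit 8),
 .step (nat_lit 67) [nat_lit 2709539, nat_lit 4671521, nat_lit 3557408, nat_lit 4809760, nat_lit 6513664],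
 .step (nat_lit 68) [nat_lit 6177, nat_lit 6125568],
 .step (nat_lit 71) [nat_lit 6180, nat_lit 6370304],
 .step (nat_lit 132) [nat_lit 5155, nat_lit 6371328],
 .step (nat_lit 101) [nat_lit 2644033, nat_lit 2618432, nat_lit 2610241, nat_lit 2082818, nat_lit 2888736, nat_lit 6372416],
 .step (nat_lit 65) [nat_lit 5714944, nat_lit 1243136, nat_lit 5715968, nat_lit 6374400],
 .step (nat_lit 35) [nat_lit 2599937, nat_lit 6019072],
 .step (nat_lit 131) [nat_lit 15363, nat_lit 6375424],
 .step (nat_lit 100) [nat_lit 5991425, nat_lit 3028032, nat_lit 3007552, nat_lit 6177792],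
 .step (nat_lit 165) [nat_lit 2623492, nat_lit 2612228, nat_lit 2592772, nat_lit 6165570, nat_lit 5474304],
 .step (nat_lit 99) [nat_lit 1405954, nat_lit 1439808, nat_lit 6376448],
 .step (nat_lit 35) [nat_lit 37920, nat_lit 6378496],
 .step (nat_lit 71) [nat_lit 7236, nat_lit 6381568],
 .step (nat_lit 100) [nat_lit 1356836, nat_lit 3706880, nat_lit 3707904, nat_lit 6379584],
 .step (nat_lit 133) [nat_lit 2618464, nat_lit 6180898, nat_lit 4837376, nat_lit 4833280],
 .step (nat_lit 133) [nat_lit 2642017, nat_lit 2644065, nat_lit 2804770, nat_lit 4830208],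
 .step (nat_lit 134) [nat_lit 2644066, nat_lit 3713056, nat_lit 5734432, nat_lit 6386688, nat_lit 6383648, nat_lit 4969504],
 .step (nat_lit 134) [nat_lit 2644066, nat_lit 2610274, nat_lit 5174368, nat_lit 5367843, nat_lit 5596195, nat_lit 6387745, nat_lit 6385664],
 .step (nat_lit 102) [nat_lit 1604611, nat_lit 5285890, nat_lit 6389760],
 .step (nat_lit 227) [nat_lit 12419, nat_lit 6390784]]

theorem c6500 : checkFrom tbl r6500 (nat_lit 6750) (nat_lit 6500) = true := by decide +kernel

end Crest.Agent.R035
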