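import Crest.Agent.R035.Table

set_option autoImplicit false
set_option maxRecDepth 100000

namespace Crest.Agent.R035

noncomputable def r750 : List Rule := [
 .sym (nat_lit 748) true true true (nat_lit 1) (nat_lit 5),
 .sym (nat_lit 748) true true false (nat_lit 1) (nat_lit 5),
 .step (nat_lit 97) [nat_lit 26688, nat_lit 73729],
 .step (nat_lit 1) [nat_lit 9216, nat_lit 134145],
 .sym (nat_lit 753) false true false (nat_lit 4) (nat_lit 4),
 .sym (nat_lit 753) true true true (nat_lit 4) (nat_lit 4),
 .sym (nat_lit 753) true false true (nat_lit 4) (nat_lit 4),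
 .step (nat_lit 128) [nat_lit 15360, nat_lit 209920],
 .sym (nat_lit 757) false true true (nat_lit 2) (nat_lit 5),
 .sym (nat_lit 757) true true true (nat_lit 2) (nat_lit 5),
 .sym (nat_lit 757) true false false (nat_lit 2) (nat_lit 5),
 .sym (nat_lit 757) false true false (nat_lit 2) (nat_lit 5),
 .sym (nat_lit 757) false false true (nat_lit 2) (nat_lit 5),
 .sym (nat_lit 757) true false true (nat_lit 2) (nat_lit 5),
 .sym (nat_lit 757) true true false (nat_lit 2) (nat_lit 5),
 .step (nat_lit 100) [nat_lit 6209, nat_lit 271360],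
 .sym (nat_lit 765) false true false (nat_lit 5) (nat_lit 4),
 .sym (nat_lit 765) true false false (nat_lit 5) (nat_lit 4),
 .sym (nat_lit 765) true false true (nat_lit 5) (nat_lit 4),
 .step (nat_lit 34) [nat_lit 21504, nat_lit 257024],
 .sym (nat_lit 769) false true false (nat_lit 5) (nat_lit 1),
 .sym (nat_lit 769) true true true (nat_lit 5) (nat_lit 1),
 .step (nat_lit 129) [nat_lit 28673, nat_lit 276480],
 .step (nat_lit 64) [nat_lit 10240, nat_lit 54304],
 .sym (nat_lit 773) true false false (nat_lit 1) (nat_lit 6),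
 .sym (nat_lit 773) true true true (nat_lit 1) (nat_lit 6),
 .sym (nat_lit 773) true true false (nat_lit 1) (nat_lit 6),
 .sym (nat_lit 773) true false true (nat_lit 1) (nat_lit 6),
 .step (nat_lit 161) [nat_lit 10273, nat_lit 59392],
 .sym (nat_lit 778) false true false (nat_lit 2) (nat_lit 5),
 .step (nat_lit 34) [nat_lit 9216, nat_lit 63520],
 .sym (nat_lit 780) false true true (nat_lit 5) (nat_lit 2),
 .sym (nat_lit 780) false false true (nat_lit 5) (nat_lit 2),
 .sym (nat_lit 780) true true false (nat_lit 5) (nat_lit 2),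
 .sym (nat_lit 780) false true false (nat_lit 5) (nat_lit 2),
 .sym (nat_lit 780) true false true (nat_lit 5) (nat_lit 2),
 .step (nat_lit 35) [nat_lit 26656, nat_lit 198656],
 .step (nat_lit 68) [nat_lit 9248, nat_lit 148481],
 .sym (nat_lit 787) true false true (nat_lit 5) (nat_lit 4),
 .step (nat_lit 33) [nat_lit 36897, nat_lit 73728],
 .sym (nat_lit 789) true false true (nat_lit 2) (nat_lit 5),
 .step (nat_lit 98) [nat_lit 5121, nat_lit 63584],
 .step (nat_lit 131) [nat_lit 11266, nat_lit 135264],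
 .step (nat_lit 34) [nat_lit 21504, nat_lit 285697],
 .step (nat_lit 65) [nat_lit 8224, nat_lit 69633],
 .step (nat_lit 36) [nat_lit 32800, nat_lit 158720],
 .step (nat_lit 35) [nat_lit 6144, nat_lit 95233],
 .step (nat_lit 38) [nat_lit 6179, nat_lit 124928],
 .step (nat_lit 67) [nat_lit 21568, nat_lit 126978],
 .step (nat_lit 4) [nat_lit 8192, nat_lit 274433],
 .sym (nat_lit 799) false true true (nat_lit 5) (nat_lit 4),
 .step (nat_lit 3) [nat_lit 25600, nat_lit 87041],
 .sym (nat_lit 801) true true false (nat_lit 6) (nat_lit 1),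
 .sym (nat_lit 801) false false true (nat_lit 6) (nat_lit 1),
 .sym (nat_lit 801) true true true (nat_lit 6) (nat_lit 1),
 .sym (nat_lit 801) true false false (nat_lit 6) (nat_lit 1),
 .step (nat_lit 36) [nat_lit 22531, nat_lit 133152],
 .sym (nat_lit 806) true false false (nat_lit 4) (nat_lit 4),
 .step (nat_lit 36) [nat_lit 21506, nat_lit 88096],
 .step (nat_lit 67) [nat_lit 21568, nat_lit 73731],
 .step (nat_lit 33) [nat_lit 8192, nat_lit 80897],
 .sym (nat_lit 810) true true false (nat_lit 4) (nat_lit 5),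
 .step (nat_lit 129) [nat_lit 12321, nat_lit 139264],
 .step (nat_lit 36) [nat_lit 19488, nat_lit 289793],
 .sym (nat_lit 813) false true true (nat_lit 5) (nat_lit 2),
 .sym (nat_lit 813) true true false (nat_lit 5) (nat_lit 2),
 .step (nat_lit 99) [nat_lit 45059, nat_lit 75872],
 .step (nat_lit 33) [nat_lit 14337, nat_lit 292864],
 .sym (nat_lit 817) true true false (nat_lit 4) (nat_lit 4),
 .step (nat_lit 34) [nat_lit 11266, nat_lit 296960],
 .sym (nat_lit 819) false false true (nat_lit 4) (nat_lit 4),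
 .step (nat_lit 33) [nat_lit 6177, nat_lit 304128],
 .step (nat_lit 131) [nat_lit 6240, nat_lit 97282],
 .sym (nat_lit 822) false true true (nat_lit 4) (nat_lit 5),
 .step (nat_lit 64) [nat_lit 27680, nat_lit 172032],
 .step (nat_lit 100) [nat_lit 27651, nat_lit 67680],
 .step (nat_lit 65) [nat_lit 11264, nat_lit 306208],
 .step (nat_lit 129) [nat_lit 13409, nat_lit 307200],
 .sym (nat_lit 827) true true false (nat_lit 5) (nat_lit 4),
 .sym (nat_lit 827) true true true (nat_lit 5) (nat_lit 4),
 .step (nat_lit 33) [nat_lit 26625, nat_lit 291840],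
 .step (nat_lit 99) [nat_lit 12291, nat_lit 96320],
 .step (nat_lit 100) [nat_lit 13408, nat_lit 117761],
 .step (nat_lit 1) [nat_lit 9216, nat_lit 305153],
 .sym (nat_lit 833) true true false (nat_lit 5) (nat_lit 4),
 .sym (nat_lit 833) true true true (nat_lit 5) (nat_lit 4),
 .step (nat_lit 36) [nat_lit 9216, nat_lit 95265],
 .step (nat_lit 65) [nat_lit 9280, nat_lit 73729],
 .step (nat_lit 34) [nat_lit 6177, nat_lit 195584],
 .step (nat_lit 67) [nat_lit 9248, nat_lit 275456],
 .step (nat_lit 33) [nat_lit 6177, nat_lit 195584],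
 .step (nat_lit 33) [nat_lit 9216, nat_lit 270336],
 .step (nat_lit 34) [nat_lit 27650, nat_lit 93216],
 .step (nat_lit 132) [nat_lit 18435, nat_lit 308256],
 .sym (nat_lit 843) true true false (nat_lit 4) (nat_lit 5),
 .sym (nat_lit 843) false false true (nat_lit 4) (nat_lit 5),
 .step (nat_lit 130) [nat_lit 5153, nat_lit 293888],
 .step (nat_lit 36) [nat_lit 14371, nat_lit 313344],
 .sym (nat_lit 847) false true true (nat_lit 4) (nat_lit 5),
 .sym (nat_lit 847) true false true (nat_lit 4) (nat_lit 5),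
 .sym (nat_lit 847) true false false (nat_lit 4) (nat_lit 5),
 .step (nat_lit 129) [nat_lit 9344, nat_lit 59392],
 .sym (nat_lit 851) false false true (nat_lit 4) (nat_lit 5),
 .step (nat_lit 99) [nat_lit 6240, nat_lit 256000],
 .step (nat_lit 65) [nat_lit 9280, nat_lit 251904],
 .sym (nat_lit 854) true false false (nat_lit 4) (nat_lit 4),
 .sym (nat_lit 854) true true true (nat_lit 4) (nat_lit 4),
 .sym (nat_lit 854) false false true (nat_lit 4) (nat_lit 4),
 .step (nat_lit 35) [nat_lit 37920, nat_lit 261123],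
 .step (nat_lit 98) [nat_lit 7233, nat_lit 320512],
 .step (nat_lit 65) [nat_lit 9280, nat_lit 106496],
 .step (nat_lit 65) [nat_lit 14337, nat_lit 61440],
 .step (nat_lit 65) [nat_lit 9280, nat_lit 325632],
 .step (nat_lit 34) [nat_lit 10241, nat_lit 326688],
 .step (nat_lit 97) [nat_lit 9280, nat_lit 328705],
 .step (nat_lit 65) [nat_lit 50176, nat_lit 266304],
 .step (nat_lit 33) [nat_lit 18465, nat_lit 292864],
 .step (nat_lit 129) [nat_lit 9344, nat_lit 83968],
 .step (nat_lit 99) [nat_lit 7264, nat_lit 331778],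
 .sym (nat_lit 868) true true false (nat_lit 4) (nat_lit 5),
 .step (nat_lit 35) [nat_lit 10242, nat_lit 75808],
 .sym (nat_lit 870) true true false (nat_lit 5) (nat_lit 4),
 .sym (nat_lit 870) true false true (nat_lit 5) (nat_lit 4),
 .step (nat_lit 33) [nat_lit 24609, nat_lit 340992],
 .step (nat_lit 97) [nat_lit 6241, nat_lit 121856],
 .step (nat_lit 36) [nat_lit 14371, nat_lit 342016],
 .sym (nat_lit 875) false true false (nat_lit 4) (nat_lit 5),
 .sym (nat_lit 875) true true false (nat_lit 4) (nat_lit 5),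
 .sym (nat_lit 875) true false true (nat_lit 4) (nat_lit 5),
 .step (nat_lit 66) [nat_lit 11265, nat_lit 274464],
 .step (nat_lit 33) [nat_lit 35840, nat_lit 54305],
 .step (nat_lit 97) [nat_lit 9280, nat_lit 343041],
 .step (nat_lit 196) [nat_lit 51360, nat_lit 344067],
 .step (nat_lit 1) [nat_lit 8192, nat_lit 337921],
 .step (nat_lit 34) [nat_lit 8224, nat_lit 55296],
 .sym (nat_lit 884) true true false (nat_lit 5) (nat_lit 2),
 .step (nat_lit 97) [nat_lit 5153, nat_lit 324608],
 .sym (nat_lit 886) true true false (nat_lit 4) (nat_lit 5),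
 .step (nat_lit 97) [nat_lit 8288, nat_lit 330753],
 .step (nat_lit 33) [nat_lit 5121, nat_lit 106496],
 .step (nat_lit 100) [nat_lit 12291, nat_lit 352320],
 .step (nat_lit 98) [nat_lit 23553, nat_lit 196640],
 .step (nat_lit 4) [nat_lit 7169, nat_lit 353280],
 .step (nat_lit 97) [nat_lit 24672, nat_lit 354304],
 .sym (nat_lit 893) true true false (nat_lit 4) (nat_lit 5),
 .sym (nat_lit 893) true false true (nat_lit 4) (nat_lit 5),
 .sym (nat_lit 893) false true true (nat_lit 4) (nat_lit 5),
 .sym (nat_lit 893) false false true (nat_lit 4) (nat_lit 5),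
 .sym (nat_lit 893) true false false (nat_lit 4) (nat_lit 5),
 .step (nat_lit 65) [nat_lit 24640, nat_lit 172032],
 .step (nat_lit 65) [nat_lit 27648, nat_lit 126976],
 .sym (nat_lit 900) false true true (nat_lit 2) (nat_lit 4),
 .step (nat_lit 64) [nat_lit 42016, nat_lit 64512],
 .step (nat_lit 35) [nat_lit 135168, nat_lit 137216, nat_lit 239616, nat_lit 240640],
 .sym (nat_lit 903) false false true (nat_lit 4) (nat_lit 1),
 .sym (nat_lit 903) false true false (nat_lit 4) (nat_lit 1),
 .sym (nat_lit 903) false true true (nat_lit 4) (nat_lit 1),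
 .sym (nat_lit 903) true true false (nat_lit 4) (nat_lit 1),
 .step (nat_lit 33) [nat_lit 8192, nat_lit 320512],
 .sym (nat_lit 908) false false true (nat_lit 4) (nat_lit 4),
 .sym (nat_lit 908) true false false (nat_lit 4) (nat_lit 4),
 .step (nat_lit 128) [nat_lit 26720, nat_lit 351232],
 .sym (nat_lit 911) false true false (nat_lit 4) (nat_lit 5),
 .step (nat_lit 2) [nat_lit 29697, nat_lit 263168],
 .sym (nat_lit 913) false true false (nat_lit 5) (nat_lit 1),
 .sym (nat_lit 913) false true true (nat_lit 5) (nat_lit 1),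
 .sym (nat_lit 913) true true true (nat_lit 5) (nat_lit 1),
 .step (nat_lit 66) [nat_lit 24608, nat_lit 68609],
 .step (nat_lit 161) [nat_lit 10273, nat_lit 365568],
 .step (nat_lit 132) [nat_lit 10244, nat_lit 271392],
 .step (nat_lit 66) [nat_lit 12353, nat_lit 367616],
 .step (nat_lit 33) [nat_lit 35840, nat_lit 219169],
 .step (nat_lit 34) [nat_lit 26625, nat_lit 202752],
 .sym (nat_lit 922) false true false (nat_lit 5) (nat_lit 2),
 .step (nat_lit 130) [nat_lit 46081, nat_lit 67680],
 .step (nat_lit 96) [nat_lit 12288, nat_lit 186400],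
 .sym (nat_lit 925) true false false (nat_lit 4) (nat_lit 5),
 .step (nat_lit 35) [nat_lit 32769, nat_lit 161792],
 .sym (nat_lit 927) false true false (nat_lit 6) (nat_lit 1),
 .step (nat_lit 35) [nat_lit 9216, nat_lit 57376],
 .step (nat_lit 99) [nat_lit 7264, nat_lit 351234],
 .sym (nat_lit 930) true false true (nat_lit 4) (nat_lit 5),
 .sym (nat_lit 930) false false true (nat_lit 4) (nat_lit 5),
 .step (nat_lit 99) [nat_lit 42048, nat_lit 164866],
 .step (nat_lit 35) [nat_lit 21536, nat_lit 371713],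
 .step (nat_lit 65) [nat_lit 20545, nat_lit 316416],
 .step (nat_lit 33) [nat_lit 10240, nat_lit 141312],
 .step (nat_lit 65) [nat_lit 39968, nat_lit 302080],
 .step (nat_lit 67) [nat_lit 25632, nat_lit 114690],
 .sym (nat_lit 938) false true false (nat_lit 4) (nat_lit 4),
 .sym (nat_lit 938) true true false (nat_lit 4) (nat_lit 4),
 .step (nat_lit 35) [nat_lit 56320, nat_lit 57376],
 .step (nat_lit 3) [nat_lit 45058, nat_lit 248832],
 .sym (nat_lit 942) false true true (nat_lit 4) (nat_lit 4),
 .sym (nat_lit 942) true true true (nat_lit 4) (nat_lit 4),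
 .sym (nat_lit 942) true false true (nat_lit 4) (nat_lit 4),
 .step (nat_lit 97) [nat_lit 44032, nat_lit 94304],
 .step (nat_lit 33) [nat_lit 23553, nat_lit 179200],
 .step (nat_lit 33) [nat_lit 30720, nat_lit 373760],
 .sym (nat_lit 948) true true true (nat_lit 1) (nat_lit 5),
 .sym (nat_lit 948) false false true (nat_lit 1) (nat_lit 5),
 .sym (nat_lit 948) true false false (nat_lit 1) (nat_lit 5),
 .step (nat_lit 33) [nat_lit 22560, nat_lit 374784],
 .sym (nat_lit 952) true false false (nat_lit 4) (nat_lit 5),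
 .sym (nat_lit 952) true true false (nat_lit 4) (nat_lit 5),
 .step (nat_lit 36) [nat_lit 25600, nat_lit 86049],
 .sym (nat_lit 955) true false false (nat_lit 6) (nat_lit 2),
 .sym (nat_lit 955) false true false (nat_lit 6) (nat_lit 2),
 .sym (nat_lit 955) true true false (nat_lit 6) (nat_lit 2),
 .sym (nat_lit 955) true true true (nat_lit 6) (nat_lit 2),
 .step (nat_lit 33) [nat_lit 13344, nat_lit 56321],
 .step (nat_lit 97) [nat_lit 9312, nat_lit 319488],
 .step (nat_lit 68) [nat_lit 7233, nat_lit 376832],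
 .sym (nat_lit 962) true true false (nat_lit 5) (nat_lit 4),
 .step (nat_lit 68) [nat_lit 46084, nat_lit 99392],
 .step (nat_lit 128) [nat_lit 12320, nat_lit 379904],
 .step (nat_lit 97) [nat_lit 7233, nat_lit 320512],
 .step (nat_lit 36) [nat_lit 29696, nat_lit 372736],
 .sym (nat_lit 967) true true false (nat_lit 5) (nat_lit 1),
 .sym (nat_lit 967) false false true (nat_lit 5) (nat_lit 1),
 .sym (nat_lit 967) true false false (nat_lit 5) (nat_lit 1),
 .sym (nat_lit 967) true true true (nat_lit 5) (nat_lit 1),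
 .step (nat_lit 1) [nat_lit 9216, nat_lit 384000],
 .step (nat_lit 129) [nat_lit 24672, nat_lit 72704],
 .step (nat_lit 35) [nat_lit 6144, nat_lit 67585],
 .step (nat_lit 98) [nat_lit 12290, nat_lit 66624],
 .step (nat_lit 131) [nat_lit 17410, nat_lit 174112],
 .sym (nat_lit 976) true true true (nat_lit 4) (nat_lit 5),
 .sym (nat_lit 976) false true false (nat_lit 4) (nat_lit 5),
 .step (nat_lit 69) [nat_lit 7234, nat_lit 389120],
 .sym (nat_lit 979) false true false (nat_lit 6) (nat_lit 4),
 .step (nat_lit 98) [nat_lit 40001, nat_lit 120832],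
 .step (nat_lit 67) [nat_lit 7232, nat_lit 203777],
 .step (nat_lit 33) [nat_lit 10240, nat_lit 390176],
 .sym (nat_lit 983) true false true (nat_lit 2) (nat_lit 5),
 .sym (nat_lit 983) true true false (nat_lit 2) (nat_lit 5),
 .step (nat_lit 34) [nat_lit 25632, nat_lit 55296],
 .step (nat_lit 1) [nat_lit 24576, nat_lit 238592],
 .step (nat_lit 99) [nat_lit 21600, nat_lit 101379],
 .step (nat_lit 99) [nat_lit 42048, nat_lit 91139],
 .step (nat_lit 1) [nat_lit 5121, nat_lit 294912],
 .step (nat_lit 35) [nat_lit 18467, nat_lit 232448],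
 .step (nat_lit 35) [nat_lit 21536, nat_lit 260099],
 .step (nat_lit 33) [nat_lit 8224, nat_lit 102400],
 .step (nat_lit 64) [nat_lit 24640, nat_lit 100352],
 .step (nat_lit 36) [nat_lit 25601, nat_lit 81952],
 .step (nat_lit 131) [nat_lit 6240, nat_lit 152578],
 .sym (nat_lit 996) true false false (nat_lit 4) (nat_lit 5),
 .step (nat_lit 131) [nat_lit 27682, nat_lit 197632],
 .step (nat_lit 35) [nat_lit 21536, nat_lit 349187]]

theorem c750 : checkFrom tbl r750 (nat_lit 1000) (nat_lit 750) = true := by decide +kernel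

noncomputable def r2750 : List Rule := [
 .sym (nat_lit 2749) true false true (nat_lit 4) (nat_lit 6),
 .step (nat_lit 66) [nat_lit 7202, nat_lit 1532928],
 .sym (nat_lit 2751) false true true (nat_lit 6) (nat_lit 4),
 .sym (nat_lit 2751) false true false (nat_lit 6) (nat_lit 4),
 .step (nat_lit 68) [nat_lit 6209, nat_lit 1498112],
 .sym (nat_lit 2754) false true true (nat_lit 5) (nat_lit 5),
 .sym (nat_lit 2754) true true false (nat_lit 5) (nat_lit 5),
 .step (nat_lit 65) [nat_lit 18497, nat_lit 1539072],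
 .step (nat_lit 68) [nat_lit 70688, nat_lit 1440768],
 .step (nat_lit 33) [nat_lit 21504, nat_lit 1351712],
 .sym (nat_lit 2759) false true false (nat_lit 6) (nat_lit 2),
 .sym (nat_lit 2759) true false true (nat_lit 6) (nat_lit 2),
 .step (nat_lit 100) [nat_lit 7265, nat_lit 1554432],
 .sym (nat_lit 2762) true true false (nat_lit 5) (nat_lit 5),
 .step (nat_lit 35) [nat_lit 28674, nat_lit 1559552],
 .step (nat_lit 2) [nat_lit 1354752, nat_lit 60417, nat_lit 1417217],
 .sym (nat_lit 2765) true false false (nat_lit 8) (nat_lit 1),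
 .sym (nat_lit 2765) false true false (nat_lit 8) (nat_lit 1),
 .sym (nat_lit 2765) true false true (nat_lit 8) (nat_lit 1),
 .step (nat_lit 65) [nat_lit 1356801, nat_lit 118816],
 .step (nat_lit 65) [nat_lit 1369120, nat_lit 539648],
 .step (nat_lit 34) [nat_lit 11266, nat_lit 1572896],
 .step (nat_lit 68) [nat_lit 1351744, nat_lit 1364000, nat_lit 1440768],
 .step (nat_lit 65) [nat_lit 9280, nat_lit 1574913],
 .sym (nat_lit 2773) true false true (nat_lit 6) (nat_lit 4),
 .step (nat_lit 96) [nat_lit 12288, nat_lit 1580032],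
 .sym (nat_lit 2775) false true true (nat_lit 5) (nat_lit 4),
 .step (nat_lit 193) [nat_lit 1269856, nat_lit 1581057],
 .step (nat_lit 34) [nat_lit 166912, nat_lit 1467393],
 .step (nat_lit 65) [nat_lit 9280, nat_lit 1675264],
 .step (nat_lit 130) [nat_lit 5153, nat_lit 1598464],
 .sym (nat_lit 2780) false true false (nat_lit 4) (nat_lit 5),
 .sym (nat_lit 2780) false false true (nat_lit 4) (nat_lit 5),
 .step (nat_lit 34) [nat_lit 12321, nat_lit 1609728],
 .step (nat_lit 98) [nat_lit 1267776, nat_lit 1392642],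
 .step (nat_lit 131) [nat_lit 12323, nat_lit 1610752],
 .step (nat_lit 34) [nat_lit 10241, nat_lit 1616896],
 .sym (nat_lit 2786) false false true (nat_lit 4) (nat_lit 5),
 .sym (nat_lit 2786) true false false (nat_lit 4) (nat_lit 5),
 .step (nat_lit 98) [nat_lit 488450, nat_lit 2185280, nat_lit 1617984],
 .step (nat_lit 163) [nat_lit 475202, nat_lit 1618944],
 .step (nat_lit 65) [nat_lit 662528, nat_lit 142400, nat_lit 1506304],
 .sym (nat_lit 2791) false true false (nat_lit 2) (nat_lit 6),
 .step (nat_lit 98) [nat_lit 1267776, nat_lit 1586178],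
 .step (nat_lit 65) [nat_lit 26656, nat_lit 1627136],
 .step (nat_lit 67) [nat_lit 6176, nat_lit 1629186],
 .step (nat_lit 36) [nat_lit 1352704, nat_lit 1364992, nat_lit 653313],
 .sym (nat_lit 2796) true false false (nat_lit 6) (nat_lit 4),
 .sym (nat_lit 2796) true false true (nat_lit 6) (nat_lit 4),
 .sym (nat_lit 2796) false true false (nat_lit 6) (nat_lit 4),
 .step (nat_lit 36) [nat_lit 1268737, nat_lit 771072],
 .sym (nat_lit 2800) false true false (nat_lit 6) (nat_lit 4),
 .sym (nat_lit 2800) false false true (nat_lit 6) (nat_lit 4),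
 .step (nat_lit 66) [nat_lit 1354816, nat_lit 1359904, nat_lit 1543169],
 .sym (nat_lit 2803) true false false (nat_lit 6) (nat_lit 5),
 .step (nat_lit 98) [nat_lit 1267776, nat_lit 1608706],
 .sym (nat_lit 2805) false true false (nat_lit 6) (nat_lit 6),
 .sym (nat_lit 2805) true false false (nat_lit 6) (nat_lit 6),
 .step (nat_lit 100) [nat_lit 1351776, nat_lit 1364032, nat_lit 1541121],
 .sym (nat_lit 2808) true true false (nat_lit 6) (nat_lit 5),
 .sym (nat_lit 2808) false true false (nat_lit 6) (nat_lit 5),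
 .step (nat_lit 130) [nat_lit 486465, nat_lit 488449, nat_lit 1528896, nat_lit 1527840],
 .step (nat_lit 66) [nat_lit 126977, nat_lit 1564672],
 .step (nat_lit 98) [nat_lit 5121, nat_lit 1641504],
 .step (nat_lit 99) [nat_lit 491616, nat_lit 1642497],
 .step (nat_lit 131) [nat_lit 5154, nat_lit 1643520],
 .step (nat_lit 35) [nat_lit 1269794, nat_lit 172032],
 .sym (nat_lit 2816) true false true (nat_lit 4) (nat_lit 6),
 .sym (nat_lit 2816) false true false (nat_lit 4) (nat_lit 6),
 .sym (nat_lit 2816) true true true (nat_lit 4) (nat_lit 6),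
 .sym (nat_lit 2816) true false false (nat_lit 4) (nat_lit 6),
 .step (nat_lit 66) [nat_lit 1267744, nat_lit 1546242],
 .sym (nat_lit 2821) true false false (nat_lit 6) (nat_lit 5),
 .sym (nat_lit 2821) false true false (nat_lit 6) (nat_lit 5),
 .sym (nat_lit 2821) true true false (nat_lit 6) (nat_lit 5),
 .step (nat_lit 36) [nat_lit 1268737, nat_lit 813056],
 .step (nat_lit 96) [nat_lit 12288, nat_lit 1650688],
 .sym (nat_lit 2826) false false true (nat_lit 5) (nat_lit 4),
 .step (nat_lit 65) [nat_lit 11264, nat_lit 1361920],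
 .step (nat_lit 67) [nat_lit 1358850, nat_lit 1366018, nat_lit 1486880],
 .sym (nat_lit 2829) false true true (nat_lit 5) (nat_lit 6),
 .step (nat_lit 3) [nat_lit 7168, nat_lit 1656833],
 .step (nat_lit 70) [nat_lit 16418, nat_lit 1657856],
 .step (nat_lit 65) [nat_lit 6209, nat_lit 1485824],
 .sym (nat_lit 2833) false true true (nat_lit 5) (nat_lit 5),
 .sym (nat_lit 2833) true false true (nat_lit 5) (nat_lit 5),
 .step (nat_lit 65) [nat_lit 22560, nat_lit 1530880],
 .step (nat_lit 99) [nat_lit 34850, nat_lit 1659904],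
 .step (nat_lit 66) [nat_lit 1267744, nat_lit 1665026],
 .sym (nat_lit 2838) true false false (nat_lit 6) (nat_lit 5),
 .step (nat_lit 33) [nat_lit 28672, nat_lit 1370112],
 .sym (nat_lit 2840) false true false (nat_lit 2) (nat_lit 5),
 .step (nat_lit 65) [nat_lit 662528, nat_lit 142400, nat_lit 1602560],
 .step (nat_lit 65) [nat_lit 11264, nat_lit 1269792],
 .sym (nat_lit 2843) false true true (nat_lit 2) (nat_lit 6),
 .sym (nat_lit 2843) false true false (nat_lit 2) (nat_lit 6),
 .sym (nat_lit 2843) true false false (nat_lit 2) (nat_lit 6),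
 .sym (nat_lit 2843) false false true (nat_lit 2) (nat_lit 6),
 .sym (nat_lit 2843) true true false (nat_lit 2) (nat_lit 6),
 .step (nat_lit 131) [nat_lit 1408002, nat_lit 535680, nat_lit 1634337],
 .step (nat_lit 38) [nat_lit 39938, nat_lit 1669120],
 .sym (nat_lit 2850) true false true (nat_lit 6) (nat_lit 4),
 .step (nat_lit 131) [nat_lit 1355778, nat_lit 1582112],
 .sym (nat_lit 2852) true true true (nat_lit 6) (nat_lit 6),
 .sym (nat_lit 2852) true false true (nat_lit 6) (nat_lit 6),
 .step (nat_lit 35) [nat_lit 8194, nat_lit 1672192],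
 .step (nat_lit 34) [nat_lit 1930241, nat_lit 831490, nat_lit 1674240],
 .step (nat_lit 66) [nat_lit 21536, nat_lit 1641472],
 .sym (nat_lit 2857) true true false (nat_lit 5) (nat_lit 5),
 .step (nat_lit 100) [nat_lit 5123, nat_lit 1678336],
 .step (nat_lit 100) [nat_lit 23555, nat_lit 1469504],
 .step (nat_lit 98) [nat_lit 21568, nat_lit 1472512],
 .step (nat_lit 68) [nat_lit 16416, nat_lit 1688577],
 .sym (nat_lit 2862) false true false (nat_lit 6) (nat_lit 2),
 .step (nat_lit 128) [nat_lit 15360, nat_lit 1690656],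
 .sym (nat_lit 2864) true false false (nat_lit 2) (nat_lit 6),
 .sym (nat_lit 2864) false false true (nat_lit 2) (nat_lit 6),
 .sym (nat_lit 2864) true true true (nat_lit 2) (nat_lit 6),
 .step (nat_lit 98) [nat_lit 29760, nat_lit 1585153],
 .step (nat_lit 97) [nat_lit 9312, nat_lit 1700864],
 .step (nat_lit 68) [nat_lit 1268769, nat_lit 671744],
 .step (nat_lit 65) [nat_lit 7201, nat_lit 1712128],
 .step (nat_lit 68) [nat_lit 6177, nat_lit 1713152],
 .sym (nat_lit 2872) false false true (nat_lit 5) (nat_lit 4),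
 .step (nat_lit 36) [nat_lit 28675, nat_lit 1714176],
 .step (nat_lit 98) [nat_lit 488450, nat_lit 1715296],
 .sym (nat_lit 2875) false false true (nat_lit 6) (nat_lit 6),
 .step (nat_lit 129) [nat_lit 48257, nat_lit 1724416],
 .step (nat_lit 97) [nat_lit 7233, nat_lit 1605632],
 .step (nat_lit 132) [nat_lit 21632, nat_lit 1725441],
 .step (nat_lit 132) [nat_lit 26753, nat_lit 1726464],
 .step (nat_lit 67) [nat_lit 48192, nat_lit 1484800],
 .step (nat_lit 67) [nat_lit 8256, nat_lit 1372160],
 .step (nat_lit 66) [nat_lit 53314, nat_lit 1398784],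
 .step (nat_lit 3) [nat_lit 53251, nat_lit 1734656],
 .step (nat_lit 132) [nat_lit 5155, nat_lit 1735680],
 .sym (nat_lit 2885) true false false (nat_lit 6) (nat_lit 5),
 .sym (nat_lit 2885) true false true (nat_lit 6) (nat_lit 5),
 .step (nat_lit 131) [nat_lit 5155, nat_lit 1737728],
 .step (nat_lit 129) [nat_lit 10241, nat_lit 1629248],
 .sym (nat_lit 2889) true true false (nat_lit 2) (nat_lit 7),
 .step (nat_lit 33) [nat_lit 14337, nat_lit 1269792],
 .step (nat_lit 35) [nat_lit 11267, nat_lit 1267712],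
 .step (nat_lit 35) [nat_lit 10243, nat_lit 1756192],
 .step (nat_lit 32) [nat_lit 11264, nat_lit 1763328],
 .sym (nat_lit 2894) false true true (nat_lit 5) (nat_lit 4),
 .sym (nat_lit 2894) true false true (nat_lit 5) (nat_lit 4),
 .sym (nat_lit 2894) false true false (nat_lit 5) (nat_lit 4),
 .sym (nat_lit 2894) true false false (nat_lit 5) (nat_lit 4),
 .step (nat_lit 97) [nat_lit 472096, nat_lit 461857, nat_lit 1371136],
 .step (nat_lit 164) [nat_lit 5188, nat_lit 1764352],
 .step (nat_lit 130) [nat_lit 12322, nat_lit 1766400],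
 .step (nat_lit 131) [nat_lit 7296, nat_lit 1771522],
 .sym (nat_lit 2902) true true false (nat_lit 4) (nat_lit 6),
 .sym (nat_lit 2902) false true false (nat_lit 4) (nat_lit 6),
 .sym (nat_lit 2902) true false true (nat_lit 4) (nat_lit 6),
 .step (nat_lit 32) [nat_lit 17440, nat_lit 1772544],
 .step (nat_lit 161) [nat_lit 775232, nat_lit 1773568],
 .step (nat_lit 162) [nat_lit 12354, nat_lit 1775616],
 .step (nat_lit 131) [nat_lit 7296, nat_lit 1408002],
 .step (nat_lit 132) [nat_lit 1365088, nat_lit 888833],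
 .step (nat_lit 67) [nat_lit 11266, nat_lit 1582112],
 .step (nat_lit 196) [nat_lit 1758400, nat_lit 1782786],
 .step (nat_lit 131) [nat_lit 10243, nat_lit 1487904],
 .sym (nat_lit 2913) true true true (nat_lit 5) (nat_lit 5),
 .step (nat_lit 99) [nat_lit 127010, nat_lit 765954, nat_lit 1776672],
 .step (nat_lit 97) [nat_lit 5217, nat_lit 1794048],
 .step (nat_lit 36) [nat_lit 10243, nat_lit 2062336],
 .step (nat_lit 34) [nat_lit 1359872, nat_lit 322561],
 .step (nat_lit 66) [nat_lit 20546, nat_lit 1697792],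
 .sym (nat_lit 2919) true false false (nat_lit 6) (nat_lit 4),
 .sym (nat_lit 2919) true false true (nat_lit 6) (nat_lit 4),
 .sym (nat_lit 2919) false false true (nat_lit 6) (nat_lit 4),
 .step (nat_lit 98) [nat_lit 1354848, nat_lit 1359936, nat_lit 1807361],
 .sym (nat_lit 2923) false true false (nat_lit 6) (nat_lit 4),
 .step (nat_lit 133) [nat_lit 15365, nat_lit 1588288],
 .step (nat_lit 67) [nat_lit 6176, nat_lit 1762306],
 .sym (nat_lit 2926) true false false (nat_lit 4) (nat_lit 5),
 .sym (nat_lit 2926) true true true (nat_lit 4) (nat_lit 5),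
 .sym (nat_lit 2926) false true true (nat_lit 4) (nat_lit 5),
 .step (nat_lit 37) [nat_lit 20481, nat_lit 1354784],
 .step (nat_lit 65) [nat_lit 1370144, nat_lit 782336, nat_lit 739328],
 .sym (nat_lit 2931) false true false (nat_lit 2) (nat_lit 6),
 .step (nat_lit 65) [nat_lit 11296, nat_lit 1813504],
 .step (nat_lit 1) [nat_lit 20481, nat_lit 1814528],
 .step (nat_lit 65) [nat_lit 13345, nat_lit 1815552],
 .step (nat_lit 65) [nat_lit 8224, nat_lit 1724416],
 .step (nat_lit 33) [nat_lit 20480, nat_lit 1363968],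
 .step (nat_lit 192) [nat_lit 12384, nat_lit 1821696],
 .sym (nat_lit 2938) true true true (nat_lit 2) (nat_lit 7),
 .step (nat_lit 130) [nat_lit 18433, nat_lit 1630240],
 .sym (nat_lit 2940) true false false (nat_lit 2) (nat_lit 6),
 .sym (nat_lit 2940) false true false (nat_lit 2) (nat_lit 6),
 .sym (nat_lit 2940) false false true (nat_lit 2) (nat_lit 6),
 .step (nat_lit 100) [nat_lit 11267, nat_lit 1672224],
 .step (nat_lit 129) [nat_lit 21600, nat_lit 1779712],
 .step (nat_lit 97) [nat_lit 10241, nat_lit 1269792],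
 .sym (nat_lit 2946) false true true (nat_lit 2) (nat_lit 6),
 .sym (nat_lit 2946) true true true (nat_lit 2) (nat_lit 6),
 .sym (nat_lit 2946) true false true (nat_lit 2) (nat_lit 6),
 .sym (nat_lit 2946) false false true (nat_lit 2) (nat_lit 6),
 .step (nat_lit 98) [nat_lit 1360960, nat_lit 929793],
 .step (nat_lit 97) [nat_lit 1268801, nat_lit 929792],
 .step (nat_lit 98) [nat_lit 1354848, nat_lit 929793],
 .sym (nat_lit 2953) false false true (nat_lit 6) (nat_lit 4),
 .step (nat_lit 96) [nat_lit 12288, nat_lit 1592320],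
 .step (nat_lit 33) [nat_lit 14337, nat_lit 1355776],
 .sym (nat_lit 2956) true false true (nat_lit 2) (nat_lit 6),
 .sym (nat_lit 2956) false false true (nat_lit 2) (nat_lit 6),
 .step (nat_lit 131) [nat_lit 10243, nat_lit 1394720],
 .step (nat_lit 33) [nat_lit 1352704, nat_lit 63520],
 .step (nat_lit 129) [nat_lit 12321, nat_lit 1829888],
 .step (nat_lit 97) [nat_lit 63584, nat_lit 1545216],
 .sym (nat_lit 2962) false true false (nat_lit 5) (nat_lit 5),
 .step (nat_lit 33) [nat_lit 9216, nat_lit 1761280],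
 .step (nat_lit 65) [nat_lit 1655808, nat_lit 905248, nat_lit 907296],
 .step (nat_lit 98) [nat_lit 1267776, nat_lit 875522],
 .sym (nat_lit 2966) true true false (nat_lit 6) (nat_lit 4),
 .step (nat_lit 68) [nat_lit 1268769, nat_lit 1695744],
 .step (nat_lit 99) [nat_lit 12291, nat_lit 1838080],
 .step (nat_lit 68) [nat_lit 6177, nat_lit 1841152],
 .sym (nat_lit 2970) false true false (nat_lit 5) (nat_lit 5),
 .step (nat_lit 129) [nat_lit 8288, nat_lit 1842177],
 .step (nat_lit 131) [nat_lit 24674, nat_lit 1843200],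
 .step (nat_lit 34) [nat_lit 49154, nat_lit 1760256],
 .step (nat_lit 99) [nat_lit 8288, nat_lit 1608705],
 .sym (nat_lit 2975) true false false (nat_lit 5) (nat_lit 6),
 .sym (nat_lit 2975) false false true (nat_lit 5) (nat_lit 6),
 .step (nat_lit 131) [nat_lit 64514, nat_lit 1557536],
 .step (nat_lit 165) [nat_lit 5188, nat_lit 1849344],
 .step (nat_lit 129) [nat_lit 1376321, nat_lit 940064, nat_lit 1851392],
 .step (nat_lit 97) [nat_lit 66624, nat_lit 1421312],
 .step (nat_lit 161) [nat_lit 1376321, nat_lit 1091584, nat_lit 1830912],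
 .step (nat_lit 97) [nat_lit 25696, nat_lit 1857536],
 .step (nat_lit 99) [nat_lit 7233, nat_lit 1605632],
 .step (nat_lit 164) [nat_lit 1758368, nat_lit 938019, nat_lit 1856512],
 .step (nat_lit 131) [nat_lit 868384, nat_lit 375808, nat_lit 1538080],
 .step (nat_lit 35) [nat_lit 472066, nat_lit 461827, nat_lit 1487872],
 .step (nat_lit 97) [nat_lit 10304, nat_lit 1866752],
 .step (nat_lit 36) [nat_lit 17444, nat_lit 1870848],
 .step (nat_lit 129) [nat_lit 218113, nat_lit 214017, nat_lit 1871904],
 .step (nat_lit 67) [nat_lit 24610, nat_lit 1872896],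
 .step (nat_lit 161) [nat_lit 485377, nat_lit 678913, nat_lit 1871936],
 .step (nat_lit 131) [nat_lit 15363, nat_lit 1873952],
 .step (nat_lit 97) [nat_lit 36961, nat_lit 1700864],
 .step (nat_lit 129) [nat_lit 8288, nat_lit 1875968],
 .step (nat_lit 163) [nat_lit 464962, nat_lit 1373216, nat_lit 1366018],
 .sym (nat_lit 2996) false false true (nat_lit 5) (nat_lit 7),
 .sym (nat_lit 2996) true false false (nat_lit 5) (nat_lit 7),
 .step (nat_lit 34) [nat_lit 11266, nat_lit 1880096]]

theorem c2750 : checkFrom tbl r2750 (nat_lit 3000) (nat_lit 2750) = true := by decide +kernel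

noncomputable def r4750 : List Rule := [
 .step (nat_lit 66) [nat_lit 475169, nat_lit 508929, nat_lit 3127328],
 .step (nat_lit 35) [nat_lit 11267, nat_lit 3730464],
 .step (nat_lit 70) [nat_lit 19522, nat_lit 3731456],
 .step (nat_lit 130) [nat_lit 1555489, nat_lit 3294208, nat_lit 1359968],
 .step (nat_lit 34) [nat_lit 26656, nat_lit 3734528],
 .step (nat_lit 129) [nat_lit 8288, nat_lit 3988480],
 .step (nat_lit 67) [nat_lit 28674, nat_lit 3736608],
 .step (nat_lit 68) [nat_lit 492576, nat_lit 500768, nat_lit 2717728, nat_lit 3353601],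
 .step (nat_lit 163) [nat_lit 626722, nat_lit 230434, nat_lit 3739648],
 .step (nat_lit 100) [nat_lit 5123, nat_lit 3084288],
 .step (nat_lit 98) [nat_lit 2197504, nat_lit 2797602],
 .step (nat_lit 129) [nat_lit 1651712, nat_lit 1701888, nat_lit 3741728],
 .step (nat_lit 97) [nat_lit 154688, nat_lit 2403328, nat_lit 3742720],
 .step (nat_lit 101) [nat_lit 24643, nat_lit 3743744],
 .step (nat_lit 100) [nat_lit 6209, nat_lit 3806208],
 .step (nat_lit 99) [nat_lit 22531, nat_lit 3746816],
 .step (nat_lit 97) [nat_lit 25696, nat_lit 3740672],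
 .step (nat_lit 102) [nat_lit 1268803, nat_lit 3402752],
 .step (nat_lit 67) [nat_lit 472066, nat_lit 461827, nat_lit 2780160],
 .step (nat_lit 129) [nat_lit 9344, nat_lit 2549761],
 .sym (nat_lit 4769) true false false (nat_lit 4) (nat_lit 7),
 .sym (nat_lit 4769) true false true (nat_lit 4) (nat_lit 7),
 .sym (nat_lit 4769) false false true (nat_lit 4) (nat_lit 7),
 .step (nat_lit 131) [nat_lit 1098786, nat_lit 2444322, nat_lit 3750912],
 .step (nat_lit 164) [nat_lit 1408004, nat_lit 3018880],
 .step (nat_lit 132) [nat_lit 53251, nat_lit 3362848],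
 .step (nat_lit 33) [nat_lit 25632, nat_lit 3749888],
 .step (nat_lit 161) [nat_lit 8320, nat_lit 3757057],
 .step (nat_lit 99) [nat_lit 8258, nat_lit 3014656],
 .step (nat_lit 97) [nat_lit 2623488, nat_lit 138336, nat_lit 2614272, nat_lit 2649088],
 .step (nat_lit 130) [nat_lit 12322, nat_lit 3761152],
 .step (nat_lit 97) [nat_lit 138336, nat_lit 1970176, nat_lit 3763264],
 .step (nat_lit 129) [nat_lit 21600, nat_lit 3764224],
 .step (nat_lit 36) [nat_lit 10243, nat_lit 3419136],
 .step (nat_lit 97) [nat_lit 17472, nat_lit 3008512],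
 .step (nat_lit 65) [nat_lit 8224, nat_lit 3766273],
 .step (nat_lit 67) [nat_lit 5187, nat_lit 3768320],
 .step (nat_lit 132) [nat_lit 33796, nat_lit 3770368],
 .step (nat_lit 131) [nat_lit 588803, nat_lit 2821121, nat_lit 3771392, nat_lit 2246689],
 .step (nat_lit 65) [nat_lit 11264, nat_lit 3772448],
 .step (nat_lit 35) [nat_lit 21506, nat_lit 2936832],
 .step (nat_lit 65) [nat_lit 9280, nat_lit 3774465],
 .step (nat_lit 98) [nat_lit 7234, nat_lit 3278848],
 .step (nat_lit 35) [nat_lit 23555, nat_lit 3775488],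
 .step (nat_lit 36) [nat_lit 10243, nat_lit 3777536],
 .step (nat_lit 163) [nat_lit 2814976, nat_lit 3924000, nat_lit 3778624],
 .step (nat_lit 135) [nat_lit 5158, nat_lit 3779584],
 .step (nat_lit 99) [nat_lit 570464, nat_lit 3012610],
 .step (nat_lit 5) [nat_lit 31747, nat_lit 3780608],
 .step (nat_lit 65) [nat_lit 2724896, nat_lit 1433632, nat_lit 1299456],
 .step (nat_lit 100) [nat_lit 494596, nat_lit 2660416],
 .step (nat_lit 130) [nat_lit 5153, nat_lit 3442688],
 .step (nat_lit 3) [nat_lit 37888, nat_lit 3646464],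
 .step (nat_lit 101) [nat_lit 79937, nat_lit 2747392],
 .sym (nat_lit 4803) false true false (nat_lit 6) (nat_lit 6),
 .sym (nat_lit 4803) false false true (nat_lit 6) (nat_lit 6),
 .sym (nat_lit 4803) true false false (nat_lit 6) (nat_lit 6),
 .step (nat_lit 99) [nat_lit 24640, nat_lit 3784704],
 .sym (nat_lit 4807) false true true (nat_lit 4) (nat_lit 5),
 .step (nat_lit 32) [nat_lit 11264, nat_lit 3785760],
 .step (nat_lit 99) [nat_lit 7233, nat_lit 3786752],
 .step (nat_lit 129) [nat_lit 2615296, nat_lit 115776, nat_lit 1575968],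
 .sym (nat_lit 4811) false true false (nat_lit 4) (nat_lit 7),
 .step (nat_lit 66) [nat_lit 2659360, nat_lit 3219456],
 .step (nat_lit 130) [nat_lit 585824, nat_lit 258145, nat_lit 3791874],
 .sym (nat_lit 4814) false true false (nat_lit 7) (nat_lit 6),
 .step (nat_lit 35) [nat_lit 37920, nat_lit 2634752],
 .step (nat_lit 67) [nat_lit 39970, nat_lit 3793920],
 .step (nat_lit 165) [nat_lit 1997825, nat_lit 3333248, nat_lit 3334176],
 .step (nat_lit 101) [nat_lit 2643008, nat_lit 2641985, nat_lit 2921472, nat_lit 2922498],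
 .step (nat_lit 131) [nat_lit 139266, nat_lit 1787904, nat_lit 3057728],
 .step (nat_lit 101) [nat_lit 2610241, nat_lit 2808832, nat_lit 2874370, nat_lit 1781760, nat_lit 2879554],
 .step (nat_lit 101) [nat_lit 1496130, nat_lit 1520640, nat_lit 3894275],
 .sym (nat_lit 4822) true true false (nat_lit 8) (nat_lit 8),
 .step (nat_lit 163) [nat_lit 1494016, nat_lit 1833984, nat_lit 3795969, nat_lit 3654721],
 .step (nat_lit 132) [nat_lit 19584, nat_lit 3798017],
 .step (nat_lit 69) [nat_lit 486404, nat_lit 2661376],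
 .step (nat_lit 1) [nat_lit 20481, nat_lit 3801088],
 .step (nat_lit 99) [nat_lit 2646050, nat_lit 2649090, nat_lit 3338304, nat_lit 3337216],
 .step (nat_lit 34) [nat_lit 8224, nat_lit 3802112],
 .step (nat_lit 69) [nat_lit 11268, nat_lit 3457056],
 .step (nat_lit 37) [nat_lit 143363, nat_lit 1425410, nat_lit 1427456, nat_lit 3652608],
 .step (nat_lit 1) [nat_lit 20481, nat_lit 3804160],
 .step (nat_lit 1) [nat_lit 20481, nat_lit 3808256],
 .step (nat_lit 68) [nat_lit 158752, nat_lit 1211392, nat_lit 3809280],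
 .step (nat_lit 34) [nat_lit 25632, nat_lit 3343360],
 .step (nat_lit 129) [nat_lit 17408, nat_lit 3438592],
 .step (nat_lit 132) [nat_lit 6241, nat_lit 3813376],
 .step (nat_lit 132) [nat_lit 3017824, nat_lit 3111939, nat_lit 1914977],
 .step (nat_lit 129) [nat_lit 1357825, nat_lit 1269792, nat_lit 1361920, nat_lit 2893856],
 .step (nat_lit 97) [nat_lit 2625536, nat_lit 2613248, nat_lit 1433632, nat_lit 1635360, nat_lit 3181632],
 .step (nat_lit 97) [nat_lit 663553, nat_lit 523265, nat_lit 2180160, nat_lit 3282976],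
 .step (nat_lit 130) [nat_lit 17409, nat_lit 3348512],
 .step (nat_lit 130) [nat_lit 12322, nat_lit 3818496],
 .step (nat_lit 161) [nat_lit 485377, nat_lit 493569, nat_lit 2835456, nat_lit 2059296],
 .step (nat_lit 35) [nat_lit 30722, nat_lit 3822592],
 .step (nat_lit 68) [nat_lit 96288, nat_lit 2754561],
 .step (nat_lit 68) [nat_lit 491554, nat_lit 2618400, nat_lit 2660384, nat_lit 2798594],
 .sym (nat_lit 4847) false true true (nat_lit 8) (nat_lit 4),
 .sym (nat_lit 4847) false false true (nat_lit 8) (nat_lit 4),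
 .step (nat_lit 163) [nat_lit 2623490, nat_lit 141408, nat_lit 1740832, nat_lit 1741888],
 .step (nat_lit 99) [nat_lit 5122, nat_lit 3823648],
 .step (nat_lit 97) [nat_lit 2677857, nat_lit 2482176],
 .step (nat_lit 103) [nat_lit 3825664, nat_lit 1268804, nat_lit 3824640],
 .step (nat_lit 129) [nat_lit 584769, nat_lit 2682880, nat_lit 1689696],
 .step (nat_lit 4) [nat_lit 37889, nat_lit 3748864],
 .step (nat_lit 129) [nat_lit 3423232, nat_lit 922720, nat_lit 2402304, nat_lit 3836928],
 .step (nat_lit 129) [nat_lit 3424256, nat_lit 2402304, nat_lit 2456608, nat_lit 3838016],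
 .step (nat_lit 97) [nat_lit 2242560, nat_lit 2262080, nat_lit 1090561, nat_lit 3841056],
 .step (nat_lit 129) [nat_lit 35936, nat_lit 3845120],
 .step (nat_lit 128) [nat_lit 656416, nat_lit 3847168],
 .step (nat_lit 99) [nat_lit 73731, nat_lit 2756640, nat_lit 2498561],
 .step (nat_lit 69) [nat_lit 2748448, nat_lit 1467394, nat_lit 3617792],
 .step (nat_lit 133) [nat_lit 1959937, nat_lit 2213952, nat_lit 3805186],
 .step (nat_lit 65) [nat_lit 2656320, nat_lit 663553],
 .sym (nat_lit 4864) false true true (nat_lit 6) (nat_lit 6),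
 .sym (nat_lit 4864) true false false (nat_lit 6) (nat_lit 6),
 .sym (nat_lit 4864) false true false (nat_lit 6) (nat_lit 6),
 .sym (nat_lit 4864) true true false (nat_lit 6) (nat_lit 6),
 .step (nat_lit 98) [nat_lit 1351777, nat_lit 1267776, nat_lit 3848192],
 .step (nat_lit 130) [nat_lit 1267808, nat_lit 1360992, nat_lit 3851265],
 .step (nat_lit 100) [nat_lit 2794560, nat_lit 2795584, nat_lit 3037184, nat_lit 2638912, nat_lit 2640960, nat_lit 3737602],
 .step (nat_lit 68) [nat_lit 7233, nat_lit 3852288],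
 .step (nat_lit 100) [nat_lit 126978, nat_lit 3116096, nat_lit 2241536, nat_lit 1112064],
 .step (nat_lit 33) [nat_lit 26656, nat_lit 2909185],
 .step (nat_lit 130) [nat_lit 25728, nat_lit 3854337],
 .step (nat_lit 98) [nat_lit 126978, nat_lit 3116096, nat_lit 2241536, nat_lit 1112064],
 .step (nat_lit 131) [nat_lit 488450, nat_lit 495618, nat_lit 2701346, nat_lit 2896896],
 .step (nat_lit 162) [nat_lit 2035713, nat_lit 1942688, nat_lit 1777760],
 .step (nat_lit 67) [nat_lit 26658, nat_lit 3857408],
 .step (nat_lit 100) [nat_lit 1599489, nat_lit 3203072, nat_lit 2725889],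
 .step (nat_lit 163) [nat_lit 2646050, nat_lit 2648066, nat_lit 2647074, nat_lit 2649090, nat_lit 2719808, nat_lit 2722816],
 .step (nat_lit 35) [nat_lit 37920, nat_lit 2600960],
 .step (nat_lit 101) [nat_lit 5124, nat_lit 3501056],
 .step (nat_lit 131) [nat_lit 491617, nat_lit 1631296, nat_lit 2506753, nat_lit 3860481],
 .step (nat_lit 66) [nat_lit 1767425, nat_lit 1323009, nat_lit 3861536],
 .step (nat_lit 131) [nat_lit 1483809, nat_lit 3593216, nat_lit 3863552],
 .step (nat_lit 97) [nat_lit 297984, nat_lit 1681408, nat_lit 2700384],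
 .step (nat_lit 131) [nat_lit 5154, nat_lit 3865600],
 .step (nat_lit 34) [nat_lit 17442, nat_lit 3866624],
 .step (nat_lit 166) [nat_lit 6307, nat_lit 3867648],
 .step (nat_lit 1) [nat_lit 44033, nat_lit 3871744],
 .step (nat_lit 34) [nat_lit 8224, nat_lit 2930689],
 .step (nat_lit 67) [nat_lit 23555, nat_lit 3873856],
 .step (nat_lit 99) [nat_lit 1651714, nat_lit 1681410, nat_lit 3081218, nat_lit 3253248, nat_lit 3829792],
 .step (nat_lit 65) [nat_lit 23553, nat_lit 3874816],
 .step (nat_lit 99) [nat_lit 495619, nat_lit 2633728],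
 .step (nat_lit 99) [nat_lit 17507, nat_lit 2633728],
 .step (nat_lit 32) [nat_lit 47104, nat_lit 1747968],
 .step (nat_lit 32) [nat_lit 47104, nat_lit 3878912],
 .step (nat_lit 68) [nat_lit 2641952, nat_lit 2863137, nat_lit 2342913, nat_lit 2493441],
 .step (nat_lit 100) [nat_lit 5123, nat_lit 3773472],
 .step (nat_lit 101) [nat_lit 2641985, nat_lit 2622528, nat_lit 1519618, nat_lit 2877474, nat_lit 2906144],
 .sym (nat_lit 4902) true true false (nat_lit 8) (nat_lit 6),
 .step (nat_lit 65) [nat_lit 136256, nat_lit 662528, nat_lit 3080192, nat_lit 2519040],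
 .sym (nat_lit 4904) false true true (nat_lit 2) (nat_lit 6),
 .step (nat_lit 65) [nat_lit 26657, nat_lit 3192832],
 .step (nat_lit 36) [nat_lit 19457, nat_lit 3884032],
 .step (nat_lit 132) [nat_lit 12323, nat_lit 2961408],
 .step (nat_lit 132) [nat_lit 5156, nat_lit 2961408],
 .step (nat_lit 98) [nat_lit 12290, nat_lit 3887104],
 .step (nat_lit 97) [nat_lit 301088, nat_lit 3888128],
 .step (nat_lit 101) [nat_lit 2618432, nat_lit 2610241, nat_lit 2805824, nat_lit 1934402, nat_lit 3762178],
 .step (nat_lit 101) [nat_lit 1496130, nat_lit 2814016, nat_lit 1519618, nat_lit 2878467],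
 .step (nat_lit 100) [nat_lit 7233, nat_lit 2787328],
 .step (nat_lit 67) [nat_lit 97283, nat_lit 3270720],
 .step (nat_lit 67) [nat_lit 73762, nat_lit 2908162, nat_lit 3890176],
 .step (nat_lit 100) [nat_lit 2649091, nat_lit 2623491, nat_lit 2614275, nat_lit 3839040],
 .step (nat_lit 130) [nat_lit 494657, nat_lit 2713601, nat_lit 3653696],
 .step (nat_lit 66) [nat_lit 126977, nat_lit 2741248],
 .step (nat_lit 67) [nat_lit 25632, nat_lit 3896322],
 .step (nat_lit 36) [nat_lit 2610176, nat_lit 143362, nat_lit 2401280],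
 .step (nat_lit 131) [nat_lit 499810, nat_lit 3862529, nat_lit 3900416],
 .step (nat_lit 132) [nat_lit 23587, nat_lit 3902464],
 .step (nat_lit 97) [nat_lit 1701888, nat_lit 2265088, nat_lit 3101728],
 .step (nat_lit 1) [nat_lit 9216, nat_lit 3437568],
 .step (nat_lit 68) [nat_lit 2595840, nat_lit 173089],
 .step (nat_lit 35) [nat_lit 2600960, nat_lit 321536],
 .step (nat_lit 98) [nat_lit 1378370, nat_lit 2696258, nat_lit 3910656, nat_lit 3909632],
 .step (nat_lit 165) [nat_lit 2656386, nat_lit 2773122, nat_lit 3911680],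
 .step (nat_lit 130) [nat_lit 1404961, nat_lit 1517568, nat_lit 2653216, nat_lit 3234816],
 .step (nat_lit 99) [nat_lit 491585, nat_lit 1631264, nat_lit 3535905, nat_lit 3830784],
 .step (nat_lit 131) [nat_lit 491617, nat_lit 3247136, nat_lit 3913729],
 .step (nat_lit 130) [nat_lit 12322, nat_lit 3916800],
 .step (nat_lit 227) [nat_lit 5251, nat_lit 3917824],
 .step (nat_lit 100) [nat_lit 656388, nat_lit 3875842, nat_lit 3918912],
 .step (nat_lit 130) [nat_lit 12322, nat_lit 3919872],
 .step (nat_lit 33) [nat_lit 49153, nat_lit 3920896],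
 .step (nat_lit 99) [nat_lit 2776128, nat_lit 2775104, nat_lit 3227648, nat_lit 3921921, nat_lit 3481601, nat_lit 3480576],
 .step (nat_lit 35) [nat_lit 128003, nat_lit 1563648, nat_lit 3028993, nat_lit 1183745],
 .step (nat_lit 161) [nat_lit 2625568, nat_lit 115808, nat_lit 1847360, nat_lit 1848320],
 .step (nat_lit 134) [nat_lit 6243, nat_lit 3926016],
 .step (nat_lit 133) [nat_lit 2989088, nat_lit 2156546],
 .step (nat_lit 165) [nat_lit 1997825, nat_lit 3415072, nat_lit 3927104],
 .step (nat_lit 97) [nat_lit 1090561, nat_lit 2242560, nat_lit 3315776],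
 .step (nat_lit 2) [nat_lit 31744, nat_lit 3928064],
 .step (nat_lit 67) [nat_lit 50178, nat_lit 3929152],
 .step (nat_lit 97) [nat_lit 2625568, nat_lit 2724928, nat_lit 1090561, nat_lit 2242560],
 .step (nat_lit 35) [nat_lit 2780192, nat_lit 2230272],
 .step (nat_lit 130) [nat_lit 23553, nat_lit 3932192],
 .step (nat_lit 99) [nat_lit 491586, nat_lit 2798626, nat_lit 1518592, nat_lit 3289089],
 .step (nat_lit 99) [nat_lit 1269762, nat_lit 475138, nat_lit 464898, nat_lit 3078144],
 .sym (nat_lit 4951) false false true (nat_lit 5) (nat_lit 5),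
 .step (nat_lit 4) [nat_lit 31746, nat_lit 3934208],
 .step (nat_lit 128) [nat_lit 42080, nat_lit 3935232],
 .step (nat_lit 70) [nat_lit 50181, nat_lit 3936320],
 .step (nat_lit 70) [nat_lit 50181, nat_lit 2954304],
 .step (nat_lit 98) [nat_lit 9280, nat_lit 3937280],
 .step (nat_lit 6) [nat_lit 37891, nat_lit 3938304],
 .step (nat_lit 129) [nat_lit 12321, nat_lit 3939328],
 .step (nat_lit 162) [nat_lit 494658, nat_lit 1858624, nat_lit 3940352],
 .step (nat_lit 131) [nat_lit 3941408, nat_lit 2473057, nat_lit 3942401],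
 .step (nat_lit 99) [nat_lit 21600, nat_lit 3429376],
 .step (nat_lit 5) [nat_lit 37890, nat_lit 3943424],
 .step (nat_lit 131) [nat_lit 477280, nat_lit 3941408, nat_lit 2490401, nat_lit 3945473],
 .step (nat_lit 67) [nat_lit 30723, nat_lit 3946560],
 .step (nat_lit 129) [nat_lit 20609, nat_lit 3947520],
 .step (nat_lit 99) [nat_lit 12291, nat_lit 3948544],
 .step (nat_lit 35) [nat_lit 17410, nat_lit 3949600],
 .step (nat_lit 98) [nat_lit 585792, nat_lit 3950594, nat_lit 3765281],
 .step (nat_lit 32) [nat_lit 11264, nat_lit 3951616],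
 .step (nat_lit 65) [nat_lit 12288, nat_lit 3953664],
 .step (nat_lit 131) [nat_lit 487520, nat_lit 3955713],
 .step (nat_lit 98) [nat_lit 1354848, nat_lit 1359936, nat_lit 3956737],
 .step (nat_lit 129) [nat_lit 49249, nat_lit 3006464],
 .step (nat_lit 100) [nat_lit 238595, nat_lit 3958784],
 .step (nat_lit 35) [nat_lit 2642944, nat_lit 2802690, nat_lit 2805760, nat_lit 1496066],
 .sym (nat_lit 4976) false true false (nat_lit 8) (nat_lit 6),
 .sym (nat_lit 4976) true false false (nat_lit 8) (nat_lit 6),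
 .step (nat_lit 68) [nat_lit 6177, nat_lit 3959808],
 .step (nat_lit 66) [nat_lit 39969, nat_lit 3960832],
 .step (nat_lit 66) [nat_lit 11265, nat_lit 3963936],
 .step (nat_lit 99) [nat_lit 499778, nat_lit 963651, nat_lit 3525632],
 .step (nat_lit 129) [nat_lit 17408, nat_lit 3965952],
 .step (nat_lit 67) [nat_lit 39970, nat_lit 3970048],
 .step (nat_lit 68) [nat_lit 1368096, nat_lit 3503105],
 .step (nat_lit 65) [nat_lit 9280, nat_lit 3971073],
 .step (nat_lit 100) [nat_lit 657411, nat_lit 1508353, nat_lit 3491904],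
 .step (nat_lit 101) [nat_lit 657412, nat_lit 3972096],
 .step (nat_lit 100) [nat_lit 3037184, nat_lit 2993152, nat_lit 3973122, nat_lit 3309568],
 .step (nat_lit 132) [nat_lit 489602, nat_lit 497794, nat_lit 2312192],
 .step (nat_lit 165) [nat_lit 492672, nat_lit 500864, nat_lit 3611649],
 .sym (nat_lit 4991) false true false (nat_lit 6) (nat_lit 6),
 .step (nat_lit 98) [nat_lit 1353792, nat_lit 1267776, nat_lit 1360960, nat_lit 3975169],
 .step (nat_lit 100) [nat_lit 2643008, nat_lit 2644033, nat_lit 2645056, nat_lit 3037184, nat_lit 3924994],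
 .step (nat_lit 132) [nat_lit 3037216, nat_lit 3827712, nat_lit 2559009],
 .step (nat_lit 130) [nat_lit 40033, nat_lit 3976192],
 .step (nat_lit 160) [nat_lit 15392, nat_lit 3977216],
 .step (nat_lit 193) [nat_lit 13473, nat_lit 3978240],
 .step (nat_lit 162) [nat_lit 16546, nat_lit 3979264]]

theorem c4750 : checkFrom tbl r4750 (nat_lit 5000) (nat_lit 4750) = true := by decide +kernel

noncomputable def r6750 : List Rule := [
 .step (nat_lit 132) [nat_lit 5994528, nat_lit 717827, nat_lit 664580],
 .step (nat_lit 71) [nat_lit 13379, nat_lit 6393856],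
 .step (nat_lit 34) [nat_lit 11266, nat_lit 6394880],
 .step (nat_lit 133) [nat_lit 248962, nat_lit 6322176, nat_lit 5744640],
 .step (nat_lit 98) [nat_lit 11330, nat_lit 6395904],
 .step (nat_lit 68) [nat_lit 20512, nat_lit 6228993],
 .step (nat_lit 101) [nat_lit 1268802, nat_lit 1440801, nat_lit 4493313, nat_lit 6579200, nat_lit 6401025],
 .step (nat_lit 129) [nat_lit 8288, nat_lit 6402048],
 .step (nat_lit 132) [nat_lit 2610273, nat_lit 2588769, nat_lit 6086722, nat_lit 4986880],
 .step (nat_lit 132) [nat_lit 4087841, nat_lit 4098113, nat_lit 4082721, nat_lit 2712579, nat_lit 6406176],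
 .step (nat_lit 195) [nat_lit 1357891, nat_lit 1356835, nat_lit 4355072, nat_lit 6164544],
 .step (nat_lit 132) [nat_lit 801856, nat_lit 4461601, nat_lit 6407168],
 .step (nat_lit 130) [nat_lit 1651713, nat_lit 1701889, nat_lit 2439169, nat_lit 6409280],
 .step (nat_lit 198) [nat_lit 6261856, nat_lit 4352004, nat_lit 6136930, nat_lit 5765217],
 .step (nat_lit 99) [nat_lit 1603586, nat_lit 2120704, nat_lit 6118402, nat_lit 2358273],
 .step (nat_lit 129) [nat_lit 1355776, nat_lit 1269792, nat_lit 1362944, nat_lit 6411264],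
 .step (nat_lit 68) [nat_lit 925732, nat_lit 3759137, nat_lit 6413312],
 .step (nat_lit 69) [nat_lit 11300, nat_lit 6419456],
 .step (nat_lit 102) [nat_lit 4530179, nat_lit 2205792, nat_lit 6452226, nat_lit 5785600, nat_lit 4540416, nat_lit 6225920],
 .step (nat_lit 166) [nat_lit 2646053, nat_lit 2623493, nat_lit 6051845, nat_lit 3392576, nat_lit 6422592],
 .step (nat_lit 132) [nat_lit 39040, nat_lit 6425600],
 .step (nat_lit 163) [nat_lit 2722816, nat_lit 1567808, nat_lit 1432640, nat_lit 3907616, nat_lit 3389440, nat_lit 6280288],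
 .step (nat_lit 161) [nat_lit 1358848, nat_lit 3670048, nat_lit 6427712, nat_lit 6428704],
 .step (nat_lit 66) [nat_lit 587778, nat_lit 2680898, nat_lit 2735137, nat_lit 6429696],
 .sym (nat_lit 6773) true false true (nat_lit 7) (nat_lit 8),
 .step (nat_lit 131) [nat_lit 490563, nat_lit 2657282, nat_lit 6025216, nat_lit 3788866],
 .step (nat_lit 194) [nat_lit 2667520, nat_lit 6430720],
 .step (nat_lit 33) [nat_lit 39936, nat_lit 6081536],
 .step (nat_lit 131) [nat_lit 38016, nat_lit 6431746],
 .step (nat_lit 99) [nat_lit 7233, nat_lit 3781632],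
 .step (nat_lit 99) [nat_lit 2616384, nat_lit 2610241, nat_lit 2588737, nat_lit 4980738, nat_lit 4982784],
 .sym (nat_lit 6780) true false false (nat_lit 8) (nat_lit 6),
 .step (nat_lit 131) [nat_lit 2646018, nat_lit 2712578, nat_lit 2701314, nat_lit 5995552, nat_lit 5437472],
 .sym (nat_lit 6782) false false true (nat_lit 8) (nat_lit 7),
 .step (nat_lit 68) [nat_lit 11267, nat_lit 6444032],
 .step (nat_lit 68) [nat_lit 11267, nat_lit 6443008],
 .step (nat_lit 133) [nat_lit 6448160, nat_lit 5809153, nat_lit 927780, nat_lit 6449184],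
 .step (nat_lit 101) [nat_lit 380931, nat_lit 6450176],
 .step (nat_lit 101) [nat_lit 2618432, nat_lit 2721792, nat_lit 3892226, nat_lit 6451202],
 .step (nat_lit 99) [nat_lit 4197378, nat_lit 6453248, nat_lit 5289024, nat_lit 6063105, nat_lit 6454272],
 .step (nat_lit 133) [nat_lit 6261824, nat_lit 3030082, nat_lit 485381],
 .step (nat_lit 131) [nat_lit 164898, nat_lit 1463331, nat_lit 6461440],
 .step (nat_lit 130) [nat_lit 138337, nat_lit 798817, nat_lit 3810305, nat_lit 6213728],
 .step (nat_lit 99) [nat_lit 4964353, nat_lit 3342401, nat_lit 4197378, nat_lit 6453248],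
 .step (nat_lit 132) [nat_lit 3431489, nat_lit 4144161, nat_lit 2944033, nat_lit 2662497, nat_lit 6469632, nat_lit 6262816],
 .step (nat_lit 101) [nat_lit 5991426, nat_lit 436288],
 .step (nat_lit 99) [nat_lit 2082816, nat_lit 4285472, nat_lit 4109312, nat_lit 4150272, nat_lit 6098977, nat_lit 6470656],
 .step (nat_lit 133) [nat_lit 4829185, nat_lit 5777408, nat_lit 6617120, nat_lit 5824512, nat_lit 6471681],
 .step (nat_lit 66) [nat_lit 223234, nat_lit 3034112, nat_lit 5363744, nat_lit 4847616],
 .step (nat_lit 67) [nat_lit 491553, nat_lit 2798593, nat_lit 1631232, nat_lit 6474752],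
 .step (nat_lit 98) [nat_lit 1354848, nat_lit 1267776, nat_lit 1359936, nat_lit 6475777],
 .sym (nat_lit 6800) true false false (nat_lit 6) (nat_lit 6),
 .step (nat_lit 131) [nat_lit 24673, nat_lit 4357120],
 .step (nat_lit 133) [nat_lit 1368161, nat_lit 4492289, nat_lit 4550657, nat_lit 6109248],
 .step (nat_lit 132) [nat_lit 6241, nat_lit 6477824],
 .step (nat_lit 35) [nat_lit 5155, nat_lit 6479872],
 .step (nat_lit 132) [nat_lit 496675, nat_lit 4564992, nat_lit 6480928],
 .step (nat_lit 163) [nat_lit 3363841, nat_lit 5486592, nat_lit 5485633, nat_lit 5487616, nat_lit 4516897, nat_lit 6210561, nat_lit 5834784],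
 .step (nat_lit 196) [nat_lit 494692, nat_lit 1562721, nat_lit 2939011, nat_lit 6483968],
 .step (nat_lit 67) [nat_lit 11266, nat_lit 6104096],
 .step (nat_lit 162) [nat_lit 493570, nat_lit 485378, nat_lit 2768961, nat_lit 6490112],
 .step (nat_lit 197) [nat_lit 485413, nat_lit 2768996, nat_lit 493605, nat_lit 6491136],
 .step (nat_lit 131) [nat_lit 488450, nat_lit 2654274, nat_lit 4149312, nat_lit 3357696],
 .step (nat_lit 35) [nat_lit 1901568, nat_lit 1902592, nat_lit 6011905, nat_lit 6012928],
 .step (nat_lit 132) [nat_lit 3914816, nat_lit 2507776, nat_lit 3284992, nat_lit 3286016, nat_lit 6494208],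
 .step (nat_lit 131) [nat_lit 3382336, nat_lit 2509825, nat_lit 3862528, nat_lit 3864608, nat_lit 6542400],
 .step (nat_lit 164) [nat_lit 5187, nat_lit 6496256],
 .step (nat_lit 131) [nat_lit 1582112, nat_lit 3670018, nat_lit 6497280],
 .step (nat_lit 99) [nat_lit 491585, nat_lit 499777, nat_lit 6459392, nat_lit 6498304],
 .step (nat_lit 99) [nat_lit 3243008, nat_lit 6361088, nat_lit 3850241, nat_lit 4209665, nat_lit 3253248, nat_lit 6500384, nat_lit 6499329],
 .step (nat_lit 164) [nat_lit 2647075, nat_lit 5994560, nat_lit 973859, nat_lit 719875],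
 .step (nat_lit 100) [nat_lit 867361, nat_lit 1951777, nat_lit 1366051, nat_lit 6505472],
 .step (nat_lit 130) [nat_lit 2951201, nat_lit 5446721, nat_lit 3482656, nat_lit 3876897, nat_lit 6507521],
 .step (nat_lit 99) [nat_lit 2516995, nat_lit 3899393, nat_lit 2031680, nat_lit 6163522, nat_lit 5408802],
 .step (nat_lit 164) [nat_lit 3259427, nat_lit 2155555, nat_lit 4933634, nat_lit 6202400],
 .step (nat_lit 131) [nat_lit 490563, nat_lit 485379, nat_lit 2659394, nat_lit 6463488],
 .step (nat_lit 100) [nat_lit 2645057, nat_lit 5217344, nat_lit 4941889, nat_lit 6291460],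
 .step (nat_lit 162) [nat_lit 2659393, nat_lit 1376322, nat_lit 1402945, nat_lit 6029312],
 .step (nat_lit 133) [nat_lit 18436, nat_lit 6514720],
 .step (nat_lit 131) [nat_lit 15363, nat_lit 6515744],
 .step (nat_lit 65) [nat_lit 138304, nat_lit 4981760, nat_lit 5873664, nat_lit 6516736],
 .step (nat_lit 131) [nat_lit 490563, nat_lit 2657282, nat_lit 2799681, nat_lit 6220800],
 .step (nat_lit 67) [nat_lit 195585, nat_lit 1219586, nat_lit 6518784],
 .step (nat_lit 134) [nat_lit 586850, nat_lit 2734082, nat_lit 2690112, nat_lit 6519811],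
 .sym (nat_lit 6833) true true false (nat_lit 8) (nat_lit 6),
 .step (nat_lit 70) [nat_lit 137283, nat_lit 579650, nat_lit 2726914, nat_lit 6279168],
 .sym (nat_lit 6835) true false false (nat_lit 7) (nat_lit 5),
 .sym (nat_lit 6835) true true false (nat_lit 7) (nat_lit 5),
 .step (nat_lit 131) [nat_lit 2649090, nat_lit 2713602, nat_lit 2705410, nat_lit 6097920, nat_lit 6031392],
 .sym (nat_lit 6838) true false false (nat_lit 5) (nat_lit 8),
 .sym (nat_lit 6838) false true false (nat_lit 5) (nat_lit 8),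
 .step (nat_lit 33) [nat_lit 11265, nat_lit 6517792],
 .step (nat_lit 194) [nat_lit 493602, nat_lit 4096096, nat_lit 6521857],
 .step (nat_lit 161) [nat_lit 8320, nat_lit 6522880],
 .step (nat_lit 98) [nat_lit 1354848, nat_lit 1360960, nat_lit 1369153, nat_lit 6529025],
 .step (nat_lit 132) [nat_lit 499841, nat_lit 5886977, nat_lit 6534144, nat_lit 6533121],
 .step (nat_lit 130) [nat_lit 5153, nat_lit 6537216],
 .step (nat_lit 133) [nat_lit 2594852, nat_lit 2883650, nat_lit 3346466, nat_lit 5797986, nat_lit 5495808],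
 .step (nat_lit 165) [nat_lit 4034628, nat_lit 4049988, nat_lit 3908642, nat_lit 5046274, nat_lit 6536192],
 .step (nat_lit 195) [nat_lit 1357891, nat_lit 6392832, nat_lit 5896224],
 .step (nat_lit 164) [nat_lit 490563, nat_lit 3490816, nat_lit 6538336],
 .step (nat_lit 132) [nat_lit 3914816, nat_lit 2507776, nat_lit 3284992, nat_lit 3915776, nat_lit 6540288],
 .step (nat_lit 195) [nat_lit 12386, nat_lit 6541312],
 .step (nat_lit 101) [nat_lit 2911236, nat_lit 1681412, nat_lit 6361090, nat_lit 6436898, nat_lit 5053440],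
 .step (nat_lit 68) [nat_lit 11299, nat_lit 6546432],
 .step (nat_lit 99) [nat_lit 4885536, nat_lit 3477506, nat_lit 3476481, nat_lit 6547490, nat_lit 6548480],
 .step (nat_lit 131) [nat_lit 489602, nat_lit 2661472, nat_lit 3898368, nat_lit 6252578],
 .step (nat_lit 166) [nat_lit 1997826, nat_lit 3833985, nat_lit 5060640, nat_lit 6551616],
 .step (nat_lit 165) [nat_lit 1997825, nat_lit 3332224, nat_lit 4549665, nat_lit 6233152],
 .step (nat_lit 165) [nat_lit 485381, nat_lit 493573, nat_lit 6554624],
 .step (nat_lit 130) [nat_lit 1641536, nat_lit 3733504, nat_lit 6555648],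
 .step (nat_lit 196) [nat_lit 485412, nat_lit 493604, nat_lit 6235136],
 .step (nat_lit 133) [nat_lit 494629, nat_lit 3429379, nat_lit 5913602, nat_lit 6556704],
 .step (nat_lit 99) [nat_lit 22531, nat_lit 6559744],
 .step (nat_lit 163) [nat_lit 1824864, nat_lit 5916674, nat_lit 3836930, nat_lit 6560770],
 .step (nat_lit 163) [nat_lit 3423234, nat_lit 3424258, nat_lit 5916674, nat_lit 6563840],
 .step (nat_lit 164) [nat_lit 496707, nat_lit 3425312, nat_lit 5110784, nat_lit 6552576],
 .step (nat_lit 69) [nat_lit 2593824, nat_lit 1380386, nat_lit 1515521, nat_lit 2836481],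
 .step (nat_lit 164) [nat_lit 3433536, nat_lit 532608, nat_lit 1850465, nat_lit 6565888],
 .step (nat_lit 195) [nat_lit 2081888, nat_lit 4566113, nat_lit 5923904, nat_lit 5080064, nat_lit 5924896, nat_lit 6566912],
 .step (nat_lit 68) [nat_lit 30724, nat_lit 6567936],
 .step (nat_lit 5) [nat_lit 37890, nat_lit 6568960],
 .step (nat_lit 97) [nat_lit 490561, nat_lit 2771968, nat_lit 496705, nat_lit 6570048],
 .step (nat_lit 197) [nat_lit 2654308, nat_lit 429156, nat_lit 6418433, nat_lit 6571008],
 .step (nat_lit 195) [nat_lit 4106336, nat_lit 973890, nat_lit 6037600, nat_lit 4898818],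
 .sym (nat_lit 6874) true false false (nat_lit 5) (nat_lit 9),
 .step (nat_lit 134) [nat_lit 1566755, nat_lit 1173509, nat_lit 3758083, nat_lit 6574080],
 .step (nat_lit 133) [nat_lit 134180, nat_lit 3790848],
 .step (nat_lit 100) [nat_lit 1267778, nat_lit 4048961, nat_lit 5157891, nat_lit 6351936, nat_lit 6143040],
 .sym (nat_lit 6878) true true false (nat_lit 7) (nat_lit 7),
 .step (nat_lit 133) [nat_lit 1651748, nat_lit 3962884, nat_lit 5100579, nat_lit 6577216],
 .step (nat_lit 133) [nat_lit 2647044, nat_lit 2639876, nat_lit 4740130, nat_lit 6578208],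
 .step (nat_lit 133) [nat_lit 6403072, nat_lit 3967041, nat_lit 3968033],
 .step (nat_lit 131) [nat_lit 3313666, nat_lit 3259394, nat_lit 6206496, nat_lit 3319842, nat_lit 5109760],
 .step (nat_lit 101) [nat_lit 2658370, nat_lit 2078722, nat_lit 3974144],
 .step (nat_lit 102) [nat_lit 498785, nat_lit 487521, nat_lit 2771011, nat_lit 6582272],
 .step (nat_lit 132) [nat_lit 3313667, nat_lit 5099522, nat_lit 6583297, nat_lit 6488097, nat_lit 6489120],
 .step (nat_lit 196) [nat_lit 3827776, nat_lit 6584321, nat_lit 3969090],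
 .step (nat_lit 97) [nat_lit 11264, nat_lit 6585376],
 .step (nat_lit 100) [nat_lit 1351776, nat_lit 1268801, nat_lit 1364032, nat_lit 6586368],
 .step (nat_lit 131) [nat_lit 241699, nat_lit 4712480, nat_lit 5180448, nat_lit 6587392],
 .step (nat_lit 166) [nat_lit 474243, nat_lit 914467, nat_lit 6589440],
 .step (nat_lit 166) [nat_lit 914467, nat_lit 6591488],
 .step (nat_lit 163) [nat_lit 802946, nat_lit 2564098, nat_lit 3980290, nat_lit 6592512],
 .step (nat_lit 164) [nat_lit 2227264, nat_lit 3983362, nat_lit 6593568],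
 .step (nat_lit 132) [nat_lit 2621538, nat_lit 2611297, nat_lit 2720803, nat_lit 5222496, nat_lit 4079650, nat_lit 6594561],
 .step (nat_lit 99) [nat_lit 136195, nat_lit 184322, nat_lit 6595584, nat_lit 3987457],
 .step (nat_lit 132) [nat_lit 6241, nat_lit 6600704],
 .step (nat_lit 100) [nat_lit 657411, nat_lit 354307, nat_lit 6601792],
 .step (nat_lit 134) [nat_lit 6243, nat_lit 6602752],
 .step (nat_lit 131) [nat_lit 6240, nat_lit 6572032],
 .step (nat_lit 99) [nat_lit 489570, nat_lit 2574336, nat_lit 6027297],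
 .step (nat_lit 162) [nat_lit 2035713, nat_lit 5135425, nat_lit 5964897, nat_lit 6605888],
 .step (nat_lit 129) [nat_lit 798816, nat_lit 3373056, nat_lit 5970944, nat_lit 5807200],
 .step (nat_lit 165) [nat_lit 5188, nat_lit 6609920],
 .step (nat_lit 163) [nat_lit 2646050, nat_lit 2865154, nat_lit 5351424, nat_lit 4726786, nat_lit 6610976],
 .step (nat_lit 163) [nat_lit 4647938, nat_lit 5146658, nat_lit 4001824, nat_lit 6612001, nat_lit 5148705, nat_lit 5975072],
 .step (nat_lit 66) [nat_lit 11265, nat_lit 6613024],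
 .step (nat_lit 67) [nat_lit 1354816, nat_lit 1267744, nat_lit 6043649, nat_lit 1359904],
 .step (nat_lit 132) [nat_lit 2080801, nat_lit 2803747, nat_lit 2628611, nat_lit 6615040],
 .step (nat_lit 99) [nat_lit 494595, nat_lit 1562624, nat_lit 6246464],
 .step (nat_lit 99) [nat_lit 490563, nat_lit 496707, nat_lit 2702338, nat_lit 6629440],
 .step (nat_lit 166) [nat_lit 6630402, nat_lit 5425187, nat_lit 6006880, nat_lit 5227554],
 .step (nat_lit 163) [nat_lit 493571, nat_lit 2714658, nat_lit 6635520],
 .step (nat_lit 131) [nat_lit 2646018, nat_lit 2647042, nat_lit 2697250, nat_lit 2708514, nat_lit 6636544],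
 .step (nat_lit 131) [nat_lit 2622560, nat_lit 2611296, nat_lit 2593888, nat_lit 6625314, nat_lit 6640640],
 .sym (nat_lit 6915) true false false (nat_lit 8) (nat_lit 6),
 .step (nat_lit 162) [nat_lit 585856, nat_lit 2679906, nat_lit 2733089, nat_lit 6646785],
 .step (nat_lit 99) [nat_lit 5179394, nat_lit 4076546, nat_lit 2727970, nat_lit 5226496, nat_lit 6673409],
 .step (nat_lit 163) [nat_lit 485379, nat_lit 2625570, nat_lit 2659394, nat_lit 6635520],
 .step (nat_lit 131) [nat_lit 1352802, nat_lit 3671136, nat_lit 4019296, nat_lit 6670338],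
 .sym (nat_lit 6920) false true false (nat_lit 8) (nat_lit 6),
 .step (nat_lit 132) [nat_lit 5993473, nat_lit 5233728, nat_lit 5247073, nat_lit 5171298, nat_lit 6639681],
 .step (nat_lit 129) [nat_lit 8288, nat_lit 6682624],
 .step (nat_lit 132) [nat_lit 7297, nat_lit 6685696],
 .step (nat_lit 99) [nat_lit 114755, nat_lit 6689792, nat_lit 1733698, nat_lit 4211712],
 .step (nat_lit 132) [nat_lit 6241, nat_lit 6693888],
 .step (nat_lit 229) [nat_lit 1758433, nat_lit 1804417, nat_lit 6694912],
 .step (nat_lit 197) [nat_lit 3880004, nat_lit 6058080, nat_lit 6059106, nat_lit 6182978, nat_lit 3051556, nat_lit 5312545, nat_lit 6702081],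
 .step (nat_lit 133) [nat_lit 2617441, nat_lit 2398304, nat_lit 5992450, nat_lit 2994272, nat_lit 6048864, nat_lit 6433856],
 .step (nat_lit 132) [nat_lit 6241, nat_lit 6705152],
 .step (nat_lit 35) [nat_lit 11266, nat_lit 6706176],
 .step (nat_lit 71) [nat_lit 6180, nat_lit 6707200],
 .step (nat_lit 67) [nat_lit 1356803, nat_lit 1270786, nat_lit 1367042, nat_lit 6692896],
 .sym (nat_lit 6933) false true true (nat_lit 6) (nat_lit 6),
 .step (nat_lit 100) [nat_lit 1654787, nat_lit 1702915, nat_lit 2913283, nat_lit 6363169, nat_lit 6438913, nat_lit 6102016],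
 .sym (nat_lit 6935) true true false (nat_lit 6) (nat_lit 6),
 .sym (nat_lit 6935) false true false (nat_lit 6) (nat_lit 6),
 .step (nat_lit 65) [nat_lit 9280, nat_lit 6710272],
 .step (nat_lit 164) [nat_lit 1269827, nat_lit 54308, nat_lit 6090753, nat_lit 6691872],
 .step (nat_lit 36) [nat_lit 11268, nat_lit 6712320],
 .step (nat_lit 262) [nat_lit 15494, nat_lit 6714368],
 .step (nat_lit 100) [nat_lit 23555, nat_lit 6719520],
 .step (nat_lit 100) [nat_lit 497762, nat_lit 2718784, nat_lit 6722562],
 .step (nat_lit 99) [nat_lit 2654275, nat_lit 1921056, nat_lit 6723584],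
 .step (nat_lit 164) [nat_lit 3434562, nat_lit 2945089, nat_lit 2664515, nat_lit 5348417, nat_lit 6791201, nat_lit 6724608],
 .step (nat_lit 131) [nat_lit 491618, nat_lit 2660448, nat_lit 3434529, nat_lit 6727682],
 .step (nat_lit 131) [nat_lit 1355778, nat_lit 1967104, nat_lit 3175456, nat_lit 6729728],
 .step (nat_lit 98) [nat_lit 3178497, nat_lit 4956193, nat_lit 5382208, nat_lit 4369409, nat_lit 6730817],
 .step (nat_lit 100) [nat_lit 11331, nat_lit 6731776],
 .step (nat_lit 101) [nat_lit 7266, nat_lit 6733824],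
 .step (nat_lit 66) [nat_lit 13346, nat_lit 6734848],
 .sym (nat_lit 6951) true true false (nat_lit 7) (nat_lit 5),
 .step (nat_lit 132) [nat_lit 7265, nat_lit 6735872],
 .step (nat_lit 100) [nat_lit 19552, nat_lit 6736896],
 .sym (nat_lit 6954) true true false (nat_lit 6) (nat_lit 5),
 .step (nat_lit 36) [nat_lit 499714, nat_lit 2717696, nat_lit 6632450],
 .sym (nat_lit 6956) false true true (nat_lit 8) (nat_lit 4),
 .sym (nat_lit 6956) false false true (nat_lit 8) (nat_lit 4),
 .sym (nat_lit 6956) true true false (nat_lit 8) (nat_lit 4),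
 .step (nat_lit 33) [nat_lit 8224, nat_lit 6737920],
 .step (nat_lit 66) [nat_lit 13346, nat_lit 6739968],
 .step (nat_lit 66) [nat_lit 13346, nat_lit 6740992],
 .step (nat_lit 101) [nat_lit 4407298, nat_lit 1502212, nat_lit 3570692, nat_lit 1601540, nat_lit 6158336],
 .step (nat_lit 67) [nat_lit 1377344, nat_lit 776225, nat_lit 1745952, nat_lit 6742018],
 .step (nat_lit 97) [nat_lit 9312, nat_lit 6743041],
 .step (nat_lit 131) [nat_lit 12323, nat_lit 6744064],
 .step (nat_lit 101) [nat_lit 6084611, nat_lit 2920450, nat_lit 4963360, nat_lit 4295682, nat_lit 4417568, nat_lit 6745088],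
 .step (nat_lit 101) [nat_lit 4710402, nat_lit 4406305, nat_lit 5412865, nat_lit 6746112],
 .step (nat_lit 163) [nat_lit 2646050, nat_lit 2623490, nat_lit 2615330, nat_lit 5219362, nat_lit 6051842, nat_lit 5417984, nat_lit 6165568],
 .step (nat_lit 195) [nat_lit 12387, nat_lit 6747136],
 .step (nat_lit 68) [nat_lit 11299, nat_lit 6748160],
 .step (nat_lit 100) [nat_lit 6209, nat_lit 6749184],
 .step (nat_lit 34) [nat_lit 499713, nat_lit 2825216, nat_lit 6632449],
 .sym (nat_lit 6973) true false false (nat_lit 7) (nat_lit 4),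
 .step (nat_lit 97) [nat_lit 9312, nat_lit 6753280],
 .step (nat_lit 164) [nat_lit 3037248, nat_lit 4468801, nat_lit 2437186, nat_lit 4985920, nat_lit 6750210],
 .step (nat_lit 98) [nat_lit 924769, nat_lit 1575968, nat_lit 6763521],
 .step (nat_lit 98) [nat_lit 1575968, nat_lit 4428800, nat_lit 6765601],
 .step (nat_lit 99) [nat_lit 37984, nat_lit 6768640],
 .step (nat_lit 133) [nat_lit 1651716, nat_lit 1701892, nat_lit 2911236, nat_lit 6361090, nat_lit 6436898, nat_lit 5843968],
 .step (nat_lit 99) [nat_lit 5219, nat_lit 6768640],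
 .step (nat_lit 101) [nat_lit 3376192, nat_lit 3121217, nat_lit 4356098, nat_lit 4333601, nat_lit 6725634],
 .step (nat_lit 66) [nat_lit 29728, nat_lit 6775809],
 .step (nat_lit 161) [nat_lit 488448, nat_lit 2624544, nat_lit 2654272, nat_lit 6634496],
 .sym (nat_lit 6984) true true false (nat_lit 4) (nat_lit 8),
 .sym (nat_lit 6984) false false true (nat_lit 4) (nat_lit 8),
 .step (nat_lit 99) [nat_lit 496707, nat_lit 2716674, nat_lit 6633536],
 .sym (nat_lit 6987) true true false (nat_lit 4) (nat_lit 8),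
 .step (nat_lit 195) [nat_lit 2613314, nat_lit 6621280, nat_lit 5984288, nat_lit 4149344, nat_lit 5242882, nat_lit 5175298],
 .step (nat_lit 131) [nat_lit 240768, nat_lit 4709408, nat_lit 5178368, nat_lit 6777856],
 .step (nat_lit 131) [nat_lit 239744, nat_lit 4710432, nat_lit 5177376, nat_lit 6777856],
 .step (nat_lit 166) [nat_lit 2592773, nat_lit 801890, nat_lit 6779904],
 .step (nat_lit 102) [nat_lit 4530179, nat_lit 2206752, nat_lit 6781952, nat_lit 6780960],
 .step (nat_lit 65) [nat_lit 1367040, nat_lit 598016, nat_lit 6786080],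
 .step (nat_lit 229) [nat_lit 584804, nat_lit 5507075, nat_lit 6787104],
 .sym (nat_lit 6995) true true false (nat_lit 5) (nat_lit 9),
 .sym (nat_lit 6995) true false false (nat_lit 5) (nat_lit 9),
 .sym (nat_lit 6995) true false true (nat_lit 5) (nat_lit 9),
 .step (nat_lit 65) [nat_lit 9280, nat_lit 6788096]]

theorem c6750 : checkFrom tbl r6750 (nat_lit 7000) (nat_lit 6750) = true := by decide +kernel

end Crest.Agent.R035
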