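import Crest.Agent.R035.Table

set_option autoImplicit false
set_option maxRecDepth 100000

namespace Crest.Agent.R035

noncomputable def r1000 : List Rule := [
 .sym (nat_lit 999) true false false (nat_lit 4) (nat_lit 5),
 .sym (nat_lit 999) false true false (nat_lit 4) (nat_lit 5),
 .step (nat_lit 132) [nat_lit 158816, nat_lit 152579],
 .sym (nat_lit 1002) false true true (nat_lit 5) (nat_lit 5),
 .step (nat_lit 65) [nat_lit 13345, nat_lit 65536],
 .step (nat_lit 97) [nat_lit 21568, nat_lit 233472],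
 .sym (nat_lit 1005) false true true (nat_lit 4) (nat_lit 4),
 .step (nat_lit 34) [nat_lit 29696, nat_lit 57378],
 .step (nat_lit 34) [nat_lit 29696, nat_lit 56322],
 .step (nat_lit 129) [nat_lit 17408, nat_lit 144448],
 .sym (nat_lit 1009) true true false (nat_lit 4) (nat_lit 4),
 .step (nat_lit 33) [nat_lit 11265, nat_lit 229408],
 .step (nat_lit 65) [nat_lit 22529, nat_lit 356384],
 .sym (nat_lit 1012) false false true (nat_lit 4) (nat_lit 4),
 .sym (nat_lit 1012) false true true (nat_lit 4) (nat_lit 4),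
 .sym (nat_lit 1012) true false true (nat_lit 4) (nat_lit 4),
 .sym (nat_lit 1012) true false false (nat_lit 4) (nat_lit 4),
 .step (nat_lit 98) [nat_lit 29760, nat_lit 65538],
 .sym (nat_lit 1017) true true true (nat_lit 4) (nat_lit 5),
 .sym (nat_lit 1017) false true false (nat_lit 4) (nat_lit 5),
 .step (nat_lit 36) [nat_lit 9216, nat_lit 188450],
 .step (nat_lit 97) [nat_lit 23552, nat_lit 85025],
 .step (nat_lit 64) [nat_lit 22560, nat_lit 259072],
 .sym (nat_lit 1022) true false true (nat_lit 1) (nat_lit 5),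
 .step (nat_lit 132) [nat_lit 18435, nat_lit 395360],
 .step (nat_lit 68) [nat_lit 21568, nat_lit 72707],
 .step (nat_lit 65) [nat_lit 8224, nat_lit 401409],
 .step (nat_lit 97) [nat_lit 16481, nat_lit 320512],
 .step (nat_lit 129) [nat_lit 48257, nat_lit 61440],
 .step (nat_lit 3) [nat_lit 37888, nat_lit 134147],
 .sym (nat_lit 1029) false false true (nat_lit 4) (nat_lit 4),
 .sym (nat_lit 1029) true false true (nat_lit 4) (nat_lit 4),
 .step (nat_lit 96) [nat_lit 24672, nat_lit 242688],
 .step (nat_lit 130) [nat_lit 12322, nat_lit 327680],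
 .step (nat_lit 36) [nat_lit 25600, nat_lit 142339],
 .step (nat_lit 97) [nat_lit 9312, nat_lit 297984],
 .sym (nat_lit 1035) false false true (nat_lit 4) (nat_lit 5),
 .step (nat_lit 2) [nat_lit 14337, nat_lit 345088],
 .sym (nat_lit 1037) false true true (nat_lit 5) (nat_lit 4),
 .step (nat_lit 132) [nat_lit 13440, nat_lit 375809],
 .step (nat_lit 131) [nat_lit 6272, nat_lit 375808],
 .step (nat_lit 34) [nat_lit 12321, nat_lit 273408],
 .step (nat_lit 99) [nat_lit 12291, nat_lit 154688],
 .sym (nat_lit 1042) false true true (nat_lit 5) (nat_lit 4),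
 .step (nat_lit 129) [nat_lit 11264, nat_lit 175136],
 .sym (nat_lit 1044) true true false (nat_lit 4) (nat_lit 5),
 .step (nat_lit 129) [nat_lit 5152, nat_lit 407552],
 .step (nat_lit 65) [nat_lit 8224, nat_lit 408576],
 .sym (nat_lit 1047) true true true (nat_lit 4) (nat_lit 4),
 .step (nat_lit 34) [nat_lit 17442, nat_lit 409600],
 .step (nat_lit 34) [nat_lit 29696, nat_lit 372736],
 .step (nat_lit 33) [nat_lit 9248, nat_lit 362496],
 .step (nat_lit 34) [nat_lit 27650, nat_lit 90112],
 .step (nat_lit 35) [nat_lit 26657, nat_lit 171008],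
 .step (nat_lit 65) [nat_lit 8224, nat_lit 190465],
 .sym (nat_lit 1054) false true true (nat_lit 4) (nat_lit 4),
 .sym (nat_lit 1054) true false false (nat_lit 4) (nat_lit 4),
 .sym (nat_lit 1054) true false true (nat_lit 4) (nat_lit 4),
 .step (nat_lit 97) [nat_lit 7233, nat_lit 183296],
 .step (nat_lit 33) [nat_lit 9248, nat_lit 92161],
 .step (nat_lit 33) [nat_lit 5153, nat_lit 413696],
 .sym (nat_lit 1060) true false true (nat_lit 4) (nat_lit 5),
 .step (nat_lit 34) [nat_lit 11266, nat_lit 409600],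
 .step (nat_lit 35) [nat_lit 19456, nat_lit 67616],
 .step (nat_lit 65) [nat_lit 12320, nat_lit 59392],
 .step (nat_lit 65) [nat_lit 30752, nat_lit 160768],
 .sym (nat_lit 1065) true false false (nat_lit 1) (nat_lit 6),
 .step (nat_lit 36) [nat_lit 48128, nat_lit 168961],
 .step (nat_lit 98) [nat_lit 29760, nat_lit 126978],
 .step (nat_lit 34) [nat_lit 7168, nat_lit 361473],
 .step (nat_lit 65) [nat_lit 12352, nat_lit 363521],
 .step (nat_lit 129) [nat_lit 10241, nat_lit 416800],
 .step (nat_lit 98) [nat_lit 28674, nat_lit 418816],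
 .sym (nat_lit 1072) false true true (nat_lit 4) (nat_lit 4),
 .step (nat_lit 34) [nat_lit 26656, nat_lit 165888],
 .step (nat_lit 131) [nat_lit 24672, nat_lit 348162],
 .step (nat_lit 34) [nat_lit 21504, nat_lit 269314],
 .step (nat_lit 33) [nat_lit 5121, nat_lit 170016],
 .step (nat_lit 129) [nat_lit 8288, nat_lit 405505],
 .sym (nat_lit 1078) false false true (nat_lit 5) (nat_lit 4),
 .step (nat_lit 129) [nat_lit 28673, nat_lit 77856],
 .step (nat_lit 97) [nat_lit 24672, nat_lit 72704],
 .sym (nat_lit 1081) true true true (nat_lit 4) (nat_lit 5),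
 .step (nat_lit 34) [nat_lit 29696, nat_lit 128002],
 .step (nat_lit 65) [nat_lit 46081, nat_lit 300096],
 .step (nat_lit 99) [nat_lit 21600, nat_lit 152579],
 .step (nat_lit 132) [nat_lit 23555, nat_lit 208960],
 .step (nat_lit 64) [nat_lit 5184, nat_lit 363520],
 .step (nat_lit 33) [nat_lit 17441, nat_lit 419840],
 .step (nat_lit 36) [nat_lit 22531, nat_lit 301056],
 .step (nat_lit 100) [nat_lit 5123, nat_lit 252992],
 .sym (nat_lit 1090) true true true (nat_lit 4) (nat_lit 4),
 .step (nat_lit 65) [nat_lit 12288, nat_lit 268288],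
 .step (nat_lit 32) [nat_lit 11264, nat_lit 386048],
 .step (nat_lit 34) [nat_lit 29696, nat_lit 78880],
 .step (nat_lit 65) [nat_lit 39968, nat_lit 284672],
 .step (nat_lit 34) [nat_lit 39937, nat_lit 145408],
 .step (nat_lit 96) [nat_lit 24672, nat_lit 139264],
 .step (nat_lit 65) [nat_lit 11264, nat_lit 323616],
 .step (nat_lit 33) [nat_lit 27649, nat_lit 428032],
 .step (nat_lit 67) [nat_lit 10243, nat_lit 410624],
 .step (nat_lit 34) [nat_lit 27650, nat_lit 79872],
 .step (nat_lit 32) [nat_lit 24608, nat_lit 98304],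
 .step (nat_lit 68) [nat_lit 25632, nat_lit 156675],
 .sym (nat_lit 1103) false true false (nat_lit 4) (nat_lit 5),
 .step (nat_lit 35) [nat_lit 10242, nat_lit 329760],
 .sym (nat_lit 1105) false false true (nat_lit 4) (nat_lit 5),
 .step (nat_lit 97) [nat_lit 12289, nat_lit 345152],
 .step (nat_lit 67) [nat_lit 12290, nat_lit 408576],
 .step (nat_lit 35) [nat_lit 6176, nat_lit 168960],
 .step (nat_lit 130) [nat_lit 24672, nat_lit 354304],
 .sym (nat_lit 1110) true true true (nat_lit 4) (nat_lit 5),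
 .step (nat_lit 3) [nat_lit 33794, nat_lit 137216],
 .step (nat_lit 36) [nat_lit 38944, nat_lit 249856],
 .step (nat_lit 34) [nat_lit 25632, nat_lit 56322],
 .sym (nat_lit 1114) false true true (nat_lit 7) (nat_lit 2),
 .step (nat_lit 33) [nat_lit 39936, nat_lit 320512],
 .step (nat_lit 129) [nat_lit 23585, nat_lit 72704],
 .step (nat_lit 96) [nat_lit 47168, nat_lit 65536],
 .step (nat_lit 65) [nat_lit 12320, nat_lit 265216],
 .step (nat_lit 97) [nat_lit 5120, nat_lit 240704],
 .step (nat_lit 99) [nat_lit 21568, nat_lit 91139],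
 .step (nat_lit 97) [nat_lit 5120, nat_lit 383008],
 .step (nat_lit 98) [nat_lit 26720, nat_lit 245760],
 .step (nat_lit 128) [nat_lit 49248, nat_lit 253952],
 .step (nat_lit 34) [nat_lit 29696, nat_lit 431104],
 .step (nat_lit 33) [nat_lit 39936, nat_lit 370688],
 .step (nat_lit 129) [nat_lit 8288, nat_lit 131073],
 .step (nat_lit 100) [nat_lit 153603, nat_lit 99424],
 .step (nat_lit 65) [nat_lit 9280, nat_lit 425984],
 .step (nat_lit 33) [nat_lit 5121, nat_lit 294912],
 .sym (nat_lit 1130) false true false (nat_lit 4) (nat_lit 4),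
 .step (nat_lit 68) [nat_lit 42048, nat_lit 68611],
 .step (nat_lit 98) [nat_lit 21568, nat_lit 69633],
 .step (nat_lit 65) [nat_lit 43072, nat_lit 83969],
 .step (nat_lit 97) [nat_lit 21568, nat_lit 139265],
 .sym (nat_lit 1135) true true true (nat_lit 4) (nat_lit 4),
 .step (nat_lit 129) [nat_lit 9312, nat_lit 297984],
 .step (nat_lit 131) [nat_lit 25696, nat_lit 351235],
 .sym (nat_lit 1138) true false true (nat_lit 4) (nat_lit 5),
 .step (nat_lit 36) [nat_lit 7169, nat_lit 63520],
 .step (nat_lit 99) [nat_lit 48224, nat_lit 201729],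
 .step (nat_lit 65) [nat_lit 39968, nat_lit 432128],
 .step (nat_lit 98) [nat_lit 29760, nat_lit 185346],
 .step (nat_lit 132) [nat_lit 5155, nat_lit 435200],
 .step (nat_lit 32) [nat_lit 6176, nat_lit 156672],
 .step (nat_lit 97) [nat_lit 27680, nat_lit 331776],
 .step (nat_lit 35) [nat_lit 37920, nat_lit 100355],
 .step (nat_lit 67) [nat_lit 37952, nat_lit 72707],
 .sym (nat_lit 1148) true true false (nat_lit 4) (nat_lit 5),
 .step (nat_lit 35) [nat_lit 37920, nat_lit 156675],
 .step (nat_lit 3) [nat_lit 37888, nat_lit 135171],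
 .step (nat_lit 67) [nat_lit 26689, nat_lit 150528],
 .step (nat_lit 99) [nat_lit 12290, nat_lit 288768],
 .step (nat_lit 97) [nat_lit 24672, nat_lit 139264],
 .step (nat_lit 36) [nat_lit 18468, nat_lit 402432],
 .step (nat_lit 33) [nat_lit 13344, nat_lit 119809],
 .step (nat_lit 33) [nat_lit 13344, nat_lit 55296],
 .sym (nat_lit 1157) false false true (nat_lit 5) (nat_lit 2),
 .step (nat_lit 131) [nat_lit 42080, nat_lit 74755],
 .sym (nat_lit 1159) true false false (nat_lit 4) (nat_lit 5),
 .step (nat_lit 34) [nat_lit 31776, nat_lit 114688],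
 .step (nat_lit 131) [nat_lit 6240, nat_lit 438273],
 .step (nat_lit 35) [nat_lit 25632, nat_lit 333824],
 .step (nat_lit 3) [nat_lit 37888, nat_lit 394242],
 .step (nat_lit 66) [nat_lit 22593, nat_lit 440320],
 .step (nat_lit 35) [nat_lit 26656, nat_lit 412672],
 .step (nat_lit 36) [nat_lit 7169, nat_lit 377856],
 .step (nat_lit 98) [nat_lit 12321, nat_lit 272384],
 .step (nat_lit 98) [nat_lit 28673, nat_lit 417856],
 .step (nat_lit 97) [nat_lit 6241, nat_lit 183296],
 .step (nat_lit 34) [nat_lit 29696, nat_lit 142337],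
 .step (nat_lit 131) [nat_lit 25696, nat_lit 303107],
 .step (nat_lit 2) [nat_lit 31744, nat_lit 442368],
 .step (nat_lit 4) [nat_lit 8192, nat_lit 136195],
 .step (nat_lit 129) [nat_lit 8288, nat_lit 398337],
 .step (nat_lit 4) [nat_lit 21504, nat_lit 254977],
 .step (nat_lit 66) [nat_lit 25664, nat_lit 214017],
 .step (nat_lit 67) [nat_lit 25632, nat_lit 302082],
 .step (nat_lit 129) [nat_lit 11264, nat_lit 250880],
 .step (nat_lit 65) [nat_lit 39968, nat_lit 399360],
 .step (nat_lit 131) [nat_lit 5155, nat_lit 444416],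
 .step (nat_lit 97) [nat_lit 12288, nat_lit 366592],
 .step (nat_lit 66) [nat_lit 9248, nat_lit 148481],
 .step (nat_lit 100) [nat_lit 5123, nat_lit 244800],
 .step (nat_lit 32) [nat_lit 48160, nat_lit 224256],
 .step (nat_lit 129) [nat_lit 53248, nat_lit 252993],
 .step (nat_lit 129) [nat_lit 25728, nat_lit 132096],
 .step (nat_lit 97) [nat_lit 23552, nat_lit 240736],
 .step (nat_lit 33) [nat_lit 25632, nat_lit 205824],
 .step (nat_lit 34) [nat_lit 6177, nat_lit 304128],
 .sym (nat_lit 1190) true false true (nat_lit 5) (nat_lit 4),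
 .sym (nat_lit 1190) true true true (nat_lit 5) (nat_lit 4),
 .step (nat_lit 100) [nat_lit 19552, nat_lit 187393],
 .step (nat_lit 36) [nat_lit 21537, nat_lit 228352],
 .step (nat_lit 34) [nat_lit 27650, nat_lit 96288],
 .step (nat_lit 34) [nat_lit 12321, nat_lit 149504],
 .step (nat_lit 97) [nat_lit 40032, nat_lit 139264],
 .step (nat_lit 36) [nat_lit 42016, nat_lit 90113],
 .step (nat_lit 129) [nat_lit 43009, nat_lit 80928],
 .step (nat_lit 36) [nat_lit 37888, nat_lit 339968],
 .step (nat_lit 35) [nat_lit 11266, nat_lit 446464],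
 .step (nat_lit 65) [nat_lit 22529, nat_lit 309280],
 .step (nat_lit 33) [nat_lit 21504, nat_lit 437281],
 .step (nat_lit 65) [nat_lit 5153, nat_lit 104448],
 .step (nat_lit 129) [nat_lit 34848, nat_lit 159744],
 .step (nat_lit 129) [nat_lit 39008, nat_lit 152576],
 .step (nat_lit 129) [nat_lit 8288, nat_lit 152577],
 .step (nat_lit 2) [nat_lit 12289, nat_lit 79872],
 .step (nat_lit 33) [nat_lit 49153, nat_lit 359456],
 .step (nat_lit 97) [nat_lit 27648, nat_lit 236544],
 .step (nat_lit 69) [nat_lit 6178, nat_lit 434176],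
 .step (nat_lit 35) [nat_lit 22530, nat_lit 447488],
 .step (nat_lit 35) [nat_lit 7170, nat_lit 60448],
 .step (nat_lit 100) [nat_lit 77827, nat_lit 158784],
 .step (nat_lit 96) [nat_lit 12288, nat_lit 448576],
 .step (nat_lit 97) [nat_lit 28673, nat_lit 283648],
 .step (nat_lit 129) [nat_lit 12320, nat_lit 335873],
 .step (nat_lit 35) [nat_lit 15394, nat_lit 232448],
 .step (nat_lit 99) [nat_lit 5155, nat_lit 232448],
 .step (nat_lit 32) [nat_lit 41984, nat_lit 156672],
 .step (nat_lit 35) [nat_lit 26626, nat_lit 79872],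
 .sym (nat_lit 1221) false false true (nat_lit 6) (nat_lit 1),
 .step (nat_lit 128) [nat_lit 42080, nat_lit 216064],
 .step (nat_lit 100) [nat_lit 5123, nat_lit 422912],
 .step (nat_lit 99) [nat_lit 40000, nat_lit 278531],
 .step (nat_lit 132) [nat_lit 9312, nat_lit 439297],
 .step (nat_lit 35) [nat_lit 21536, nat_lit 358402],
 .step (nat_lit 67) [nat_lit 12322, nat_lit 296960],
 .step (nat_lit 32) [nat_lit 11264, nat_lit 420896],
 .step (nat_lit 1) [nat_lit 8192, nat_lit 320512],
 .step (nat_lit 99) [nat_lit 5123, nat_lit 175136],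
 .step (nat_lit 129) [nat_lit 52225, nat_lit 60544],
 .step (nat_lit 163) [nat_lit 32928, nat_lit 58371],
 .step (nat_lit 35) [nat_lit 37920, nat_lit 68611],
 .step (nat_lit 67) [nat_lit 19488, nat_lit 289793],
 .sym (nat_lit 1235) true true false (nat_lit 5) (nat_lit 2),
 .step (nat_lit 3) [nat_lit 37888, nat_lit 234497],
 .step (nat_lit 33) [nat_lit 60448, nat_lit 55296],
 .sym (nat_lit 1238) true false false (nat_lit 5) (nat_lit 2),
 .sym (nat_lit 1238) true true true (nat_lit 5) (nat_lit 2),
 .sym (nat_lit 1238) false false true (nat_lit 5) (nat_lit 2),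
 .step (nat_lit 128) [nat_lit 54272, nat_lit 68608],
 .sym (nat_lit 1242) false true false (nat_lit 1) (nat_lit 5),
 .step (nat_lit 65) [nat_lit 5121, nat_lit 61440],
 .step (nat_lit 129) [nat_lit 11264, nat_lit 294944],
 .step (nat_lit 65) [nat_lit 5153, nat_lit 180224],
 .step (nat_lit 35) [nat_lit 21504, nat_lit 60448],
 .step (nat_lit 33) [nat_lit 25632, nat_lit 287745],
 .step (nat_lit 32) [nat_lit 11264, nat_lit 119808]]

theorem c1000 : checkFrom tbl r1000 (nat_lit 1250) (nat_lit 1000) = true := by decide +kernel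

noncomputable def r3000 : List Rule := [
 .step (nat_lit 32) [nat_lit 11264, nat_lit 1881120],
 .sym (nat_lit 3000) true false true (nat_lit 2) (nat_lit 7),
 .sym (nat_lit 3000) false true false (nat_lit 2) (nat_lit 7),
 .step (nat_lit 34) [nat_lit 11266, nat_lit 1882144],
 .step (nat_lit 98) [nat_lit 6241, nat_lit 1728512],
 .step (nat_lit 36) [nat_lit 10243, nat_lit 1809440],
 .step (nat_lit 68) [nat_lit 37920, nat_lit 1487872],
 .sym (nat_lit 3006) false true false (nat_lit 5) (nat_lit 4),
 .step (nat_lit 129) [nat_lit 12352, nat_lit 1356801],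
 .sym (nat_lit 3008) false true false (nat_lit 2) (nat_lit 6),
 .step (nat_lit 163) [nat_lit 1269826, nat_lit 867328],
 .sym (nat_lit 3010) false true false (nat_lit 4) (nat_lit 7),
 .step (nat_lit 97) [nat_lit 19521, nat_lit 1421312],
 .sym (nat_lit 3012) true false false (nat_lit 5) (nat_lit 4),
 .step (nat_lit 5) [nat_lit 19457, nat_lit 1891328],
 .sym (nat_lit 3014) true true true (nat_lit 6) (nat_lit 2),
 .step (nat_lit 129) [nat_lit 12320, nat_lit 1893376],
 .step (nat_lit 35) [nat_lit 37920, nat_lit 1510400],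
 .step (nat_lit 67) [nat_lit 1358850, nat_lit 172064],
 .sym (nat_lit 3018) false false true (nat_lit 4) (nat_lit 6),
 .step (nat_lit 37) [nat_lit 10245, nat_lit 2199584],
 .step (nat_lit 36) [nat_lit 8224, nat_lit 1894401],
 .step (nat_lit 67) [nat_lit 1367042, nat_lit 172064],
 .step (nat_lit 67) [nat_lit 25632, nat_lit 1529858],
 .step (nat_lit 65) [nat_lit 8224, nat_lit 1898496],
 .step (nat_lit 131) [nat_lit 5154, nat_lit 1899520],
 .step (nat_lit 35) [nat_lit 20515, nat_lit 1906688],
 .sym (nat_lit 3026) false true false (nat_lit 7) (nat_lit 2),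
 .sym (nat_lit 3026) true false false (nat_lit 7) (nat_lit 2),
 .step (nat_lit 132) [nat_lit 5155, nat_lit 1908736],
 .step (nat_lit 98) [nat_lit 1267776, nat_lit 1754114],
 .sym (nat_lit 3030) false true false (nat_lit 7) (nat_lit 4),
 .step (nat_lit 34) [nat_lit 10241, nat_lit 1909792],
 .step (nat_lit 36) [nat_lit 5124, nat_lit 1903616],
 .step (nat_lit 132) [nat_lit 1351808, nat_lit 377857],
 .step (nat_lit 130) [nat_lit 53249, nat_lit 1354880],
 .step (nat_lit 2) [nat_lit 20482, nat_lit 2299904],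
 .step (nat_lit 161) [nat_lit 485377, nat_lit 493569, nat_lit 1438784],
 .step (nat_lit 129) [nat_lit 1357825, nat_lit 196640],
 .step (nat_lit 97) [nat_lit 27745, nat_lit 1468416],
 .step (nat_lit 3) [nat_lit 27651, nat_lit 1915904],
 .step (nat_lit 34) [nat_lit 1402880, nat_lit 345120],
 .step (nat_lit 34) [nat_lit 6177, nat_lit 1918976],
 .step (nat_lit 33) [nat_lit 9216, nat_lit 1351712],
 .sym (nat_lit 3043) true false false (nat_lit 6) (nat_lit 2),
 .step (nat_lit 3) [nat_lit 25602, nat_lit 1923072],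
 .step (nat_lit 34) [nat_lit 6176, nat_lit 1615872],
 .step (nat_lit 65) [nat_lit 69633, nat_lit 1614848],
 .step (nat_lit 69) [nat_lit 387105, nat_lit 1264673, nat_lit 1925120],
 .step (nat_lit 65) [nat_lit 189472, nat_lit 1478657],
 .sym (nat_lit 3049) true true true (nat_lit 7) (nat_lit 2),
 .sym (nat_lit 3049) false true true (nat_lit 7) (nat_lit 2),
 .sym (nat_lit 3049) true false true (nat_lit 7) (nat_lit 2),
 .step (nat_lit 36) [nat_lit 7201, nat_lit 1926144],
 .step (nat_lit 37) [nat_lit 39937, nat_lit 1927168],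
 .step (nat_lit 36) [nat_lit 1351712, nat_lit 1268737, nat_lit 1896448],
 .step (nat_lit 163) [nat_lit 1269826, nat_lit 896000],
 .sym (nat_lit 3056) true false true (nat_lit 4) (nat_lit 7),
 .step (nat_lit 65) [nat_lit 8224, nat_lit 1932289],
 .sym (nat_lit 3058) false true true (nat_lit 7) (nat_lit 2),
 .step (nat_lit 65) [nat_lit 39968, nat_lit 1933312],
 .step (nat_lit 99) [nat_lit 12290, nat_lit 1879040],
 .sym (nat_lit 3061) false true true (nat_lit 4) (nat_lit 4),
 .step (nat_lit 36) [nat_lit 38944, nat_lit 1770499],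
 .step (nat_lit 161) [nat_lit 8320, nat_lit 1539072],
 .sym (nat_lit 3064) false true false (nat_lit 4) (nat_lit 5),
 .step (nat_lit 129) [nat_lit 40032, nat_lit 1661952],
 .step (nat_lit 32) [nat_lit 17440, nat_lit 1937408],
 .step (nat_lit 34) [nat_lit 11266, nat_lit 1944576],
 .sym (nat_lit 3068) true false true (nat_lit 5) (nat_lit 4),
 .step (nat_lit 36) [nat_lit 7201, nat_lit 2333696],
 .step (nat_lit 132) [nat_lit 42112, nat_lit 1950720],
 .step (nat_lit 131) [nat_lit 25696, nat_lit 1843200],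
 .step (nat_lit 33) [nat_lit 315424, nat_lit 1024001, nat_lit 1952800],
 .sym (nat_lit 3073) true false false (nat_lit 6) (nat_lit 5),
 .step (nat_lit 130) [nat_lit 63616, nat_lit 1797120],
 .step (nat_lit 131) [nat_lit 8320, nat_lit 1796097],
 .sym (nat_lit 3076) true false false (nat_lit 5) (nat_lit 5),
 .step (nat_lit 65) [nat_lit 8224, nat_lit 1953792],
 .sym (nat_lit 3078) true false false (nat_lit 4) (nat_lit 5),
 .sym (nat_lit 3078) true true false (nat_lit 4) (nat_lit 5),
 .step (nat_lit 35) [nat_lit 21536, nat_lit 1955840],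
 .step (nat_lit 64) [nat_lit 26656, nat_lit 1956864],
 .step (nat_lit 36) [nat_lit 8224, nat_lit 1953792],
 .step (nat_lit 161) [nat_lit 485377, nat_lit 701504, nat_lit 1946656],
 .sym (nat_lit 3084) true false true (nat_lit 4) (nat_lit 7),
 .step (nat_lit 5) [nat_lit 19457, nat_lit 1961984],
 .step (nat_lit 69) [nat_lit 16417, nat_lit 1963008],
 .step (nat_lit 163) [nat_lit 1356803, nat_lit 475202, nat_lit 1373216],
 .sym (nat_lit 3088) false false true (nat_lit 5) (nat_lit 7),
 .sym (nat_lit 3088) true false false (nat_lit 5) (nat_lit 7),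
 .sym (nat_lit 3088) true true false (nat_lit 5) (nat_lit 7),
 .step (nat_lit 100) [nat_lit 5123, nat_lit 1442848],
 .step (nat_lit 129) [nat_lit 8288, nat_lit 1849344],
 .step (nat_lit 67) [nat_lit 1356803, nat_lit 1361954, nat_lit 570432],
 .step (nat_lit 130) [nat_lit 12322, nat_lit 1965056],
 .step (nat_lit 34) [nat_lit 29696, nat_lit 1268738],
 .step (nat_lit 98) [nat_lit 1354848, nat_lit 1359936, nat_lit 1555457],
 .sym (nat_lit 3097) false true true (nat_lit 6) (nat_lit 4),
 .sym (nat_lit 3097) false false true (nat_lit 6) (nat_lit 4),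
 .sym (nat_lit 3097) true false false (nat_lit 6) (nat_lit 4),
 .step (nat_lit 130) [nat_lit 15362, nat_lit 1968160],
 .step (nat_lit 33) [nat_lit 25632, nat_lit 1969152],
 .step (nat_lit 34) [nat_lit 1267712, nat_lit 1359872, nat_lit 1803297],
 .step (nat_lit 98) [nat_lit 25696, nat_lit 1710081],
 .sym (nat_lit 3104) true true false (nat_lit 4) (nat_lit 6),
 .step (nat_lit 99) [nat_lit 12291, nat_lit 1974304],
 .step (nat_lit 66) [nat_lit 21536, nat_lit 1633280],
 .step (nat_lit 69) [nat_lit 12324, nat_lit 1976320],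
 .step (nat_lit 131) [nat_lit 14339, nat_lit 1978400],
 .step (nat_lit 34) [nat_lit 11266, nat_lit 1979424],
 .step (nat_lit 67) [nat_lit 24642, nat_lit 1980416],
 .step (nat_lit 3) [nat_lit 50178, nat_lit 1377280],
 .step (nat_lit 34) [nat_lit 1353728, nat_lit 1050625],
 .step (nat_lit 131) [nat_lit 10243, nat_lit 1387552],
 .step (nat_lit 100) [nat_lit 1583104, nat_lit 653377],
 .step (nat_lit 133) [nat_lit 52229, nat_lit 1987616],
 .sym (nat_lit 3116) true false false (nat_lit 6) (nat_lit 5),
 .step (nat_lit 129) [nat_lit 53248, nat_lit 1686624],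
 .sym (nat_lit 3118) true true false (nat_lit 5) (nat_lit 5),
 .step (nat_lit 34) [nat_lit 43009, nat_lit 1994752],
 .sym (nat_lit 3120) false true false (nat_lit 5) (nat_lit 4),
 .step (nat_lit 35) [nat_lit 43010, nat_lit 1999872],
 .sym (nat_lit 3122) false true false (nat_lit 6) (nat_lit 4),
 .step (nat_lit 131) [nat_lit 12322, nat_lit 1584128],
 .step (nat_lit 65) [nat_lit 28704, nat_lit 1584128],
 .step (nat_lit 33) [nat_lit 1685504, nat_lit 1995777],
 .step (nat_lit 130) [nat_lit 8289, nat_lit 2000896],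
 .step (nat_lit 132) [nat_lit 1060864, nat_lit 1269795],
 .sym (nat_lit 3128) false true true (nat_lit 5) (nat_lit 6),
 .step (nat_lit 133) [nat_lit 1354880, nat_lit 1360992, nat_lit 952322],
 .step (nat_lit 132) [nat_lit 1365088, nat_lit 952321],
 .step (nat_lit 33) [nat_lit 8192, nat_lit 1818624],
 .step (nat_lit 131) [nat_lit 40962, nat_lit 2010112],
 .step (nat_lit 132) [nat_lit 1351808, nat_lit 952321],
 .sym (nat_lit 3134) true false false (nat_lit 6) (nat_lit 5),
 .sym (nat_lit 3134) true true true (nat_lit 6) (nat_lit 5),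
 .step (nat_lit 65) [nat_lit 13345, nat_lit 2011136],
 .sym (nat_lit 3137) true false true (nat_lit 5) (nat_lit 5),
 .step (nat_lit 130) [nat_lit 1368160, nat_lit 952321],
 .step (nat_lit 131) [nat_lit 29792, nat_lit 1683459],
 .step (nat_lit 129) [nat_lit 53248, nat_lit 2012160],
 .step (nat_lit 129) [nat_lit 53248, nat_lit 2013185],
 .step (nat_lit 34) [nat_lit 1351713, nat_lit 465920],
 .step (nat_lit 67) [nat_lit 8256, nat_lit 1907713],
 .sym (nat_lit 3144) false false true (nat_lit 5) (nat_lit 5),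
 .step (nat_lit 99) [nat_lit 1269762, nat_lit 1532928, nat_lit 1712129],
 .step (nat_lit 65) [nat_lit 9280, nat_lit 2015233],
 .sym (nat_lit 3147) true false false (nat_lit 4) (nat_lit 6),
 .step (nat_lit 66) [nat_lit 5154, nat_lit 1540096],
 .step (nat_lit 131) [nat_lit 5154, nat_lit 1676288],
 .step (nat_lit 129) [nat_lit 475168, nat_lit 103456, nat_lit 2019328],
 .sym (nat_lit 3151) true true true (nat_lit 4) (nat_lit 6),
 .step (nat_lit 65) [nat_lit 9280, nat_lit 1709057],
 .sym (nat_lit 3153) false true true (nat_lit 4) (nat_lit 6),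
 .step (nat_lit 34) [nat_lit 11266, nat_lit 1792032],
 .sym (nat_lit 3155) false true true (nat_lit 5) (nat_lit 5),
 .step (nat_lit 132) [nat_lit 42112, nat_lit 2028544],
 .step (nat_lit 98) [nat_lit 12290, nat_lit 2029568],
 .step (nat_lit 129) [nat_lit 219136, nat_lit 280576, nat_lit 1527808],
 .step (nat_lit 67) [nat_lit 1268769, nat_lit 671744],
 .step (nat_lit 65) [nat_lit 8224, nat_lit 2032640],
 .step (nat_lit 34) [nat_lit 29696, nat_lit 1862657],
 .step (nat_lit 132) [nat_lit 5155, nat_lit 1810432],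
 .step (nat_lit 164) [nat_lit 5188, nat_lit 2034688],
 .step (nat_lit 34) [nat_lit 29696, nat_lit 1363969],
 .step (nat_lit 34) [nat_lit 29696, nat_lit 1351713],
 .step (nat_lit 67) [nat_lit 11266, nat_lit 1587232],
 .sym (nat_lit 3167) true false false (nat_lit 6) (nat_lit 5),
 .step (nat_lit 34) [nat_lit 11266, nat_lit 2041856],
 .step (nat_lit 68) [nat_lit 652320, nat_lit 1671168, nat_lit 1913888],
 .step (nat_lit 97) [nat_lit 7233, nat_lit 1555456],
 .step (nat_lit 98) [nat_lit 476224, nat_lit 465984, nat_lit 1837057],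
 .step (nat_lit 131) [nat_lit 17410, nat_lit 1584128],
 .step (nat_lit 65) [nat_lit 1723392, nat_lit 1825824, nat_lit 2045952],
 .step (nat_lit 35) [nat_lit 24577, nat_lit 2046976],
 .step (nat_lit 36) [nat_lit 498720, nat_lit 1383424],
 .step (nat_lit 100) [nat_lit 487520, nat_lit 498784, nat_lit 2048001],
 .step (nat_lit 162) [nat_lit 15394, nat_lit 2049024],
 .step (nat_lit 132) [nat_lit 1269795, nat_lit 2044928],
 .step (nat_lit 36) [nat_lit 10244, nat_lit 2050080],
 .step (nat_lit 67) [nat_lit 7201, nat_lit 1372160],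
 .step (nat_lit 130) [nat_lit 29825, nat_lit 2504704],
 .step (nat_lit 65) [nat_lit 39968, nat_lit 1723392],
 .step (nat_lit 100) [nat_lit 5123, nat_lit 1470464],
 .step (nat_lit 129) [nat_lit 8288, nat_lit 2051072],
 .step (nat_lit 100) [nat_lit 20544, nat_lit 1393665],
 .step (nat_lit 67) [nat_lit 9282, nat_lit 1673216],
 .step (nat_lit 33) [nat_lit 21504, nat_lit 1471488],
 .step (nat_lit 100) [nat_lit 1351776, nat_lit 1364032, nat_lit 572417],
 .sym (nat_lit 3189) false false true (nat_lit 6) (nat_lit 4),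
 .step (nat_lit 34) [nat_lit 10241, nat_lit 2056192],
 .step (nat_lit 99) [nat_lit 6208, nat_lit 1900546],
 .step (nat_lit 102) [nat_lit 7235, nat_lit 2061312],
 .step (nat_lit 99) [nat_lit 98307, nat_lit 1394688],
 .step (nat_lit 66) [nat_lit 46082, nat_lit 1596480],
 .step (nat_lit 35) [nat_lit 1355778, nat_lit 486402, nat_lit 838656],
 .step (nat_lit 96) [nat_lit 12288, nat_lit 1816576],
 .step (nat_lit 100) [nat_lit 1351776, nat_lit 185345],
 .sym (nat_lit 3198) false true false (nat_lit 6) (nat_lit 4),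
 .step (nat_lit 98) [nat_lit 485377, nat_lit 1443872],
 .step (nat_lit 32) [nat_lit 11264, nat_lit 2085888],
 .step (nat_lit 129) [nat_lit 13409, nat_lit 2086912],
 .step (nat_lit 1) [nat_lit 9216, nat_lit 2087937],
 .step (nat_lit 34) [nat_lit 12289, nat_lit 1597440],
 .sym (nat_lit 3204) true false true (nat_lit 5) (nat_lit 4),
 .sym (nat_lit 3204) false true true (nat_lit 5) (nat_lit 4),
 .step (nat_lit 65) [nat_lit 8224, nat_lit 2088960],
 .step (nat_lit 130) [nat_lit 1364064, nat_lit 1059840, nat_lit 1810432],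
 .step (nat_lit 130) [nat_lit 1268833, nat_lit 1810432],
 .step (nat_lit 97) [nat_lit 11264, nat_lit 2093088],
 .step (nat_lit 66) [nat_lit 1270785, nat_lit 1366017, nat_lit 2094112],
 .step (nat_lit 97) [nat_lit 7233, nat_lit 1534976],
 .sym (nat_lit 3212) false true true (nat_lit 5) (nat_lit 5),
 .step (nat_lit 131) [nat_lit 12322, nat_lit 1523712],
 .step (nat_lit 67) [nat_lit 6176, nat_lit 1615872],
 .step (nat_lit 161) [nat_lit 8320, nat_lit 2102273],
 .sym (nat_lit 3216) true false false (nat_lit 6) (nat_lit 5),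
 .step (nat_lit 66) [nat_lit 46082, nat_lit 2104384],
 .step (nat_lit 100) [nat_lit 27651, nat_lit 1929216],
 .step (nat_lit 66) [nat_lit 22530, nat_lit 2105344],
 .step (nat_lit 132) [nat_lit 6241, nat_lit 2106368],
 .step (nat_lit 97) [nat_lit 22529, nat_lit 2107392],
 .step (nat_lit 65) [nat_lit 28672, nat_lit 2111520],
 .step (nat_lit 130) [nat_lit 18433, nat_lit 2112544],
 .step (nat_lit 65) [nat_lit 20545, nat_lit 2114560],
 .step (nat_lit 36) [nat_lit 10243, nat_lit 2117664],
 .step (nat_lit 37) [nat_lit 10244, nat_lit 1699840],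
 .step (nat_lit 97) [nat_lit 497760, nat_lit 2119680],
 .step (nat_lit 66) [nat_lit 1267744, nat_lit 2126849, nat_lit 1365025],
 .step (nat_lit 65) [nat_lit 8224, nat_lit 2127873],
 .sym (nat_lit 3230) true false false (nat_lit 6) (nat_lit 4),
 .step (nat_lit 98) [nat_lit 1353792, nat_lit 1360960, nat_lit 2131969],
 .step (nat_lit 131) [nat_lit 489568, nat_lit 2132992],
 .step (nat_lit 129) [nat_lit 46080, nat_lit 2134016],
 .step (nat_lit 34) [nat_lit 29696, nat_lit 1808384],
 .step (nat_lit 65) [nat_lit 39968, nat_lit 1767424],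
 .sym (nat_lit 3236) false true false (nat_lit 4) (nat_lit 6),
 .step (nat_lit 129) [nat_lit 1355776, nat_lit 1362944, nat_lit 1594400],
 .step (nat_lit 129) [nat_lit 46080, nat_lit 1403968],
 .step (nat_lit 34) [nat_lit 29696, nat_lit 1585152],
 .step (nat_lit 98) [nat_lit 477248, nat_lit 468064, nat_lit 1837057],
 .step (nat_lit 98) [nat_lit 489568, nat_lit 2132992],
 .step (nat_lit 68) [nat_lit 489537, nat_lit 2140192, nat_lit 2136065, nat_lit 2138146],
 .step (nat_lit 4) [nat_lit 14339, nat_lit 2095104],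
 .step (nat_lit 36) [nat_lit 492544, nat_lit 500736, nat_lit 1409024],
 .step (nat_lit 35) [nat_lit 16416, nat_lit 2153472],
 .step (nat_lit 33) [nat_lit 1371136, nat_lit 569344],
 .step (nat_lit 35) [nat_lit 26656, nat_lit 1878016],
 .step (nat_lit 98) [nat_lit 1267776, nat_lit 1364033, nat_lit 1831937]]

theorem c3000 : checkFrom tbl r3000 (nat_lit 3250) (nat_lit 3000) = true := by decide +kernel

noncomputable def r5000 : List Rule := [
 .step (nat_lit 132) [nat_lit 13440, nat_lit 3683329],
 .step (nat_lit 228) [nat_lit 1959008, nat_lit 3159168, nat_lit 2565122],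
 .step (nat_lit 130) [nat_lit 29792, nat_lit 3984386],
 .step (nat_lit 65) [nat_lit 533537, nat_lit 700416, nat_lit 1845248, nat_lit 3261472],
 .step (nat_lit 65) [nat_lit 8224, nat_lit 3299328],
 .step (nat_lit 66) [nat_lit 46082, nat_lit 3679264],
 .step (nat_lit 65) [nat_lit 8224, nat_lit 3134465],
 .step (nat_lit 101) [nat_lit 134148, nat_lit 1429506, nat_lit 1566722, nat_lit 3091456],
 .step (nat_lit 99) [nat_lit 27682, nat_lit 3990528],
 .step (nat_lit 100) [nat_lit 153603, nat_lit 2748512],
 .step (nat_lit 197) [nat_lit 6306, nat_lit 3991552],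
 .step (nat_lit 99) [nat_lit 489570, nat_lit 3858433, nat_lit 2574336],
 .step (nat_lit 98) [nat_lit 489569, nat_lit 2573312, nat_lit 3856384],
 .step (nat_lit 34) [nat_lit 29696, nat_lit 3585024],
 .step (nat_lit 66) [nat_lit 26657, nat_lit 3994624],
 .step (nat_lit 130) [nat_lit 1164288, nat_lit 3262497],
 .step (nat_lit 66) [nat_lit 24641, nat_lit 3995648],
 .step (nat_lit 97) [nat_lit 2598912, nat_lit 562208],
 .step (nat_lit 161) [nat_lit 8320, nat_lit 3996672],
 .step (nat_lit 33) [nat_lit 1352704, nat_lit 2366464, nat_lit 3151872],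
 .step (nat_lit 33) [nat_lit 8192, nat_lit 3997697],
 .step (nat_lit 129) [nat_lit 2657280, nat_lit 805984],
 .step (nat_lit 162) [nat_lit 2657280, nat_lit 805984],
 .step (nat_lit 162) [nat_lit 795777, nat_lit 2285632, nat_lit 2327616, nat_lit 3998721],
 .step (nat_lit 132) [nat_lit 2618464, nat_lit 2644065, nat_lit 3174434, nat_lit 2006018],
 .step (nat_lit 99) [nat_lit 2621505, nat_lit 2611264, nat_lit 2720770, nat_lit 3328000, nat_lit 2580480],
 .step (nat_lit 132) [nat_lit 152579, nat_lit 928864],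
 .step (nat_lit 4) [nat_lit 7169, nat_lit 4002816],
 .step (nat_lit 98) [nat_lit 1026049, nat_lit 3605504, nat_lit 2583553],
 .step (nat_lit 2) [nat_lit 48130, nat_lit 2989056],
 .step (nat_lit 99) [nat_lit 5122, nat_lit 3904512],
 .step (nat_lit 100) [nat_lit 2621504, nat_lit 2610240, nat_lit 2644032, nat_lit 1934401, nat_lit 2922497, nat_lit 1827905],
 .sym (nat_lit 5031) true false false (nat_lit 7) (nat_lit 8),
 .step (nat_lit 132) [nat_lit 801856, nat_lit 3893250],
 .step (nat_lit 101) [nat_lit 2644033, nat_lit 2078722, nat_lit 2868226, nat_lit 3796992],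
 .step (nat_lit 35) [nat_lit 2600960, nat_lit 1258498],
 .step (nat_lit 131) [nat_lit 6240, nat_lit 4009984],
 .sym (nat_lit 5036) true false false (nat_lit 4) (nat_lit 7),
 .sym (nat_lit 5036) true true true (nat_lit 4) (nat_lit 7),
 .sym (nat_lit 5036) false false true (nat_lit 4) (nat_lit 7),
 .sym (nat_lit 5036) false true true (nat_lit 4) (nat_lit 7),
 .sym (nat_lit 5036) true true false (nat_lit 4) (nat_lit 7),
 .sym (nat_lit 5036) true false true (nat_lit 4) (nat_lit 7),
 .sym (nat_lit 5036) false true false (nat_lit 4) (nat_lit 7),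
 .step (nat_lit 161) [nat_lit 8320, nat_lit 4012032],
 .step (nat_lit 70) [nat_lit 6179, nat_lit 4026368],
 .sym (nat_lit 5045) false true false (nat_lit 7) (nat_lit 2),
 .step (nat_lit 161) [nat_lit 1358848, nat_lit 4035648, nat_lit 4041760],
 .sym (nat_lit 5047) false true true (nat_lit 2) (nat_lit 8),
 .sym (nat_lit 5047) false false true (nat_lit 2) (nat_lit 8),
 .step (nat_lit 37) [nat_lit 1363969, nat_lit 1360896, nat_lit 4045826, nat_lit 4062209],
 .sym (nat_lit 5050) true false false (nat_lit 8) (nat_lit 2),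
 .sym (nat_lit 5050) false false true (nat_lit 8) (nat_lit 2),
 .sym (nat_lit 5050) true true false (nat_lit 8) (nat_lit 2),
 .sym (nat_lit 5050) true false true (nat_lit 8) (nat_lit 2),
 .step (nat_lit 97) [nat_lit 8256, nat_lit 4064256],
 .step (nat_lit 163) [nat_lit 2647074, nat_lit 2722816, nat_lit 2719808, nat_lit 1570816],
 .sym (nat_lit 5056) false true false (nat_lit 4) (nat_lit 8),
 .sym (nat_lit 5056) true false false (nat_lit 4) (nat_lit 8),
 .sym (nat_lit 5056) false false true (nat_lit 4) (nat_lit 8),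
 .sym (nat_lit 5056) false true true (nat_lit 4) (nat_lit 8),
 .step (nat_lit 66) [nat_lit 47138, nat_lit 4067328],
 .step (nat_lit 192) [nat_lit 15424, nat_lit 4077568],
 .sym (nat_lit 5062) true true false (nat_lit 4) (nat_lit 7),
 .step (nat_lit 66) [nat_lit 76865, nat_lit 1457152, nat_lit 4095009],
 .sym (nat_lit 5064) true false true (nat_lit 6) (nat_lit 6),
 .step (nat_lit 68) [nat_lit 6177, nat_lit 4103168],
 .sym (nat_lit 5066) true false true (nat_lit 5) (nat_lit 4),
 .sym (nat_lit 5066) true false false (nat_lit 5) (nat_lit 4),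
 .step (nat_lit 98) [nat_lit 499777, nat_lit 4067360, nat_lit 2767873],
 .sym (nat_lit 5069) true true true (nat_lit 7) (nat_lit 6),
 .step (nat_lit 35) [nat_lit 26656, nat_lit 4104192],
 .sym (nat_lit 5071) false true true (nat_lit 4) (nat_lit 5),
 .step (nat_lit 67) [nat_lit 1356803, nat_lit 1366018, nat_lit 1371170, nat_lit 4129824],
 .sym (nat_lit 5073) true true false (nat_lit 6) (nat_lit 6),
 .step (nat_lit 132) [nat_lit 1355779, nat_lit 1269795, nat_lit 1362947, nat_lit 4111360],
 .sym (nat_lit 5075) true true false (nat_lit 5) (nat_lit 6),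
 .step (nat_lit 34) [nat_lit 11266, nat_lit 4112384],
 .sym (nat_lit 5077) true false true (nat_lit 4) (nat_lit 5),
 .step (nat_lit 97) [nat_lit 8256, nat_lit 4113408],
 .step (nat_lit 97) [nat_lit 8256, nat_lit 4114432],
 .sym (nat_lit 5080) false true true (nat_lit 5) (nat_lit 5),
 .step (nat_lit 36) [nat_lit 10243, nat_lit 3122176],
 .step (nat_lit 66) [nat_lit 494625, nat_lit 2796608, nat_lit 4090881],
 .sym (nat_lit 5083) false true false (nat_lit 5) (nat_lit 7),
 .sym (nat_lit 5083) false true true (nat_lit 5) (nat_lit 7),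
 .sym (nat_lit 5083) false false true (nat_lit 5) (nat_lit 7),
 .step (nat_lit 67) [nat_lit 10275, nat_lit 4116480],
 .step (nat_lit 131) [nat_lit 10243, nat_lit 4119552],
 .step (nat_lit 65) [nat_lit 779264, nat_lit 4122656],
 .step (nat_lit 99) [nat_lit 5122, nat_lit 4123648],
 .sym (nat_lit 5090) false true true (nat_lit 5) (nat_lit 5),
 .step (nat_lit 99) [nat_lit 6208, nat_lit 4259840],
 .step (nat_lit 67) [nat_lit 7232, nat_lit 4128768],
 .step (nat_lit 163) [nat_lit 1269826, nat_lit 4035650, nat_lit 2634784, nat_lit 2834435, nat_lit 4057090],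
 .step (nat_lit 35) [nat_lit 1267713, nat_lit 1368066, nat_lit 4037632, nat_lit 2833408, nat_lit 4056065],
 .sym (nat_lit 5095) false true true (nat_lit 8) (nat_lit 2),
 .sym (nat_lit 5095) true true true (nat_lit 8) (nat_lit 2),
 .sym (nat_lit 5095) true true false (nat_lit 8) (nat_lit 2),
 .sym (nat_lit 5095) true false false (nat_lit 8) (nat_lit 2),
 .sym (nat_lit 5095) false true false (nat_lit 8) (nat_lit 2),
 .sym (nat_lit 5095) true false true (nat_lit 8) (nat_lit 2),
 .step (nat_lit 99) [nat_lit 1267776, nat_lit 66625, nat_lit 4130817],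
 .sym (nat_lit 5102) true true false (nat_lit 6) (nat_lit 6),
 .step (nat_lit 163) [nat_lit 2646050, nat_lit 2723842, nat_lit 3276802, nat_lit 4073506, nat_lit 4074496],
 .sym (nat_lit 5104) true true false (nat_lit 7) (nat_lit 8),
 .step (nat_lit 65) [nat_lit 8224, nat_lit 4131840],
 .step (nat_lit 99) [nat_lit 6208, nat_lit 4125697],
 .step (nat_lit 132) [nat_lit 5155, nat_lit 4139008],
 .step (nat_lit 97) [nat_lit 9312, nat_lit 4140032],
 .step (nat_lit 98) [nat_lit 4067360, nat_lit 2749504, nat_lit 1464352, nat_lit 2844704, nat_lit 4141056],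
 .step (nat_lit 67) [nat_lit 1267745, nat_lit 2595842, nat_lit 4036640, nat_lit 2831424, nat_lit 4053025],
 .sym (nat_lit 5111) true false false (nat_lit 8) (nat_lit 5),
 .sym (nat_lit 5111) true true true (nat_lit 8) (nat_lit 5),
 .sym (nat_lit 5111) true false true (nat_lit 8) (nat_lit 5),
 .sym (nat_lit 5111) true true false (nat_lit 8) (nat_lit 5),
 .sym (nat_lit 5111) false true true (nat_lit 8) (nat_lit 5),
 .sym (nat_lit 5111) false true false (nat_lit 8) (nat_lit 5),
 .step (nat_lit 35) [nat_lit 1351714, nat_lit 3672064, nat_lit 2832417, nat_lit 4022272],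
 .sym (nat_lit 5118) true false false (nat_lit 9) (nat_lit 2),
 .sym (nat_lit 5118) false true true (nat_lit 9) (nat_lit 2),
 .sym (nat_lit 5118) false false true (nat_lit 9) (nat_lit 2),
 .sym (nat_lit 5118) true false true (nat_lit 9) (nat_lit 2),
 .sym (nat_lit 5118) true true true (nat_lit 9) (nat_lit 2),
 .sym (nat_lit 5118) true true false (nat_lit 9) (nat_lit 2),
 .sym (nat_lit 5118) false true false (nat_lit 9) (nat_lit 2),
 .step (nat_lit 34) [nat_lit 10241, nat_lit 4142112],
 .sym (nat_lit 5126) false true false (nat_lit 2) (nat_lit 8),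
 .sym (nat_lit 5126) true false false (nat_lit 2) (nat_lit 8),
 .sym (nat_lit 5126) true false true (nat_lit 2) (nat_lit 8),
 .step (nat_lit 163) [nat_lit 74787, nat_lit 4143104],
 .step (nat_lit 100) [nat_lit 5123, nat_lit 4127776],
 .step (nat_lit 130) [nat_lit 1355777, nat_lit 1362945, nat_lit 4397088],
 .sym (nat_lit 5132) true false true (nat_lit 5) (nat_lit 6),
 .step (nat_lit 97) [nat_lit 576608, nat_lit 4075584, nat_lit 4154368, nat_lit 133216],
 .sym (nat_lit 5134) true false false (nat_lit 5) (nat_lit 7),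
 .sym (nat_lit 5134) true false true (nat_lit 5) (nat_lit 7),
 .step (nat_lit 100) [nat_lit 1381379, nat_lit 617537, nat_lit 4789312],
 .step (nat_lit 34) [nat_lit 1267712, nat_lit 4164610],
 .step (nat_lit 65) [nat_lit 13345, nat_lit 4165632],
 .step (nat_lit 65) [nat_lit 9280, nat_lit 4166656],
 .step (nat_lit 68) [nat_lit 589827, nat_lit 2678850, nat_lit 2732064, nat_lit 4167682],
 .sym (nat_lit 5141) true false true (nat_lit 7) (nat_lit 8),
 .step (nat_lit 33) [nat_lit 5153, nat_lit 4170752],
 .sym (nat_lit 5143) true false true (nat_lit 5) (nat_lit 5),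
 .step (nat_lit 129) [nat_lit 134273, nat_lit 663617, nat_lit 2916416, nat_lit 4172800],
 .sym (nat_lit 5145) true true false (nat_lit 2) (nat_lit 8),
 .sym (nat_lit 5145) true false false (nat_lit 2) (nat_lit 8),
 .sym (nat_lit 5145) false true false (nat_lit 2) (nat_lit 8),
 .sym (nat_lit 5145) true true true (nat_lit 2) (nat_lit 8),
 .step (nat_lit 100) [nat_lit 1351776, nat_lit 1365056, nat_lit 1368128, nat_lit 4174848],
 .step (nat_lit 97) [nat_lit 12289, nat_lit 4176896],
 .sym (nat_lit 5151) true true false (nat_lit 6) (nat_lit 4),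
 .sym (nat_lit 5151) true false true (nat_lit 6) (nat_lit 4),
 .sym (nat_lit 5151) false false true (nat_lit 6) (nat_lit 4),
 .sym (nat_lit 5151) false true true (nat_lit 6) (nat_lit 4),
 .sym (nat_lit 5151) true true true (nat_lit 6) (nat_lit 4),
 .step (nat_lit 132) [nat_lit 116769, nat_lit 538658, nat_lit 4185088],
 .step (nat_lit 37) [nat_lit 56321, nat_lit 3666945, nat_lit 1418240],
 .step (nat_lit 100) [nat_lit 48192, nat_lit 4097025],
 .sym (nat_lit 5159) true true false (nat_lit 6) (nat_lit 5),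
 .step (nat_lit 132) [nat_lit 64515, nat_lit 4187168],
 .step (nat_lit 129) [nat_lit 8288, nat_lit 4192257],
 .step (nat_lit 161) [nat_lit 13441, nat_lit 4194304],
 .step (nat_lit 97) [nat_lit 25696, nat_lit 4196352],
 .step (nat_lit 67) [nat_lit 490499, nat_lit 2526209, nat_lit 4199456],
 .step (nat_lit 130) [nat_lit 1355777, nat_lit 1269793, nat_lit 4201472],
 .step (nat_lit 165) [nat_lit 18468, nat_lit 4203520],
 .step (nat_lit 100) [nat_lit 21600, nat_lit 4207617],
 .step (nat_lit 129) [nat_lit 7265, nat_lit 4210688],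
 .step (nat_lit 32) [nat_lit 17440, nat_lit 4212736],
 .sym (nat_lit 5170) true true false (nat_lit 5) (nat_lit 7),
 .step (nat_lit 65) [nat_lit 13345, nat_lit 4217856],
 .sym (nat_lit 5172) true true false (nat_lit 5) (nat_lit 5),
 .sym (nat_lit 5172) true false false (nat_lit 5) (nat_lit 5),
 .sym (nat_lit 5172) true true true (nat_lit 5) (nat_lit 5),
 .sym (nat_lit 5172) false true false (nat_lit 5) (nat_lit 5),
 .step (nat_lit 132) [nat_lit 12323, nat_lit 4218880],
 .step (nat_lit 65) [nat_lit 9280, nat_lit 4219904],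
 .step (nat_lit 163) [nat_lit 27714, nat_lit 4237312],
 .step (nat_lit 133) [nat_lit 2622560, nat_lit 2078754, nat_lit 2398304, nat_lit 2890784, nat_lit 2979842],
 .step (nat_lit 34) [nat_lit 35841, nat_lit 4188192],
 .step (nat_lit 99) [nat_lit 5097536, nat_lit 5019648, nat_lit 4220929, nat_lit 5030912],
 .step (nat_lit 161) [nat_lit 46144, nat_lit 4221952],
 .step (nat_lit 131) [nat_lit 8290, nat_lit 4227072],
 .step (nat_lit 68) [nat_lit 16416, nat_lit 4235264],
 .step (nat_lit 66) [nat_lit 46082, nat_lit 4239424],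
 .step (nat_lit 34) [nat_lit 13345, nat_lit 4244480],
 .step (nat_lit 165) [nat_lit 5096448, nat_lit 5020736, nat_lit 4938752, nat_lit 4245507, nat_lit 4939776],
 .step (nat_lit 129) [nat_lit 5249, nat_lit 4247552],
 .step (nat_lit 99) [nat_lit 10243, nat_lit 4258848],
 .step (nat_lit 164) [nat_lit 27715, nat_lit 4260864],
 .step (nat_lit 100) [nat_lit 5123, nat_lit 4261888],
 .sym (nat_lit 5192) true false false (nat_lit 5) (nat_lit 4),
 .step (nat_lit 98) [nat_lit 23586, nat_lit 4262912],
 .step (nat_lit 4) [nat_lit 47106, nat_lit 4263936],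
 .step (nat_lit 97) [nat_lit 1270816, nat_lit 3059713, nat_lit 4232192, nat_lit 2975776],
 .step (nat_lit 130) [nat_lit 18433, nat_lit 4264992],
 .step (nat_lit 68) [nat_lit 47170, nat_lit 4186112],
 .step (nat_lit 65) [nat_lit 194592, nat_lit 1773568, nat_lit 4266016],
 .step (nat_lit 99) [nat_lit 2625570, nat_lit 1424384, nat_lit 2719808, nat_lit 4268032],
 .sym (nat_lit 5200) false false true (nat_lit 5) (nat_lit 8),
 .sym (nat_lit 5200) true true false (nat_lit 5) (nat_lit 8),
 .step (nat_lit 133) [nat_lit 18436, nat_lit 4271136],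
 .step (nat_lit 98) [nat_lit 8257, nat_lit 4272128],
 .step (nat_lit 34) [nat_lit 9217, nat_lit 4274176],
 .step (nat_lit 66) [nat_lit 657441, nat_lit 524321, nat_lit 3061824, nat_lit 4215809],
 .step (nat_lit 97) [nat_lit 2998304, nat_lit 4275200, nat_lit 4276256, nat_lit 3063872],
 .step (nat_lit 259) [nat_lit 33923, nat_lit 4277248],
 .step (nat_lit 35) [nat_lit 143363, nat_lit 1427456, nat_lit 4278272],
 .step (nat_lit 99) [nat_lit 872514, nat_lit 4278336, nat_lit 1844258, nat_lit 4280320, nat_lit 4279328],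
 .step (nat_lit 33) [nat_lit 25632, nat_lit 4288512],
 .step (nat_lit 99) [nat_lit 24641, nat_lit 4291584],
 .sym (nat_lit 5212) false false true (nat_lit 5) (nat_lit 6),
 .step (nat_lit 97) [nat_lit 12289, nat_lit 4299776],
 .step (nat_lit 36) [nat_lit 1268737, nat_lit 57376, nat_lit 4032513, nat_lit 3086336],
 .sym (nat_lit 5215) false true false (nat_lit 7) (nat_lit 2),
 .sym (nat_lit 5215) true false true (nat_lit 7) (nat_lit 2),
 .sym (nat_lit 5215) false true true (nat_lit 7) (nat_lit 2),
 .sym (nat_lit 5215) true true false (nat_lit 7) (nat_lit 2),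
 .sym (nat_lit 5215) true false false (nat_lit 7) (nat_lit 2),
 .step (nat_lit 97) [nat_lit 5121, nat_lit 4301824],
 .step (nat_lit 69) [nat_lit 11300, nat_lit 4307968],
 .step (nat_lit 66) [nat_lit 583744, nat_lit 2677826, nat_lit 2736161, nat_lit 4250624],
 .sym (nat_lit 5223) true true false (nat_lit 8) (nat_lit 6),
 .sym (nat_lit 5223) true false false (nat_lit 8) (nat_lit 6),
 .sym (nat_lit 5223) true true true (nat_lit 8) (nat_lit 6),
 .step (nat_lit 130) [nat_lit 165921, nat_lit 1900545, nat_lit 4314112],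
 .step (nat_lit 67) [nat_lit 24608, nat_lit 4322304],
 .step (nat_lit 1) [nat_lit 20481, nat_lit 4324352],
 .step (nat_lit 6) [nat_lit 19458, nat_lit 4325376],
 .step (nat_lit 100) [nat_lit 22532, nat_lit 4229120],
 .step (nat_lit 131) [nat_lit 12323, nat_lit 5093376],
 .step (nat_lit 36) [nat_lit 11268, nat_lit 4329504],
 .step (nat_lit 36) [nat_lit 2884608, nat_lit 3120129, nat_lit 3121152, nat_lit 2892801, nat_lit 4330496],
 .step (nat_lit 163) [nat_lit 4049986, nat_lit 896000, nat_lit 1924096],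
 .step (nat_lit 131) [nat_lit 32896, nat_lit 4332545],
 .step (nat_lit 98) [nat_lit 12290, nat_lit 4335616],
 .step (nat_lit 33) [nat_lit 66560, nat_lit 4226048],
 .sym (nat_lit 5238) false true false (nat_lit 5) (nat_lit 5),
 .step (nat_lit 130) [nat_lit 1355777, nat_lit 1362945, nat_lit 4342784],
 .sym (nat_lit 5240) false false true (nat_lit 5) (nat_lit 6),
 .sym (nat_lit 5240) true false true (nat_lit 5) (nat_lit 6),
 .sym (nat_lit 5240) false true true (nat_lit 5) (nat_lit 6),
 .step (nat_lit 129) [nat_lit 1026080, nat_lit 3148800, nat_lit 4344864, nat_lit 4343808],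
 .step (nat_lit 132) [nat_lit 157824, nat_lit 3149824, nat_lit 4345857],
 .step (nat_lit 101) [nat_lit 1359936, nat_lit 3667009, nat_lit 3041345, nat_lit 4347904],
 .sym (nat_lit 5246) true false false (nat_lit 8) (nat_lit 7),
 .step (nat_lit 35) [nat_lit 23555, nat_lit 4287488],
 .step (nat_lit 100) [nat_lit 12292, nat_lit 4353024]]

theorem c5000 : checkFrom tbl r5000 (nat_lit 5250) (nat_lit 5000) = true := by decide +kernel

noncomputable def r7000 : List Rule := [
 .step (nat_lit 162) [nat_lit 493570, nat_lit 485378, nat_lit 2768961, nat_lit 6789120],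
 .step (nat_lit 192) [nat_lit 15424, nat_lit 6792192],
 .step (nat_lit 99) [nat_lit 3443714, nat_lit 3518465, nat_lit 4571138, nat_lit 6794240, nat_lit 6240257],
 .step (nat_lit 37) [nat_lit 29699, nat_lit 6795264],
 .step (nat_lit 99) [nat_lit 3458080, nat_lit 6796322, nat_lit 4585474, nat_lit 5539873, nat_lit 5540898, nat_lit 6243330],
 .step (nat_lit 99) [nat_lit 1355778, nat_lit 734243, nat_lit 6797312],
 .step (nat_lit 67) [nat_lit 1357859, nat_lit 1270786, nat_lit 6804480],
 .step (nat_lit 68) [nat_lit 500801, nat_lit 5553153, nat_lit 6805504],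
 .step (nat_lit 133) [nat_lit 5991458, nat_lit 3241056, nat_lit 3242080, nat_lit 6772736],
 .step (nat_lit 100) [nat_lit 493571, nat_lit 3188800, nat_lit 6806528, nat_lit 6959106],
 .step (nat_lit 99) [nat_lit 141408, nat_lit 6645762, nat_lit 1599552, nat_lit 4233216],
 .step (nat_lit 99) [nat_lit 37984, nat_lit 6807552],
 .step (nat_lit 161) [nat_lit 2035712, nat_lit 6809664, nat_lit 6808672, nat_lit 6810688],
 .step (nat_lit 38) [nat_lit 14373, nat_lit 6812672],
 .step (nat_lit 67) [nat_lit 9248, nat_lit 6813696],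
 .step (nat_lit 4) [nat_lit 7169, nat_lit 6815744],
 .step (nat_lit 65) [nat_lit 13345, nat_lit 6816768],
 .step (nat_lit 163) [nat_lit 15395, nat_lit 6817792],
 .step (nat_lit 68) [nat_lit 1364000, nat_lit 1352736, nat_lit 6043648],
 .sym (nat_lit 7018) true true false (nat_lit 6) (nat_lit 5),
 .sym (nat_lit 7018) true false true (nat_lit 6) (nat_lit 5),
 .step (nat_lit 6) [nat_lit 14341, nat_lit 6822912],
 .step (nat_lit 131) [nat_lit 4036704, nat_lit 4047968, nat_lit 5999648, nat_lit 6823938],
 .step (nat_lit 129) [nat_lit 12321, nat_lit 6827008],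
 .step (nat_lit 166) [nat_lit 4755490, nat_lit 5460096, nat_lit 5664800, nat_lit 4748321, nat_lit 6828066, nat_lit 4641794],
 .step (nat_lit 3) [nat_lit 20483, nat_lit 6829056],
 .step (nat_lit 101) [nat_lit 2644033, nat_lit 2864192, nat_lit 5594114, nat_lit 4151360, nat_lit 5868545],
 .step (nat_lit 2) [nat_lit 20482, nat_lit 6832128],
 .step (nat_lit 68) [nat_lit 7233, nat_lit 6834176],
 .step (nat_lit 37) [nat_lit 6179, nat_lit 6837248],
 .step (nat_lit 163) [nat_lit 7297, nat_lit 6838272],
 .step (nat_lit 163) [nat_lit 1886210, nat_lit 4311106, nat_lit 5595200, nat_lit 5155872],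
 .step (nat_lit 131) [nat_lit 1269794, nat_lit 1373184, nat_lit 6842368],
 .step (nat_lit 165) [nat_lit 220321, nat_lit 227489, nat_lit 281761, nat_lit 6843392],
 .step (nat_lit 132) [nat_lit 494659, nat_lit 486467, nat_lit 2774019, nat_lit 6846528],
 .step (nat_lit 196) [nat_lit 5220, nat_lit 6848512],
 .step (nat_lit 101) [nat_lit 1424386, nat_lit 1037378, nat_lit 6850560],
 .step (nat_lit 132) [nat_lit 2616416, nat_lit 2589792, nat_lit 3209218, nat_lit 3655712],
 .step (nat_lit 100) [nat_lit 6309953, nat_lit 4161539, nat_lit 6455328, nat_lit 4724768, nat_lit 5646337, nat_lit 6853665, nat_lit 5881857],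
 .step (nat_lit 68) [nat_lit 486435, nat_lit 494627, nat_lit 6854656],
 .step (nat_lit 98) [nat_lit 5121, nat_lit 6856704],
 .step (nat_lit 131) [nat_lit 2624578, nat_lit 2614306, nat_lit 2719840, nat_lit 4078656, nat_lit 6688801, nat_lit 6008832],
 .step (nat_lit 66) [nat_lit 1351744, nat_lit 1352736, nat_lit 6044672],
 .step (nat_lit 165) [nat_lit 935040, nat_lit 6857857, nat_lit 6732802, nat_lit 6147138],
 .step (nat_lit 131) [nat_lit 485379, nat_lit 490563, nat_lit 2657282, nat_lit 6859840],
 .step (nat_lit 99) [nat_lit 2646018, nat_lit 2615298, nat_lit 6624289, nat_lit 5219330, nat_lit 4747264, nat_lit 5663744, nat_lit 5360640],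
 .step (nat_lit 97) [nat_lit 20577, nat_lit 6861824],
 .step (nat_lit 36) [nat_lit 38944, nat_lit 6862849],
 .step (nat_lit 134) [nat_lit 2966594, nat_lit 4494371, nat_lit 912418, nat_lit 6864896],
 .step (nat_lit 67) [nat_lit 1966115, nat_lit 6866944],
 .step (nat_lit 129) [nat_lit 22624, nat_lit 6871040],
 .step (nat_lit 67) [nat_lit 8226, nat_lit 6874112],
 .sym (nat_lit 7051) true false false (nat_lit 7) (nat_lit 5),
 .step (nat_lit 6) [nat_lit 19458, nat_lit 6875136],
 .step (nat_lit 132) [nat_lit 116769, nat_lit 538658, nat_lit 6683648],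
 .step (nat_lit 195) [nat_lit 1768610, nat_lit 6016064, nat_lit 6358048, nat_lit 6836225],
 .step (nat_lit 99) [nat_lit 2791426, nat_lit 2792450, nat_lit 4031489, nat_lit 2637826, nat_lit 6820866, nat_lit 6876192],
 .step (nat_lit 69) [nat_lit 2913284, nat_lit 1683492, nat_lit 6363170, nat_lit 6438914, nat_lit 5692416],
 .sym (nat_lit 7057) true false false (nat_lit 8) (nat_lit 6),
 .sym (nat_lit 7057) false true false (nat_lit 8) (nat_lit 6),
 .step (nat_lit 99) [nat_lit 2645056, nat_lit 2621505, nat_lit 2611264, nat_lit 6622240, nat_lit 4146176, nat_lit 4157442, nat_lit 6049857],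
 .sym (nat_lit 7060) true true false (nat_lit 8) (nat_lit 6),
 .step (nat_lit 38) [nat_lit 7203, nat_lit 6884352],
 .step (nat_lit 134) [nat_lit 2808865, nat_lit 4702241, nat_lit 5705824, nat_lit 6890499],
 .sym (nat_lit 7063) true false false (nat_lit 11) (nat_lit 8),
 .step (nat_lit 164) [nat_lit 2620419, nat_lit 2614275, nat_lit 2594819, nat_lit 6621249, nat_lit 6628352],
 .step (nat_lit 67) [nat_lit 2642976, nat_lit 2589728, nat_lit 2593824, nat_lit 6622208, nat_lit 6369280],
 .sym (nat_lit 7066) false true false (nat_lit 7) (nat_lit 7),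
 .step (nat_lit 34) [nat_lit 2258944, nat_lit 1003522, nat_lit 6893568],
 .step (nat_lit 132) [nat_lit 2643041, nat_lit 5217376, nat_lit 2524259, nat_lit 6936577, nat_lit 4814915],
 .step (nat_lit 131) [nat_lit 1269794, nat_lit 2632704, nat_lit 6894592],
 .step (nat_lit 99) [nat_lit 2230336, nat_lit 3008514, nat_lit 6796352],
 .step (nat_lit 99) [nat_lit 1356835, nat_lit 6019136, nat_lit 5456898, nat_lit 6896704],
 .step (nat_lit 131) [nat_lit 2647042, nat_lit 1376291, nat_lit 1402914, nat_lit 6897664],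
 .step (nat_lit 68) [nat_lit 1270787, nat_lit 6898752],
 .step (nat_lit 101) [nat_lit 4710402, nat_lit 4406305, nat_lit 5412865, nat_lit 6900736],
 .step (nat_lit 131) [nat_lit 38016, nat_lit 6901760],
 .step (nat_lit 131) [nat_lit 5721121, nat_lit 2412577, nat_lit 5825536, nat_lit 6472705, nat_lit 6902785],
 .step (nat_lit 66) [nat_lit 29728, nat_lit 6687745],
 .step (nat_lit 133) [nat_lit 1360994, nat_lit 2163715, nat_lit 6903840],
 .step (nat_lit 164) [nat_lit 2712643, nat_lit 425056, nat_lit 6904832],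
 .step (nat_lit 131) [nat_lit 1993728, nat_lit 6906880, nat_lit 6905856, nat_lit 6382624],
 .step (nat_lit 132) [nat_lit 1267810, nat_lit 1059843, nat_lit 5452833, nat_lit 6903840],
 .step (nat_lit 132) [nat_lit 1053729, nat_lit 1993729, nat_lit 6204449, nat_lit 6384640],
 .step (nat_lit 99) [nat_lit 2616384, nat_lit 2078722, nat_lit 2890752, nat_lit 4881408, nat_lit 6909952],
 .step (nat_lit 131) [nat_lit 4846624, nat_lit 1285123, nat_lit 6961153],
 .step (nat_lit 226) [nat_lit 3570785, nat_lit 3716224, nat_lit 3614849, nat_lit 6910977, nat_lit 4848769],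
 .step (nat_lit 100) [nat_lit 717827, nat_lit 2788387, nat_lit 970756, nat_lit 6819872],
 .step (nat_lit 226) [nat_lit 5299329, nat_lit 3570785, nat_lit 3716224, nat_lit 6910977, nat_lit 6391937],
 .step (nat_lit 132) [nat_lit 2991108, nat_lit 6912032, nat_lit 5739521, nat_lit 5740545],
 .step (nat_lit 70) [nat_lit 6211, nat_lit 6913024],
 .step (nat_lit 102) [nat_lit 2666563, nat_lit 714818, nat_lit 6916096],
 .step (nat_lit 195) [nat_lit 4149344, nat_lit 2042912, nat_lit 5494784, nat_lit 6399072],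
 .step (nat_lit 131) [nat_lit 2624514, nat_lit 2615298, nat_lit 6624289, nat_lit 2024480, nat_lit 6254624, nat_lit 5687297],
 .step (nat_lit 66) [nat_lit 29728, nat_lit 6917121],
 .step (nat_lit 100) [nat_lit 2610241, nat_lit 4473858, nat_lit 3309568, nat_lit 5458944, nat_lit 6918145],
 .step (nat_lit 132) [nat_lit 6241, nat_lit 6919168],
 .step (nat_lit 98) [nat_lit 154689, nat_lit 2403329, nat_lit 6924288],
 .step (nat_lit 197) [nat_lit 2646084, nat_lit 3162178, nat_lit 3067970, nat_lit 6015106, nat_lit 6925312],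
 .step (nat_lit 69) [nat_lit 472068, nat_lit 5343236, nat_lit 825346, nat_lit 6926336],
 .step (nat_lit 163) [nat_lit 2647074, nat_lit 2620418, nat_lit 2613282, nat_lit 5223458, nat_lit 4159489, nat_lit 6050818, nat_lit 6179904],
 .step (nat_lit 163) [nat_lit 5984256, nat_lit 4149312, nat_lit 5245954, nat_lit 5365825, nat_lit 6003746],
 .step (nat_lit 133) [nat_lit 3370017, nat_lit 3760132, nat_lit 1118244, nat_lit 7041024],
 .step (nat_lit 68) [nat_lit 17476, nat_lit 6929408],
 .step (nat_lit 98) [nat_lit 29760, nat_lit 6690817],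
 .step (nat_lit 133) [nat_lit 4069442, nat_lit 2748512, nat_lit 4099107, nat_lit 4081698, nat_lit 4126786, nat_lit 6758401],
 .sym (nat_lit 7105) true false true (nat_lit 8) (nat_lit 7),
 .step (nat_lit 164) [nat_lit 2624547, nat_lit 1174592, nat_lit 6930432],
 .step (nat_lit 166) [nat_lit 2646053, nat_lit 2624549, nat_lit 2615333, nat_lit 6686788, nat_lit 3392576, nat_lit 3168259, nat_lit 6783040],
 .step (nat_lit 68) [nat_lit 440322, nat_lit 6934528],
 .step (nat_lit 129) [nat_lit 490561, nat_lit 2657280, nat_lit 3787840, nat_lit 6249504],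
 .step (nat_lit 66) [nat_lit 21536, nat_lit 6939648],
 .step (nat_lit 35) [nat_lit 37920, nat_lit 6254592],
 .step (nat_lit 99) [nat_lit 6309952, nat_lit 4934656, nat_lit 5151745, nat_lit 4935745, nat_lit 6432768],
 .step (nat_lit 133) [nat_lit 2996227, nat_lit 6091776, nat_lit 4255744],
 .sym (nat_lit 7114) true false false (nat_lit 7) (nat_lit 5),
 .step (nat_lit 133) [nat_lit 2622560, nat_lit 2611296, nat_lit 2593888, nat_lit 6625314, nat_lit 6055936],
 .step (nat_lit 98) [nat_lit 1904642, nat_lit 3148833, nat_lit 2474049, nat_lit 6946880],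
 .step (nat_lit 99) [nat_lit 2620418, nat_lit 2614274, nat_lit 6715392, nat_lit 6445121],
 .sym (nat_lit 7118) true false false (nat_lit 7) (nat_lit 10),
 .step (nat_lit 131) [nat_lit 133250, nat_lit 4711458, nat_lit 5767168, nat_lit 6784032],
 .step (nat_lit 100) [nat_lit 238595, nat_lit 4713472, nat_lit 6949888, nat_lit 6950912],
 .step (nat_lit 132) [nat_lit 5979139, nat_lit 4108353, nat_lit 4146209, nat_lit 5526624, nat_lit 4544545, nat_lit 6718464],
 .step (nat_lit 97) [nat_lit 522336, nat_lit 3075072, nat_lit 6716416],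
 .step (nat_lit 133) [nat_lit 4069442, nat_lit 2748512, nat_lit 4086818, nat_lit 4081698, nat_lit 4922403, nat_lit 6637568],
 .sym (nat_lit 7124) false true true (nat_lit 7) (nat_lit 7),
 .sym (nat_lit 7124) true true false (nat_lit 7) (nat_lit 7),
 .sym (nat_lit 7124) true false true (nat_lit 7) (nat_lit 7),
 .sym (nat_lit 7124) false false true (nat_lit 7) (nat_lit 7),
 .step (nat_lit 229) [nat_lit 5270533, nat_lit 6881409, nat_lit 6953024, nat_lit 6460481, nat_lit 6053953],
 .step (nat_lit 69) [nat_lit 95298, nat_lit 597026, nat_lit 6953984],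
 .step (nat_lit 163) [nat_lit 6621248, nat_lit 5223458, nat_lit 2042880, nat_lit 5045280],
 .step (nat_lit 164) [nat_lit 496707, nat_lit 6478849, nat_lit 6968352],
 .step (nat_lit 161) [nat_lit 2226208, nat_lit 3420160, nat_lit 4974592, nat_lit 6969408],
 .step (nat_lit 99) [nat_lit 2645056, nat_lit 3171328, nat_lit 2269184, nat_lit 5833730],
 .step (nat_lit 165) [nat_lit 488452, nat_lit 2654276, nat_lit 2768964, nat_lit 6970368],
 .step (nat_lit 133) [nat_lit 2656354, nat_lit 5350432, nat_lit 4214849, nat_lit 4248578, nat_lit 3819584],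
 .step (nat_lit 227) [nat_lit 6260864, nat_lit 6270979, nat_lit 5837920, nat_lit 5838944],
 .step (nat_lit 129) [nat_lit 576640, nat_lit 4711456, nat_lit 6312992, nat_lit 4536320],
 .step (nat_lit 101) [nat_lit 2641985, nat_lit 2617409, nat_lit 5221441, nat_lit 5366818, nat_lit 3957824, nat_lit 5371905, nat_lit 4979712],
 .step (nat_lit 131) [nat_lit 2646018, nat_lit 2624514, nat_lit 2615298, nat_lit 6624289, nat_lit 2063392, nat_lit 5755904],
 .step (nat_lit 165) [nat_lit 684162, nat_lit 6973475, nat_lit 6974464, nat_lit 6492194],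
 .step (nat_lit 101) [nat_lit 497730, nat_lit 2900993, nat_lit 6976577, nat_lit 6811648],
 .step (nat_lit 162) [nat_lit 12354, nat_lit 6979584],
 .step (nat_lit 132) [nat_lit 4295713, nat_lit 5858338, nat_lit 6962240, nat_lit 6501377],
 .step (nat_lit 196) [nat_lit 2594851, nat_lit 6621281, nat_lit 4017250, nat_lit 6506529, nat_lit 5865504, nat_lit 6984704],
 .step (nat_lit 130) [nat_lit 1360992, nat_lit 5157921, nat_lit 6670337],
 .step (nat_lit 165) [nat_lit 5268484, nat_lit 4161604, nat_lit 3727429, nat_lit 5605441, nat_lit 5478532, nat_lit 5585985, nat_lit 6989888],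
 .step (nat_lit 101) [nat_lit 1269764, nat_lit 3457024, nat_lit 6991873, nat_lit 6992897, nat_lit 2520066],
 .step (nat_lit 35) [nat_lit 10242, nat_lit 7005184],
 .step (nat_lit 163) [nat_lit 5190720, nat_lit 5191712, nat_lit 6527008, nat_lit 5879841, nat_lit 7006209],
 .step (nat_lit 101) [nat_lit 2790466, nat_lit 5980162, nat_lit 2789442, nat_lit 4030465, nat_lit 7008256],
 .step (nat_lit 132) [nat_lit 5269604, nat_lit 6309985, nat_lit 4190241, nat_lit 5712928, nat_lit 6680577, nat_lit 6895649],
 .step (nat_lit 130) [nat_lit 1354880, nat_lit 1359968, nat_lit 7007233],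
 .step (nat_lit 132) [nat_lit 6259745, nat_lit 5783553, nat_lit 6060096],
 .step (nat_lit 100) [nat_lit 4190208, nat_lit 5019648, nat_lit 4662273, nat_lit 5151745, nat_lit 1780739],
 .step (nat_lit 133) [nat_lit 2789474, nat_lit 5979138, nat_lit 2790498, nat_lit 6661154, nat_lit 6664224],
 .step (nat_lit 68) [nat_lit 2645025, nat_lit 2588706, nat_lit 6622209, nat_lit 5222432, nat_lit 5240864, nat_lit 6001696, nat_lit 6627331],
 .sym (nat_lit 7157) false true false (nat_lit 9) (nat_lit 6),
 .sym (nat_lit 7157) true true true (nat_lit 9) (nat_lit 6),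
 .sym (nat_lit 7157) true false false (nat_lit 9) (nat_lit 6),
 .sym (nat_lit 7157) true false true (nat_lit 9) (nat_lit 6),
 .sym (nat_lit 7157) false false true (nat_lit 9) (nat_lit 6),
 .step (nat_lit 165) [nat_lit 2707616, nat_lit 6259778, nat_lit 5783586, nat_lit 6956064, nat_lit 6957057],
 .step (nat_lit 163) [nat_lit 4539392, nat_lit 4601920, nat_lit 7010338],
 .step (nat_lit 131) [nat_lit 486435, nat_lit 6744064],
 .step (nat_lit 197) [nat_lit 5235778, nat_lit 5236803, nat_lit 6036609, nat_lit 5895169, nat_lit 5890112, nat_lit 7012416],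
 .step (nat_lit 194) [nat_lit 15426, nat_lit 7016448],
 .step (nat_lit 133) [nat_lit 3670020, nat_lit 6773762, nat_lit 6464546, nat_lit 6503426, nat_lit 6168576],
 .step (nat_lit 131) [nat_lit 3670018, nat_lit 6773760, nat_lit 6464544, nat_lit 5900288],
 .step (nat_lit 67) [nat_lit 17475, nat_lit 7018496],
 .step (nat_lit 163) [nat_lit 6272, nat_lit 6801408],
 .step (nat_lit 132) [nat_lit 735332, nat_lit 6549536, nat_lit 7020544],
 .step (nat_lit 101) [nat_lit 5982208, nat_lit 5349376, nat_lit 4543522, nat_lit 6717474, nat_lit 5787712],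
 .step (nat_lit 131) [nat_lit 1354880, nat_lit 4546560, nat_lit 3832865, nat_lit 4553760, nat_lit 6967329],
 .step (nat_lit 97) [nat_lit 1090561, nat_lit 2228224, nat_lit 4559904, nat_lit 7024672],
 .step (nat_lit 165) [nat_lit 485381, nat_lit 2768964, nat_lit 493573, nat_lit 6790176],
 .step (nat_lit 166) [nat_lit 4148291, nat_lit 1192965, nat_lit 7026720],
 .step (nat_lit 68) [nat_lit 440322, nat_lit 7027776],
 .step (nat_lit 131) [nat_lit 5521442, nat_lit 7028736, nat_lit 6561792, nat_lit 6562818, nat_lit 7029760],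
 .step (nat_lit 163) [nat_lit 485379, nat_lit 2768962, nat_lit 493571, nat_lit 7030784],
 .step (nat_lit 163) [nat_lit 133250, nat_lit 2226210, nat_lit 5920770, nat_lit 7028768],
 .step (nat_lit 164) [nat_lit 1191937, nat_lit 7031904, nat_lit 7032833],
 .step (nat_lit 196) [nat_lit 1333283, nat_lit 5922849, nat_lit 7033856],
 .step (nat_lit 5) [nat_lit 37890, nat_lit 7034880],
 .step (nat_lit 129) [nat_lit 9344, nat_lit 7036928],
 .step (nat_lit 165) [nat_lit 464005, nat_lit 7037952],
 .step (nat_lit 133) [nat_lit 3370017, nat_lit 4360225, nat_lit 5090340, nat_lit 7042049, nat_lit 5933088],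
 .step (nat_lit 100) [nat_lit 1351776, nat_lit 1365056, nat_lit 1368128, nat_lit 6728704],
 .step (nat_lit 132) [nat_lit 2647043, nat_lit 2646019, nat_lit 2803747, nat_lit 4029441, nat_lit 2626563, nat_lit 7047168],
 .step (nat_lit 100) [nat_lit 2616384, nat_lit 2589760, nat_lit 2993152, nat_lit 4473858],
 .step (nat_lit 165) [nat_lit 2914340, nat_lit 1126434, nat_lit 7048192],
 .step (nat_lit 101) [nat_lit 657412, nat_lit 3680257, nat_lit 7049217, nat_lit 7050240],
 .step (nat_lit 65) [nat_lit 39968, nat_lit 7053312],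
 .step (nat_lit 69) [nat_lit 2773026, nat_lit 6620162, nat_lit 2715681, nat_lit 2704417, nat_lit 6785024],
 .sym (nat_lit 7194) true false true (nat_lit 8) (nat_lit 6),
 .step (nat_lit 132) [nat_lit 927779, nat_lit 6108192, nat_lit 6175747, nat_lit 7055360],
 .step (nat_lit 99) [nat_lit 924768, nat_lit 2108416, nat_lit 4459520, nat_lit 6191104, nat_lit 6588416],
 .step (nat_lit 163) [nat_lit 2150465, nat_lit 4520994, nat_lit 7059456],
 .step (nat_lit 133) [nat_lit 578565, nat_lit 4712482, nat_lit 6631424, nat_lit 7060480],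
 .step (nat_lit 162) [nat_lit 5117952, nat_lit 1864768, nat_lit 7062593],
 .step (nat_lit 99) [nat_lit 1351778, nat_lit 1267777, nat_lit 2839554, nat_lit 7064576],
 .step (nat_lit 129) [nat_lit 8288, nat_lit 7065601],
 .step (nat_lit 68) [nat_lit 1351744, nat_lit 462881, nat_lit 6681600],
 .step (nat_lit 164) [nat_lit 4709409, nat_lit 4359201, nat_lit 4943873, nat_lit 6197249, nat_lit 6080641, nat_lit 6764608],
 .step (nat_lit 133) [nat_lit 5237793, nat_lit 5234753, nat_lit 6772736, nat_lit 6035491, nat_lit 6766624, nat_lit 6767648],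
 .step (nat_lit 100) [nat_lit 656388, nat_lit 6650912, nat_lit 4696064, nat_lit 5131264],
 .step (nat_lit 131) [nat_lit 487520, nat_lit 6604800, nat_lit 4960258],
 .sym (nat_lit 7207) false true false (nat_lit 6) (nat_lit 8),
 .step (nat_lit 100) [nat_lit 656388, nat_lit 5844993, nat_lit 7066624, nat_lit 5132289],
 .step (nat_lit 228) [nat_lit 5270532, nat_lit 4995104, nat_lit 5963840, nat_lit 7067680],
 .step (nat_lit 98) [nat_lit 2648065, nat_lit 2620417, nat_lit 3172353, nat_lit 1817664, nat_lit 6947905],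
 .step (nat_lit 102) [nat_lit 2254917, nat_lit 5039171, nat_lit 6726656, nat_lit 6607905],
 .step (nat_lit 67) [nat_lit 2642976, nat_lit 2886689, nat_lit 3147777, nat_lit 3744769, nat_lit 6134784, nat_lit 5369858, nat_lit 7071744],
 .step (nat_lit 130) [nat_lit 2980897, nat_lit 7001153, nat_lit 7072802, nat_lit 5967904, nat_lit 5966849],
 .step (nat_lit 132) [nat_lit 485380, nat_lit 493572, nat_lit 7075904],
 .sym (nat_lit 7215) false true false (nat_lit 9) (nat_lit 8),
 .sym (nat_lit 7215) true false false (nat_lit 9) (nat_lit 8),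
 .step (nat_lit 99) [nat_lit 5980160, nat_lit 2789440, nat_lit 2790464, nat_lit 5998592, nat_lit 5436416],
 .sym (nat_lit 7218) true false false (nat_lit 6) (nat_lit 8),
 .sym (nat_lit 7218) true false true (nat_lit 6) (nat_lit 8),
 .step (nat_lit 131) [nat_lit 5224481, nat_lit 6106113, nat_lit 6659073, nat_lit 6660097, nat_lit 7084032],
 .step (nat_lit 132) [nat_lit 4918304, nat_lit 5204994, nat_lit 7141472, nat_lit 6009857, nat_lit 6665216],
 .step (nat_lit 164) [nat_lit 2618497, nat_lit 6622305, nat_lit 4147265, nat_lit 5434369, nat_lit 6001792, nat_lit 6439971, nat_lit 7087200],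
 .step (nat_lit 131) [nat_lit 2645088, nat_lit 2809890, nat_lit 4183136, nat_lit 4180066, nat_lit 7083008],
 .step (nat_lit 98) [nat_lit 1267776, nat_lit 2631681, nat_lit 7089153],
 .sym (nat_lit 7225) false true true (nat_lit 6) (nat_lit 5),
 .sym (nat_lit 7225) true true true (nat_lit 6) (nat_lit 5),
 .sym (nat_lit 7225) false false true (nat_lit 6) (nat_lit 5),
 .sym (nat_lit 7225) true false true (nat_lit 6) (nat_lit 5),
 .step (nat_lit 193) [nat_lit 8352, nat_lit 7090176],
 .sym (nat_lit 7230) true false false (nat_lit 5) (nat_lit 6),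
 .step (nat_lit 101) [nat_lit 727107, nat_lit 312388, nat_lit 1732674, nat_lit 7091200],
 .step (nat_lit 162) [nat_lit 1583104, nat_lit 6074369, nat_lit 7092224],
 .step (nat_lit 166) [nat_lit 1351842, nat_lit 1365122, nat_lit 1368194, nat_lit 7093248],
 .step (nat_lit 73) [nat_lit 6182, nat_lit 7094272],
 .step (nat_lit 99) [nat_lit 8288, nat_lit 7096320],
 .step (nat_lit 129) [nat_lit 8288, nat_lit 7104512],
 .step (nat_lit 38) [nat_lit 10245, nat_lit 7106560],
 .step (nat_lit 261) [nat_lit 1943652, nat_lit 3064963, nat_lit 6115363, nat_lit 7107584],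
 .step (nat_lit 132) [nat_lit 5155, nat_lit 7108608],
 .step (nat_lit 100) [nat_lit 581700, nat_lit 3372096, nat_lit 5359682, nat_lit 7149569],
 .step (nat_lit 197) [nat_lit 4350981, nat_lit 6135905, nat_lit 7112769, nat_lit 7111712],
 .step (nat_lit 99) [nat_lit 17507, nat_lit 7115776],
 .step (nat_lit 68) [nat_lit 2642976, nat_lit 2641953, nat_lit 6620162, nat_lit 6641696],
 .step (nat_lit 100) [nat_lit 19552, nat_lit 7119872],
 .step (nat_lit 99) [nat_lit 3197024, nat_lit 1991778, nat_lit 3194977, nat_lit 7109632, nat_lit 3201089],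
 .step (nat_lit 131) [nat_lit 2642017, nat_lit 2645088, nat_lit 3204096, nat_lit 7100450],
 .step (nat_lit 65) [nat_lit 13345, nat_lit 7127040],
 .step (nat_lit 132) [nat_lit 3209218, nat_lit 6720512, nat_lit 7128064, nat_lit 7129088]]

theorem c7000 : checkFrom tbl r7000 (nat_lit 7250) (nat_lit 7000) = true := by decide +kernel

end Crest.Agent.R035
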