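import Crest.Agent.R035.Table

set_option autoImplicit false
set_option maxRecDepth 100000

namespace Crest.Agent.R035

noncomputable def r1250 : List Rule := [
 .step (nat_lit 34) [nat_lit 29696, nat_lit 136194],
 .step (nat_lit 100) [nat_lit 10244, nat_lit 99424],
 .step (nat_lit 99) [nat_lit 37984, nat_lit 101379],
 .step (nat_lit 3) [nat_lit 37888, nat_lit 239619],
 .step (nat_lit 132) [nat_lit 204832, nat_lit 203777],
 .step (nat_lit 97) [nat_lit 15360, nat_lit 71681],
 .step (nat_lit 97) [nat_lit 9312, nat_lit 451585],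
 .step (nat_lit 34) [nat_lit 47106, nat_lit 453632],
 .step (nat_lit 98) [nat_lit 12290, nat_lit 169024],
 .step (nat_lit 163) [nat_lit 5187, nat_lit 409600],
 .step (nat_lit 66) [nat_lit 20546, nat_lit 454656],
 .step (nat_lit 36) [nat_lit 38944, nat_lit 452608],
 .step (nat_lit 36) [nat_lit 19457, nat_lit 63520],
 .step (nat_lit 99) [nat_lit 12291, nat_lit 455744],
 .step (nat_lit 34) [nat_lit 24609, nat_lit 257024],
 .step (nat_lit 132) [nat_lit 6273, nat_lit 456704],
 .step (nat_lit 34) [nat_lit 32768, nat_lit 178208],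
 .step (nat_lit 161) [nat_lit 26752, nat_lit 457728],
 .step (nat_lit 100) [nat_lit 5123, nat_lit 175136],
 .step (nat_lit 33) [nat_lit 14337, nat_lit 236576],
 .step (nat_lit 37) [nat_lit 6146, nat_lit 397312],
 .step (nat_lit 32) [nat_lit 40960, nat_lit 338944],
 .step (nat_lit 4) [nat_lit 8192, nat_lit 241667],
 .step (nat_lit 97) [nat_lit 5120, nat_lit 137280],
 .step (nat_lit 37) [nat_lit 11268, nat_lit 81952],
 .step (nat_lit 33) [nat_lit 9248, nat_lit 191488],
 .step (nat_lit 33) [nat_lit 12320, nat_lit 292864],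
 .step (nat_lit 97) [nat_lit 5121, nat_lit 311392],
 .step (nat_lit 34) [nat_lit 20480, nat_lit 63520],
 .step (nat_lit 131) [nat_lit 12323, nat_lit 391168],
 .step (nat_lit 32) [nat_lit 27648, nat_lit 420896],
 .step (nat_lit 128) [nat_lit 42080, nat_lit 349184],
 .step (nat_lit 35) [nat_lit 17443, nat_lit 94208],
 .step (nat_lit 3) [nat_lit 37888, nat_lit 177153],
 .step (nat_lit 34) [nat_lit 31776, nat_lit 143360],
 .step (nat_lit 5) [nat_lit 37890, nat_lit 385024],
 .step (nat_lit 66) [nat_lit 46082, nat_lit 177216],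
 .step (nat_lit 33) [nat_lit 6177, nat_lit 295936],
 .step (nat_lit 34) [nat_lit 29696, nat_lit 235521],
 .step (nat_lit 98) [nat_lit 5121, nat_lit 424000],
 .step (nat_lit 65) [nat_lit 28672, nat_lit 186432],
 .step (nat_lit 97) [nat_lit 42048, nat_lit 152576],
 .step (nat_lit 97) [nat_lit 11264, nat_lit 336897],
 .step (nat_lit 65) [nat_lit 11264, nat_lit 336897],
 .step (nat_lit 161) [nat_lit 21632, nat_lit 415744],
 .step (nat_lit 66) [nat_lit 8256, nat_lit 116736],
 .step (nat_lit 65) [nat_lit 24640, nat_lit 370689],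
 .step (nat_lit 4) [nat_lit 8192, nat_lit 238595],
 .step (nat_lit 128) [nat_lit 42080, nat_lit 350208],
 .step (nat_lit 4) [nat_lit 14339, nat_lit 458752],
 .step (nat_lit 3) [nat_lit 5123, nat_lit 243712],
 .step (nat_lit 68) [nat_lit 50179, nat_lit 166976],
 .step (nat_lit 66) [nat_lit 12353, nat_lit 438272],
 .step (nat_lit 97) [nat_lit 11328, nat_lit 354304],
 .step (nat_lit 3) [nat_lit 21504, nat_lit 235521],
 .step (nat_lit 1) [nat_lit 9216, nat_lit 107520],
 .step (nat_lit 33) [nat_lit 21504, nat_lit 184320],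
 .step (nat_lit 67) [nat_lit 10243, nat_lit 403488],
 .step (nat_lit 66) [nat_lit 50177, nat_lit 360480],
 .step (nat_lit 129) [nat_lit 8288, nat_lit 459777],
 .step (nat_lit 68) [nat_lit 10275, nat_lit 411648],
 .step (nat_lit 129) [nat_lit 9344, nat_lit 399360],
 .step (nat_lit 33) [nat_lit 13344, nat_lit 66560],
 .step (nat_lit 129) [nat_lit 9344, nat_lit 460800],
 .step (nat_lit 33) [nat_lit 13313, nat_lit 208928],
 .step (nat_lit 65) [nat_lit 46081, nat_lit 238656],
 .step (nat_lit 97) [nat_lit 153600, nat_lit 142432],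
 .step (nat_lit 67) [nat_lit 5123, nat_lit 427008],
 .step (nat_lit 130) [nat_lit 21600, nat_lit 378880],
 .step (nat_lit 131) [nat_lit 24672, nat_lit 167937],
 .step (nat_lit 33) [nat_lit 8192, nat_lit 463873],
 .sym (nat_lit 1320) false true false (nat_lit 6) (nat_lit 1),
 .sym (nat_lit 1320) true true false (nat_lit 6) (nat_lit 1),
 .sym (nat_lit 1320) true false false (nat_lit 6) (nat_lit 1),
 .sym (nat_lit 1320) false true true (nat_lit 6) (nat_lit 1),
 .sym (nat_lit 1320) true false true (nat_lit 6) (nat_lit 1),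
 .sym (nat_lit 1320) false false true (nat_lit 6) (nat_lit 1),
 .sym (nat_lit 1320) true true true (nat_lit 6) (nat_lit 1),
 .step (nat_lit 69) [nat_lit 6178, nat_lit 477184],
 .sym (nat_lit 1328) false true false (nat_lit 6) (nat_lit 2),
 .sym (nat_lit 1328) true false true (nat_lit 6) (nat_lit 2),
 .sym (nat_lit 1328) true true true (nat_lit 6) (nat_lit 2),
 .sym (nat_lit 1328) true false false (nat_lit 6) (nat_lit 2),
 .sym (nat_lit 1328) true true false (nat_lit 6) (nat_lit 2),
 .sym (nat_lit 1328) false true true (nat_lit 6) (nat_lit 2),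
 .sym (nat_lit 1328) false false true (nat_lit 6) (nat_lit 2),
 .step (nat_lit 65) [nat_lit 8224, nat_lit 510976],
 .sym (nat_lit 1336) true true false (nat_lit 5) (nat_lit 2),
 .sym (nat_lit 1336) false true true (nat_lit 5) (nat_lit 2),
 .sym (nat_lit 1336) true true true (nat_lit 5) (nat_lit 2),
 .step (nat_lit 98) [nat_lit 26689, nat_lit 484352],
 .sym (nat_lit 1340) false true true (nat_lit 5) (nat_lit 5),
 .sym (nat_lit 1340) true true false (nat_lit 5) (nat_lit 5),
 .step (nat_lit 131) [nat_lit 5154, nat_lit 505856],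
 .step (nat_lit 128) [nat_lit 10240, nat_lit 461856],
 .sym (nat_lit 1344) false true true (nat_lit 1) (nat_lit 6),
 .sym (nat_lit 1344) true false false (nat_lit 1) (nat_lit 6),
 .sym (nat_lit 1344) false true false (nat_lit 1) (nat_lit 6),
 .sym (nat_lit 1344) true false true (nat_lit 1) (nat_lit 6),
 .sym (nat_lit 1344) true true false (nat_lit 1) (nat_lit 6),
 .sym (nat_lit 1344) false false true (nat_lit 1) (nat_lit 6),
 .sym (nat_lit 1344) true true true (nat_lit 1) (nat_lit 6),
 .step (nat_lit 67) [nat_lit 7232, nat_lit 520194],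
 .sym (nat_lit 1352) true true false (nat_lit 4) (nat_lit 6),
 .sym (nat_lit 1352) true false false (nat_lit 4) (nat_lit 6),
 .sym (nat_lit 1352) false false true (nat_lit 4) (nat_lit 6),
 .step (nat_lit 98) [nat_lit 12290, nat_lit 521280],
 .sym (nat_lit 1356) true false false (nat_lit 6) (nat_lit 4),
 .sym (nat_lit 1356) false true true (nat_lit 6) (nat_lit 4),
 .sym (nat_lit 1356) true true true (nat_lit 6) (nat_lit 4),
 .sym (nat_lit 1356) false false true (nat_lit 6) (nat_lit 4),
 .sym (nat_lit 1356) true false true (nat_lit 6) (nat_lit 4),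
 .step (nat_lit 98) [nat_lit 12290, nat_lit 515136],
 .sym (nat_lit 1362) false true true (nat_lit 6) (nat_lit 4),
 .sym (nat_lit 1362) true false false (nat_lit 6) (nat_lit 4),
 .sym (nat_lit 1362) false true false (nat_lit 6) (nat_lit 4),
 .sym (nat_lit 1362) true true true (nat_lit 6) (nat_lit 4),
 .sym (nat_lit 1362) false false true (nat_lit 6) (nat_lit 4),
 .sym (nat_lit 1362) true true false (nat_lit 6) (nat_lit 4),
 .sym (nat_lit 1362) true false true (nat_lit 6) (nat_lit 4),
 .step (nat_lit 129) [nat_lit 10241, nat_lit 472096],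
 .sym (nat_lit 1370) false false true (nat_lit 2) (nat_lit 6),
 .sym (nat_lit 1370) true false false (nat_lit 2) (nat_lit 6),
 .sym (nat_lit 1370) false true false (nat_lit 2) (nat_lit 6),
 .sym (nat_lit 1370) true false true (nat_lit 2) (nat_lit 6),
 .sym (nat_lit 1370) true true false (nat_lit 2) (nat_lit 6),
 .sym (nat_lit 1370) true true true (nat_lit 2) (nat_lit 6),
 .step (nat_lit 35) [nat_lit 21536, nat_lit 543744],
 .step (nat_lit 101) [nat_lit 5124, nat_lit 737344],
 .sym (nat_lit 1378) true false false (nat_lit 5) (nat_lit 4),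
 .sym (nat_lit 1378) true true true (nat_lit 5) (nat_lit 4),
 .sym (nat_lit 1378) true false true (nat_lit 5) (nat_lit 4),
 .step (nat_lit 33) [nat_lit 9216, nat_lit 544800],
 .step (nat_lit 65) [nat_lit 24640, nat_lit 516097],
 .step (nat_lit 36) [nat_lit 6145, nat_lit 556032],
 .sym (nat_lit 1384) false true false (nat_lit 7) (nat_lit 1),
 .step (nat_lit 68) [nat_lit 6177, nat_lit 559104],
 .step (nat_lit 36) [nat_lit 9216, nat_lit 506880],
 .step (nat_lit 129) [nat_lit 8288, nat_lit 561152],
 .sym (nat_lit 1388) true false false (nat_lit 5) (nat_lit 4),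
 .sym (nat_lit 1388) true true true (nat_lit 5) (nat_lit 4),
 .step (nat_lit 100) [nat_lit 42080, nat_lit 485379],
 .sym (nat_lit 1391) true true true (nat_lit 4) (nat_lit 6),
 .sym (nat_lit 1391) false true false (nat_lit 4) (nat_lit 6),
 .sym (nat_lit 1391) true false true (nat_lit 4) (nat_lit 6),
 .sym (nat_lit 1391) true false false (nat_lit 4) (nat_lit 6),
 .sym (nat_lit 1391) false true true (nat_lit 4) (nat_lit 6),
 .sym (nat_lit 1391) false false true (nat_lit 4) (nat_lit 6),
 .step (nat_lit 67) [nat_lit 27650, nat_lit 491584],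
 .sym (nat_lit 1398) false false true (nat_lit 6) (nat_lit 4),
 .sym (nat_lit 1398) false true true (nat_lit 6) (nat_lit 4),
 .sym (nat_lit 1398) true false true (nat_lit 6) (nat_lit 4),
 .sym (nat_lit 1398) true false false (nat_lit 6) (nat_lit 4),
 .step (nat_lit 100) [nat_lit 37952, nat_lit 1093632],
 .sym (nat_lit 1403) true true false (nat_lit 4) (nat_lit 4),
 .sym (nat_lit 1403) true false false (nat_lit 4) (nat_lit 4),
 .step (nat_lit 98) [nat_lit 29760, nat_lit 486402],
 .step (nat_lit 36) [nat_lit 7201, nat_lit 575488],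
 .sym (nat_lit 1407) true true true (nat_lit 5) (nat_lit 4),
 .sym (nat_lit 1407) true false false (nat_lit 5) (nat_lit 4),
 .step (nat_lit 68) [nat_lit 8256, nat_lit 479233],
 .sym (nat_lit 1410) true false false (nat_lit 5) (nat_lit 5),
 .step (nat_lit 67) [nat_lit 6209, nat_lit 484352],
 .sym (nat_lit 1412) false true false (nat_lit 5) (nat_lit 5),
 .step (nat_lit 131) [nat_lit 5154, nat_lit 530432],
 .sym (nat_lit 1414) true true false (nat_lit 5) (nat_lit 5),
 .sym (nat_lit 1414) true false false (nat_lit 5) (nat_lit 5),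
 .step (nat_lit 130) [nat_lit 36865, nat_lit 591872],
 .step (nat_lit 65) [nat_lit 8224, nat_lit 592897],
 .sym (nat_lit 1418) true false false (nat_lit 7) (nat_lit 2),
 .step (nat_lit 34) [nat_lit 27650, nat_lit 593920],
 .step (nat_lit 128) [nat_lit 27744, nat_lit 594944],
 .step (nat_lit 99) [nat_lit 11266, nat_lit 483360],
 .step (nat_lit 65) [nat_lit 25664, nat_lit 479233],
 .sym (nat_lit 1423) false false true (nat_lit 5) (nat_lit 5),
 .sym (nat_lit 1423) true false true (nat_lit 5) (nat_lit 5),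
 .sym (nat_lit 1423) true true false (nat_lit 5) (nat_lit 5),
 .step (nat_lit 129) [nat_lit 14337, nat_lit 596000],
 .step (nat_lit 65) [nat_lit 6208, nat_lit 479232],
 .step (nat_lit 128) [nat_lit 22560, nat_lit 542720],
 .sym (nat_lit 1429) true true true (nat_lit 2) (nat_lit 5),
 .step (nat_lit 33) [nat_lit 490497, nat_lit 496641, nat_lit 967680],
 .step (nat_lit 130) [nat_lit 5153, nat_lit 606208],
 .step (nat_lit 68) [nat_lit 24609, nat_lit 562176],
 .sym (nat_lit 1433) true false true (nat_lit 5) (nat_lit 5),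
 .sym (nat_lit 1433) false true true (nat_lit 5) (nat_lit 5),
 .step (nat_lit 129) [nat_lit 8288, nat_lit 605184],
 .step (nat_lit 68) [nat_lit 6177, nat_lit 1072128],
 .sym (nat_lit 1437) false true true (nat_lit 5) (nat_lit 4),
 .step (nat_lit 4) [nat_lit 7169, nat_lit 623616],
 .sym (nat_lit 1439) false true true (nat_lit 5) (nat_lit 4),
 .step (nat_lit 33) [nat_lit 25632, nat_lit 536576],
 .step (nat_lit 99) [nat_lit 28675, nat_lit 625696],
 .step (nat_lit 100) [nat_lit 5123, nat_lit 631872],
 .step (nat_lit 36) [nat_lit 13344, nat_lit 596993],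
 .sym (nat_lit 1444) true false true (nat_lit 6) (nat_lit 2),
 .step (nat_lit 65) [nat_lit 24640, nat_lit 518145],
 .step (nat_lit 100) [nat_lit 5123, nat_lit 634880],
 .sym (nat_lit 1447) false true true (nat_lit 5) (nat_lit 4),
 .sym (nat_lit 1447) true false false (nat_lit 5) (nat_lit 4),
 .sym (nat_lit 1447) true true false (nat_lit 5) (nat_lit 4),
 .sym (nat_lit 1447) true true true (nat_lit 5) (nat_lit 4),
 .sym (nat_lit 1447) false true false (nat_lit 5) (nat_lit 4),
 .step (nat_lit 98) [nat_lit 12290, nat_lit 635904],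
 .sym (nat_lit 1453) true false false (nat_lit 5) (nat_lit 4),
 .sym (nat_lit 1453) true false true (nat_lit 5) (nat_lit 4),
 .sym (nat_lit 1453) false false true (nat_lit 5) (nat_lit 4),
 .sym (nat_lit 1453) true true true (nat_lit 5) (nat_lit 4),
 .step (nat_lit 66) [nat_lit 10242, nat_lit 568352],
 .step (nat_lit 131) [nat_lit 492672, nat_lit 485379],
 .sym (nat_lit 1459) false true false (nat_lit 6) (nat_lit 6),
 .sym (nat_lit 1459) true true false (nat_lit 6) (nat_lit 6),
 .sym (nat_lit 1459) true false true (nat_lit 6) (nat_lit 6),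
 .step (nat_lit 36) [nat_lit 7201, nat_lit 504832],
 .step (nat_lit 129) [nat_lit 11264, nat_lit 461857],
 .sym (nat_lit 1464) true true false (nat_lit 2) (nat_lit 6),
 .sym (nat_lit 1464) true false false (nat_lit 2) (nat_lit 6),
 .step (nat_lit 65) [nat_lit 11264, nat_lit 461857],
 .sym (nat_lit 1467) false false true (nat_lit 2) (nat_lit 6),
 .sym (nat_lit 1467) true false false (nat_lit 2) (nat_lit 6),
 .sym (nat_lit 1467) false true true (nat_lit 2) (nat_lit 6),
 .sym (nat_lit 1467) true true false (nat_lit 2) (nat_lit 6),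
 .step (nat_lit 98) [nat_lit 25696, nat_lit 488450],
 .sym (nat_lit 1472) false true true (nat_lit 4) (nat_lit 6),
 .sym (nat_lit 1472) false false true (nat_lit 4) (nat_lit 6),
 .sym (nat_lit 1472) false true false (nat_lit 4) (nat_lit 6),
 .sym (nat_lit 1472) true false true (nat_lit 4) (nat_lit 6),
 .step (nat_lit 130) [nat_lit 11265, nat_lit 674848],
 .sym (nat_lit 1477) true false false (nat_lit 5) (nat_lit 5),
 .sym (nat_lit 1477) false true false (nat_lit 5) (nat_lit 5),
 .step (nat_lit 33) [nat_lit 24609, nat_lit 675840],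
 .sym (nat_lit 1480) true false true (nat_lit 5) (nat_lit 4),
 .sym (nat_lit 1480) false false true (nat_lit 5) (nat_lit 4),
 .step (nat_lit 67) [nat_lit 492608, nat_lit 490499],
 .sym (nat_lit 1483) true true false (nat_lit 6) (nat_lit 6),
 .sym (nat_lit 1483) false true false (nat_lit 6) (nat_lit 6),
 .step (nat_lit 100) [nat_lit 5123, nat_lit 492608],
 .sym (nat_lit 1486) true false true (nat_lit 6) (nat_lit 4),
 .sym (nat_lit 1486) true true false (nat_lit 6) (nat_lit 4),
 .step (nat_lit 130) [nat_lit 10242, nat_lit 541728],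
 .sym (nat_lit 1489) true false true (nat_lit 4) (nat_lit 5),
 .sym (nat_lit 1489) false true false (nat_lit 4) (nat_lit 5),
 .sym (nat_lit 1489) true true false (nat_lit 4) (nat_lit 5),
 .sym (nat_lit 1489) true false false (nat_lit 4) (nat_lit 5),
 .step (nat_lit 129) [nat_lit 11264, nat_lit 601120],
 .sym (nat_lit 1494) true false false (nat_lit 2) (nat_lit 6),
 .sym (nat_lit 1494) true true false (nat_lit 2) (nat_lit 6),
 .step (nat_lit 100) [nat_lit 5123, nat_lit 602144],
 .sym (nat_lit 1497) true false true (nat_lit 5) (nat_lit 4),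
 .step (nat_lit 129) [nat_lit 8288, nat_lit 683009]]

theorem c1250 : checkFrom tbl r1250 (nat_lit 1500) (nat_lit 1250) = true := by decide +kernel

noncomputable def r3250 : List Rule := [
 .step (nat_lit 98) [nat_lit 1354848, nat_lit 1359936, nat_lit 1662977],
 .step (nat_lit 96) [nat_lit 12288, nat_lit 2154496],
 .step (nat_lit 34) [nat_lit 29696, nat_lit 1786882],
 .step (nat_lit 132) [nat_lit 13440, nat_lit 2156544],
 .step (nat_lit 36) [nat_lit 1354784, nat_lit 1268738, nat_lit 1363969],
 .sym (nat_lit 3254) true false false (nat_lit 7) (nat_lit 2),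
 .step (nat_lit 131) [nat_lit 1267808, nat_lit 2156545],
 .step (nat_lit 34) [nat_lit 6176, nat_lit 1414144],
 .step (nat_lit 97) [nat_lit 1367040, nat_lit 1382464],
 .step (nat_lit 67) [nat_lit 1358850, nat_lit 1366018, nat_lit 1559584],
 .sym (nat_lit 3259) false true false (nat_lit 4) (nat_lit 6),
 .step (nat_lit 130) [nat_lit 744544, nat_lit 2159617, nat_lit 2160642],
 .sym (nat_lit 3261) true true true (nat_lit 6) (nat_lit 4),
 .step (nat_lit 101) [nat_lit 6242, nat_lit 2147328],
 .step (nat_lit 97) [nat_lit 7233, nat_lit 1585152],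
 .sym (nat_lit 3264) true false true (nat_lit 5) (nat_lit 6),
 .sym (nat_lit 3264) true true false (nat_lit 5) (nat_lit 6),
 .step (nat_lit 131) [nat_lit 1357827, nat_lit 174112, nat_lit 1159168],
 .sym (nat_lit 3267) false true false (nat_lit 4) (nat_lit 6),
 .step (nat_lit 35) [nat_lit 11266, nat_lit 2514976],
 .step (nat_lit 129) [nat_lit 15361, nat_lit 2165760],
 .step (nat_lit 102) [nat_lit 13410, nat_lit 1920000],
 .step (nat_lit 67) [nat_lit 1270786, nat_lit 1669184],
 .step (nat_lit 67) [nat_lit 6176, nat_lit 2168832],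
 .step (nat_lit 99) [nat_lit 1409088, nat_lit 1411073, nat_lit 2169858],
 .step (nat_lit 65) [nat_lit 509984, nat_lit 1491968],
 .step (nat_lit 98) [nat_lit 29760, nat_lit 2172929],
 .step (nat_lit 131) [nat_lit 5155, nat_lit 2039808],
 .step (nat_lit 100) [nat_lit 32834, nat_lit 1545216],
 .step (nat_lit 67) [nat_lit 1356803, nat_lit 1367042, nat_lit 1486880],
 .step (nat_lit 163) [nat_lit 5187, nat_lit 2532352],
 .step (nat_lit 162) [nat_lit 488449, nat_lit 486465, nat_lit 1527840, nat_lit 1528896],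
 .step (nat_lit 99) [nat_lit 5122, nat_lit 1981472],
 .step (nat_lit 131) [nat_lit 12322, nat_lit 1552384],
 .step (nat_lit 96) [nat_lit 12288, nat_lit 2184192],
 .step (nat_lit 98) [nat_lit 29760, nat_lit 2191361],
 .step (nat_lit 130) [nat_lit 10242, nat_lit 1613856],
 .step (nat_lit 133) [nat_lit 5156, nat_lit 2192384],
 .step (nat_lit 161) [nat_lit 13441, nat_lit 2193408],
 .step (nat_lit 133) [nat_lit 5156, nat_lit 2495488],
 .step (nat_lit 34) [nat_lit 29696, nat_lit 2194433],
 .step (nat_lit 101) [nat_lit 134148, nat_lit 1430528, nat_lit 1566722],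
 .sym (nat_lit 3291) true false true (nat_lit 8) (nat_lit 4),
 .sym (nat_lit 3291) true true false (nat_lit 8) (nat_lit 4),
 .sym (nat_lit 3291) false true true (nat_lit 8) (nat_lit 4),
 .sym (nat_lit 3291) false false true (nat_lit 8) (nat_lit 4),
 .step (nat_lit 68) [nat_lit 742403, nat_lit 342048, nat_lit 2196544],
 .sym (nat_lit 3296) true false true (nat_lit 4) (nat_lit 7),
 .step (nat_lit 36) [nat_lit 8224, nat_lit 1478657],
 .sym (nat_lit 3298) false true true (nat_lit 7) (nat_lit 2),
 .step (nat_lit 35) [nat_lit 1571842, nat_lit 1639426, nat_lit 1640448],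
 .step (nat_lit 98) [nat_lit 29760, nat_lit 1399810],
 .step (nat_lit 38) [nat_lit 7171, nat_lit 1990656],
 .step (nat_lit 69) [nat_lit 1267744, nat_lit 752642],
 .step (nat_lit 67) [nat_lit 6209, nat_lit 1485824],
 .step (nat_lit 67) [nat_lit 381986, nat_lit 2052128, nat_lit 2200576],
 .step (nat_lit 131) [nat_lit 1357827, nat_lit 1362946, nat_lit 1559552],
 .step (nat_lit 97) [nat_lit 8256, nat_lit 1271809],
 .sym (nat_lit 3307) false false true (nat_lit 4) (nat_lit 5),
 .step (nat_lit 36) [nat_lit 10243, nat_lit 2201600],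
 .step (nat_lit 67) [nat_lit 1270786, nat_lit 1537088],
 .step (nat_lit 33) [nat_lit 489504, nat_lit 497696, nat_lit 2202624],
 .step (nat_lit 130) [nat_lit 24672, nat_lit 2018304],
 .step (nat_lit 103) [nat_lit 496646, nat_lit 2203648],
 .step (nat_lit 100) [nat_lit 39008, nat_lit 2036736],
 .step (nat_lit 35) [nat_lit 9216, nat_lit 2207745],
 .step (nat_lit 67) [nat_lit 6176, nat_lit 2208769],
 .step (nat_lit 131) [nat_lit 6240, nat_lit 1964032],
 .step (nat_lit 167) [nat_lit 5190, nat_lit 2204672],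
 .step (nat_lit 67) [nat_lit 1270786, nat_lit 2209856],
 .step (nat_lit 35) [nat_lit 1567744, nat_lit 2055168, nat_lit 2060288],
 .step (nat_lit 6) [nat_lit 7171, nat_lit 2214912],
 .step (nat_lit 33) [nat_lit 13344, nat_lit 1840129],
 .step (nat_lit 130) [nat_lit 13410, nat_lit 2215936],
 .step (nat_lit 130) [nat_lit 22625, nat_lit 1490944],
 .sym (nat_lit 3324) true false false (nat_lit 4) (nat_lit 7),
 .step (nat_lit 129) [nat_lit 8288, nat_lit 2221057],
 .step (nat_lit 129) [nat_lit 8320, nat_lit 2071552],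
 .step (nat_lit 129) [nat_lit 9312, nat_lit 2002944],
 .step (nat_lit 129) [nat_lit 16513, nat_lit 2002944],
 .step (nat_lit 129) [nat_lit 8288, nat_lit 2222080],
 .step (nat_lit 132) [nat_lit 20576, nat_lit 2156544],
 .step (nat_lit 100) [nat_lit 13408, nat_lit 2223104],
 .step (nat_lit 97) [nat_lit 8288, nat_lit 2224129],
 .step (nat_lit 36) [nat_lit 1354784, nat_lit 1267712, nat_lit 1364993],
 .step (nat_lit 132) [nat_lit 2156545, nat_lit 1774624],
 .step (nat_lit 2) [nat_lit 31744, nat_lit 2225153],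
 .step (nat_lit 98) [nat_lit 9281, nat_lit 1861632],
 .step (nat_lit 99) [nat_lit 491586, nat_lit 499778, nat_lit 1600512],
 .step (nat_lit 65) [nat_lit 8224, nat_lit 1876992],
 .step (nat_lit 97) [nat_lit 1428480, nat_lit 1090561, nat_lit 936961, nat_lit 1437760],
 .step (nat_lit 66) [nat_lit 30753, nat_lit 2229248],
 .step (nat_lit 132) [nat_lit 40963, nat_lit 2145312],
 .step (nat_lit 65) [nat_lit 1355808, nat_lit 363521],
 .step (nat_lit 65) [nat_lit 1362976, nat_lit 363521],
 .step (nat_lit 35) [nat_lit 5155, nat_lit 2230272],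
 .step (nat_lit 132) [nat_lit 16480, nat_lit 2235393],
 .step (nat_lit 97) [nat_lit 1568832, nat_lit 1635392, nat_lit 2228224],
 .step (nat_lit 3) [nat_lit 37888, nat_lit 1693696],
 .step (nat_lit 35) [nat_lit 12322, nat_lit 2230272],
 .step (nat_lit 98) [nat_lit 537634, nat_lit 1591296],
 .step (nat_lit 163) [nat_lit 1270786, nat_lit 116800],
 .sym (nat_lit 3351) true false true (nat_lit 4) (nat_lit 6),
 .sym (nat_lit 3351) false true true (nat_lit 4) (nat_lit 6),
 .sym (nat_lit 3351) false false true (nat_lit 4) (nat_lit 6),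
 .sym (nat_lit 3351) true true true (nat_lit 4) (nat_lit 6),
 .sym (nat_lit 3351) false true false (nat_lit 4) (nat_lit 6),
 .step (nat_lit 37) [nat_lit 20481, nat_lit 2259968],
 .sym (nat_lit 3357) false true true (nat_lit 7) (nat_lit 2),
 .sym (nat_lit 3357) true false false (nat_lit 7) (nat_lit 2),
 .sym (nat_lit 3357) false true false (nat_lit 7) (nat_lit 2),
 .sym (nat_lit 3357) false false true (nat_lit 7) (nat_lit 2),
 .step (nat_lit 131) [nat_lit 52227, nat_lit 1538080],
 .step (nat_lit 100) [nat_lit 1754113, nat_lit 2131968],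
 .step (nat_lit 132) [nat_lit 6241, nat_lit 2244608],
 .step (nat_lit 35) [nat_lit 29697, nat_lit 1889280],
 .step (nat_lit 33) [nat_lit 7169, nat_lit 1558528],
 .step (nat_lit 97) [nat_lit 9280, nat_lit 2247681],
 .step (nat_lit 97) [nat_lit 8288, nat_lit 2247681],
 .step (nat_lit 67) [nat_lit 46083, nat_lit 1487936],
 .step (nat_lit 98) [nat_lit 777280, nat_lit 737344, nat_lit 1555457],
 .step (nat_lit 164) [nat_lit 1722496, nat_lit 1997824, nat_lit 1769600],
 .step (nat_lit 36) [nat_lit 1354784, nat_lit 474114, nat_lit 506881],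
 .step (nat_lit 67) [nat_lit 37952, nat_lit 2248704],
 .step (nat_lit 99) [nat_lit 777280, nat_lit 737344, nat_lit 1555457],
 .step (nat_lit 67) [nat_lit 6176, nat_lit 2249729],
 .step (nat_lit 100) [nat_lit 12292, nat_lit 2250816],
 .sym (nat_lit 3376) false true false (nat_lit 6) (nat_lit 4),
 .sym (nat_lit 3376) true false true (nat_lit 6) (nat_lit 4),
 .step (nat_lit 99) [nat_lit 1354848, nat_lit 1359936, nat_lit 1555457],
 .step (nat_lit 1) [nat_lit 25600, nat_lit 2251776],
 .step (nat_lit 131) [nat_lit 6240, nat_lit 1544192],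
 .sym (nat_lit 3381) false true true (nat_lit 5) (nat_lit 4),
 .step (nat_lit 32) [nat_lit 39968, nat_lit 1648640],
 .step (nat_lit 66) [nat_lit 21536, nat_lit 2148352],
 .step (nat_lit 130) [nat_lit 12322, nat_lit 2129920],
 .step (nat_lit 162) [nat_lit 12354, nat_lit 2253824],
 .step (nat_lit 99) [nat_lit 5219, nat_lit 2256896],
 .step (nat_lit 98) [nat_lit 777280, nat_lit 737344, nat_lit 2253825],
 .step (nat_lit 99) [nat_lit 7232, nat_lit 1644544],
 .step (nat_lit 65) [nat_lit 970753, nat_lit 1205248, nat_lit 2257984],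
 .step (nat_lit 65) [nat_lit 1358848, nat_lit 194592, nat_lit 1144864],
 .step (nat_lit 97) [nat_lit 21568, nat_lit 2260992],
 .step (nat_lit 98) [nat_lit 5121, nat_lit 2263040],
 .step (nat_lit 64) [nat_lit 23552, nat_lit 2264096],
 .step (nat_lit 130) [nat_lit 1651713, nat_lit 1701889, nat_lit 2020384],
 .step (nat_lit 129) [nat_lit 1701888, nat_lit 1603616, nat_lit 2265088],
 .step (nat_lit 227) [nat_lit 5251, nat_lit 2266112],
 .step (nat_lit 35) [nat_lit 9218, nat_lit 1377312],
 .step (nat_lit 131) [nat_lit 498784, nat_lit 2267138],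
 .step (nat_lit 97) [nat_lit 102464, nat_lit 1984512],
 .step (nat_lit 99) [nat_lit 141378, nat_lit 1505344, nat_lit 1645568],
 .step (nat_lit 99) [nat_lit 500832, nat_lit 2181122, nat_lit 2135074],
 .step (nat_lit 34) [nat_lit 31776, nat_lit 1504256],
 .step (nat_lit 195) [nat_lit 472162, nat_lit 1387616, nat_lit 2167811],
 .step (nat_lit 5) [nat_lit 7170, nat_lit 1986560],
 .step (nat_lit 131) [nat_lit 1368160, nat_lit 2156544],
 .step (nat_lit 98) [nat_lit 29760, nat_lit 2281472],
 .step (nat_lit 67) [nat_lit 37952, nat_lit 1790976],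
 .step (nat_lit 162) [nat_lit 29824, nat_lit 1785858],
 .step (nat_lit 37) [nat_lit 1359872, nat_lit 780290],
 .step (nat_lit 100) [nat_lit 5123, nat_lit 2197504],
 .step (nat_lit 132) [nat_lit 21632, nat_lit 1507328],
 .step (nat_lit 97) [nat_lit 491584, nat_lit 499776, nat_lit 2237440],
 .step (nat_lit 65) [nat_lit 12352, nat_lit 1272833],
 .step (nat_lit 65) [nat_lit 700416, nat_lit 2287617, nat_lit 2284577],
 .step (nat_lit 65) [nat_lit 9280, nat_lit 2288641],
 .step (nat_lit 66) [nat_lit 490530, nat_lit 2023425, nat_lit 2021408],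
 .step (nat_lit 67) [nat_lit 12322, nat_lit 1584128],
 .step (nat_lit 99) [nat_lit 12291, nat_lit 2289664],
 .step (nat_lit 98) [nat_lit 128033, nat_lit 655361, nat_lit 2290688],
 .step (nat_lit 35) [nat_lit 7200, nat_lit 2158592],
 .sym (nat_lit 3421) true true true (nat_lit 4) (nat_lit 5),
 .step (nat_lit 35) [nat_lit 7168, nat_lit 1677312],
 .step (nat_lit 35) [nat_lit 11267, nat_lit 2292736],
 .step (nat_lit 37) [nat_lit 7170, nat_lit 2295808],
 .step (nat_lit 130) [nat_lit 1267808, nat_lit 2297858],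
 .step (nat_lit 165) [nat_lit 5188, nat_lit 2298880],
 .step (nat_lit 130) [nat_lit 1359968, nat_lit 2297858],
 .step (nat_lit 132) [nat_lit 1351808, nat_lit 2238465],
 .step (nat_lit 66) [nat_lit 8256, nat_lit 1372160],
 .step (nat_lit 99) [nat_lit 9280, nat_lit 1589249],
 .step (nat_lit 66) [nat_lit 6209, nat_lit 1548288],
 .step (nat_lit 99) [nat_lit 9280, nat_lit 1892352],
 .step (nat_lit 33) [nat_lit 958465, nat_lit 1988640],
 .step (nat_lit 32) [nat_lit 17440, nat_lit 2301952],
 .step (nat_lit 101) [nat_lit 1267776, nat_lit 1754114],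
 .step (nat_lit 196) [nat_lit 21696, nat_lit 1820674],
 .sym (nat_lit 3437) false false true (nat_lit 4) (nat_lit 7),
 .step (nat_lit 37) [nat_lit 1353728, nat_lit 1382434],
 .step (nat_lit 34) [nat_lit 489504, nat_lit 1404930],
 .step (nat_lit 97) [nat_lit 8256, nat_lit 2306049],
 .step (nat_lit 35) [nat_lit 27683, nat_lit 2307072],
 .step (nat_lit 98) [nat_lit 1351777, nat_lit 476224, nat_lit 961537],
 .step (nat_lit 67) [nat_lit 1268769, nat_lit 756736],
 .step (nat_lit 100) [nat_lit 473153, nat_lit 1392641, nat_lit 944224],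
 .step (nat_lit 131) [nat_lit 1537088, nat_lit 710656],
 .step (nat_lit 36) [nat_lit 40996, nat_lit 2311168],
 .step (nat_lit 34) [nat_lit 1351713, nat_lit 737280],
 .step (nat_lit 129) [nat_lit 156672, nat_lit 1855520],
 .sym (nat_lit 3449) false true true (nat_lit 4) (nat_lit 6),
 .step (nat_lit 97) [nat_lit 22529, nat_lit 1566720],
 .step (nat_lit 66) [nat_lit 1267744, nat_lit 1907714],
 .step (nat_lit 68) [nat_lit 1364000, nat_lit 752641],
 .sym (nat_lit 3453) false false true (nat_lit 6) (nat_lit 5),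
 .step (nat_lit 35) [nat_lit 5155, nat_lit 1400832],
 .step (nat_lit 64) [nat_lit 26656, nat_lit 1627136],
 .step (nat_lit 130) [nat_lit 1382497, nat_lit 1399808],
 .step (nat_lit 68) [nat_lit 27651, nat_lit 2318336],
 .step (nat_lit 68) [nat_lit 6177, nat_lit 2321408],
 .step (nat_lit 66) [nat_lit 13346, nat_lit 2322432],
 .step (nat_lit 64) [nat_lit 13344, nat_lit 2355200],
 .step (nat_lit 67) [nat_lit 10275, nat_lit 2323456],
 .step (nat_lit 35) [nat_lit 11266, nat_lit 1680384],
 .step (nat_lit 65) [nat_lit 9280, nat_lit 2324480],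
 .step (nat_lit 33) [nat_lit 17441, nat_lit 2325504],
 .step (nat_lit 33) [nat_lit 194560, nat_lit 1806368],
 .step (nat_lit 99) [nat_lit 8288, nat_lit 1550336],
 .step (nat_lit 65) [nat_lit 10272, nat_lit 1567744],
 .step (nat_lit 129) [nat_lit 23584, nat_lit 1888256],
 .step (nat_lit 67) [nat_lit 1352736, nat_lit 975872, nat_lit 2143264],
 .step (nat_lit 66) [nat_lit 791586, nat_lit 1976320, nat_lit 2328610],
 .step (nat_lit 34) [nat_lit 2329600, nat_lit 1658881, nat_lit 791554],
 .step (nat_lit 65) [nat_lit 486400, nat_lit 494592, nat_lit 2074624],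
 .step (nat_lit 34) [nat_lit 489505, nat_lit 1948673, nat_lit 2293760],
 .step (nat_lit 101) [nat_lit 1268802, nat_lit 2271232],
 .step (nat_lit 65) [nat_lit 1655808, nat_lit 953376],
 .step (nat_lit 33) [nat_lit 25632, nat_lit 2084864],
 .step (nat_lit 35) [nat_lit 27651, nat_lit 2014208],
 .step (nat_lit 3) [nat_lit 27651, nat_lit 2330624],
 .step (nat_lit 37) [nat_lit 14372, nat_lit 2332672],
 .step (nat_lit 67) [nat_lit 461827, nat_lit 1582080, nat_lit 825344],
 .step (nat_lit 37) [nat_lit 6179, nat_lit 1895424],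
 .step (nat_lit 99) [nat_lit 22531, nat_lit 1542144],
 .step (nat_lit 97) [nat_lit 12384, nat_lit 2110464],
 .step (nat_lit 34) [nat_lit 9216, nat_lit 2109441],
 .step (nat_lit 67) [nat_lit 32832, nat_lit 2268160],
 .step (nat_lit 65) [nat_lit 472096, nat_lit 461857, nat_lit 1371136],
 .sym (nat_lit 3487) true false false (nat_lit 2) (nat_lit 6),
 .step (nat_lit 65) [nat_lit 6209, nat_lit 2098176],
 .step (nat_lit 97) [nat_lit 21568, nat_lit 1846272],
 .step (nat_lit 100) [nat_lit 70720, nat_lit 610369, nat_lit 2337792],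
 .step (nat_lit 33) [nat_lit 8192, nat_lit 2091009],
 .step (nat_lit 36) [nat_lit 19457, nat_lit 2338816],
 .step (nat_lit 36) [nat_lit 19457, nat_lit 1611776],
 .step (nat_lit 4) [nat_lit 38915, nat_lit 1638400],
 .step (nat_lit 3) [nat_lit 37888, nat_lit 1431553],
 .sym (nat_lit 3496) true false false (nat_lit 7) (nat_lit 4),
 .step (nat_lit 129) [nat_lit 155776, nat_lit 1973249],
 .step (nat_lit 99) [nat_lit 1527809, nat_lit 357440]]

theorem c3250 : checkFrom tbl r3250 (nat_lit 3500) (nat_lit 3250) = true := by decide +kernel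

noncomputable def r5250 : List Rule := [
 .step (nat_lit 226) [nat_lit 5249, nat_lit 4338688],
 .sym (nat_lit 5250) false true true (nat_lit 2) (nat_lit 8),
 .step (nat_lit 65) [nat_lit 9280, nat_lit 4354048],
 .step (nat_lit 98) [nat_lit 29760, nat_lit 4306945],
 .step (nat_lit 32) [nat_lit 11264, nat_lit 4365344],
 .step (nat_lit 98) [nat_lit 21568, nat_lit 4366336],
 .step (nat_lit 35) [nat_lit 25633, nat_lit 4368384],
 .step (nat_lit 98) [nat_lit 21568, nat_lit 4894720],
 .step (nat_lit 35) [nat_lit 8226, nat_lit 4040704],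
 .step (nat_lit 68) [nat_lit 10276, nat_lit 4370432],
 .step (nat_lit 131) [nat_lit 7296, nat_lit 4372480],
 .step (nat_lit 101) [nat_lit 57441, nat_lit 3667009, nat_lit 4373504],
 .step (nat_lit 102) [nat_lit 5125, nat_lit 4374528],
 .step (nat_lit 1) [nat_lit 20481, nat_lit 4377600],
 .step (nat_lit 36) [nat_lit 46116, nat_lit 3666944],
 .step (nat_lit 165) [nat_lit 16513, nat_lit 4378624],
 .step (nat_lit 36) [nat_lit 10243, nat_lit 4379648],
 .sym (nat_lit 5266) false true false (nat_lit 6) (nat_lit 5),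
 .step (nat_lit 132) [nat_lit 5155, nat_lit 4380672],
 .step (nat_lit 67) [nat_lit 1380418, nat_lit 1385473, nat_lit 4733952],
 .step (nat_lit 66) [nat_lit 13346, nat_lit 4381696],
 .sym (nat_lit 5270) true true true (nat_lit 6) (nat_lit 4),
 .step (nat_lit 33) [nat_lit 8224, nat_lit 4254721],
 .step (nat_lit 130) [nat_lit 2642016, nat_lit 2617440, nat_lit 2619488, nat_lit 2409472],
 .step (nat_lit 131) [nat_lit 3209217, nat_lit 3207201, nat_lit 3205120, nat_lit 4383776],
 .step (nat_lit 97) [nat_lit 18433, nat_lit 4384768],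
 .step (nat_lit 1) [nat_lit 20481, nat_lit 4385792],
 .step (nat_lit 1) [nat_lit 20481, nat_lit 4386816],
 .step (nat_lit 130) [nat_lit 475169, nat_lit 103457, nat_lit 4392960],
 .step (nat_lit 35) [nat_lit 2863105, nat_lit 2629632, nat_lit 1798176],
 .step (nat_lit 99) [nat_lit 2620418, nat_lit 2647074, nat_lit 2066496, nat_lit 4234304],
 .step (nat_lit 196) [nat_lit 38048, nat_lit 4395008],
 .step (nat_lit 97) [nat_lit 406560, nat_lit 4401152, nat_lit 2030592],
 .step (nat_lit 34) [nat_lit 26625, nat_lit 4402176],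
 .step (nat_lit 132) [nat_lit 18435, nat_lit 4403232],
 .step (nat_lit 130) [nat_lit 12322, nat_lit 4786176],
 .step (nat_lit 68) [nat_lit 2625539, nat_lit 2615299, nat_lit 4408352],
 .step (nat_lit 131) [nat_lit 1355778, nat_lit 3245056, nat_lit 4414496],
 .step (nat_lit 131) [nat_lit 1362946, nat_lit 1582112, nat_lit 4416512],
 .step (nat_lit 99) [nat_lit 11266, nat_lit 4120576],
 .step (nat_lit 132) [nat_lit 12324, nat_lit 4422656],
 .step (nat_lit 67) [nat_lit 1270786, nat_lit 4396096],
 .step (nat_lit 68) [nat_lit 11299, nat_lit 4423680],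
 .step (nat_lit 36) [nat_lit 10244, nat_lit 4424736],
 .step (nat_lit 68) [nat_lit 1270787, nat_lit 4229184],
 .step (nat_lit 130) [nat_lit 490562, nat_lit 496706, nat_lit 4286464, nat_lit 2651200],
 .step (nat_lit 68) [nat_lit 7233, nat_lit 4137984],
 .sym (nat_lit 5296) true true false (nat_lit 5) (nat_lit 4),
 .step (nat_lit 99) [nat_lit 2625570, nat_lit 1424384, nat_lit 2719808, nat_lit 4233216],
 .step (nat_lit 34) [nat_lit 96288, nat_lit 4429824],
 .sym (nat_lit 5299) false false true (nat_lit 6) (nat_lit 5),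
 .step (nat_lit 99) [nat_lit 12322, nat_lit 4431872],
 .step (nat_lit 98) [nat_lit 24640, nat_lit 4432896],
 .step (nat_lit 36) [nat_lit 138240, nat_lit 660480, nat_lit 2915328, nat_lit 4438017],
 .step (nat_lit 34) [nat_lit 29696, nat_lit 4173824],
 .step (nat_lit 101) [nat_lit 6242, nat_lit 4439040],
 .step (nat_lit 100) [nat_lit 494596, nat_lit 4471809, nat_lit 4013088],
 .sym (nat_lit 5306) false true true (nat_lit 8) (nat_lit 6),
 .sym (nat_lit 5306) true true true (nat_lit 8) (nat_lit 6),
 .sym (nat_lit 5306) true false true (nat_lit 8) (nat_lit 6),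
 .sym (nat_lit 5306) true false false (nat_lit 8) (nat_lit 6),
 .sym (nat_lit 5306) true true false (nat_lit 8) (nat_lit 6),
 .step (nat_lit 67) [nat_lit 7232, nat_lit 4443136],
 .sym (nat_lit 5312) false true true (nat_lit 4) (nat_lit 6),
 .step (nat_lit 4) [nat_lit 12291, nat_lit 4189184],
 .step (nat_lit 100) [nat_lit 662532, nat_lit 2807809, nat_lit 4447296],
 .step (nat_lit 193) [nat_lit 123905, nat_lit 4136032],
 .step (nat_lit 163) [nat_lit 6272, nat_lit 4453376],
 .step (nat_lit 65) [nat_lit 6208, nat_lit 4188160],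
 .step (nat_lit 35) [nat_lit 8224, nat_lit 4337665],
 .sym (nat_lit 5319) true false true (nat_lit 8) (nat_lit 2),
 .step (nat_lit 129) [nat_lit 8288, nat_lit 4456449],
 .step (nat_lit 97) [nat_lit 8256, nat_lit 4320257],
 .step (nat_lit 132) [nat_lit 6241, nat_lit 4457472],
 .step (nat_lit 163) [nat_lit 1320960, nat_lit 4868160, nat_lit 4463680],
 .step (nat_lit 130) [nat_lit 13410, nat_lit 4464640],
 .sym (nat_lit 5325) false true false (nat_lit 7) (nat_lit 4),
 .step (nat_lit 100) [nat_lit 22532, nat_lit 4225024],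
 .step (nat_lit 131) [nat_lit 44034, nat_lit 4465664],
 .step (nat_lit 194) [nat_lit 5217, nat_lit 4466688],
 .sym (nat_lit 5329) true true true (nat_lit 2) (nat_lit 7),
 .step (nat_lit 98) [nat_lit 1267776, nat_lit 4470785, nat_lit 4469761],
 .step (nat_lit 37) [nat_lit 3668994, nat_lit 3672064, nat_lit 4044803, nat_lit 4048896],
 .sym (nat_lit 5332) true false true (nat_lit 9) (nat_lit 2),
 .step (nat_lit 132) [nat_lit 18435, nat_lit 4478976],
 .step (nat_lit 35) [nat_lit 19459, nat_lit 4036608],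
 .step (nat_lit 68) [nat_lit 1351744, nat_lit 1365024, nat_lit 4480000],
 .step (nat_lit 98) [nat_lit 7232, nat_lit 4482048],
 .step (nat_lit 98) [nat_lit 5121, nat_lit 4238336],
 .step (nat_lit 130) [nat_lit 5153, nat_lit 4486144],
 .step (nat_lit 130) [nat_lit 5153, nat_lit 4487168],
 .step (nat_lit 129) [nat_lit 8288, nat_lit 4489216],
 .step (nat_lit 34) [nat_lit 17442, nat_lit 4490240],
 .step (nat_lit 65) [nat_lit 39968, nat_lit 4491264],
 .step (nat_lit 132) [nat_lit 4044897, nat_lit 2156544, nat_lit 1266720],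
 .step (nat_lit 99) [nat_lit 1357891, nat_lit 2992128, nat_lit 4495392],
 .step (nat_lit 69) [nat_lit 1270788, nat_lit 4498496],
 .step (nat_lit 68) [nat_lit 16416, nat_lit 4499456],
 .step (nat_lit 162) [nat_lit 2035713, nat_lit 1777760, nat_lit 4501664],
 .step (nat_lit 99) [nat_lit 3667970, nat_lit 2072640, nat_lit 4503648],
 .step (nat_lit 129) [nat_lit 140289, nat_lit 657409, nat_lit 2914304, nat_lit 2518016],
 .sym (nat_lit 5350) true false true (nat_lit 2) (nat_lit 6),
 .step (nat_lit 161) [nat_lit 15393, nat_lit 4509696],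
 .sym (nat_lit 5352) true true true (nat_lit 5) (nat_lit 6),
 .sym (nat_lit 5352) false false true (nat_lit 5) (nat_lit 6),
 .step (nat_lit 68) [nat_lit 6177, nat_lit 4452352],
 .step (nat_lit 134) [nat_lit 6243, nat_lit 4510720],
 .step (nat_lit 34) [nat_lit 29696, nat_lit 4512768],
 .step (nat_lit 164) [nat_lit 2660480, nat_lit 2694148, nat_lit 4511809],
 .step (nat_lit 164) [nat_lit 2660480, nat_lit 2694148, nat_lit 4513825],
 .step (nat_lit 36) [nat_lit 12323, nat_lit 4514816],
 .step (nat_lit 98) [nat_lit 29760, nat_lit 4518914],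
 .step (nat_lit 68) [nat_lit 140324, nat_lit 581668, nat_lit 3379232, nat_lit 4334594],
 .step (nat_lit 36) [nat_lit 8224, nat_lit 4195328],
 .step (nat_lit 97) [nat_lit 8256, nat_lit 4716544],
 .step (nat_lit 97) [nat_lit 1378304, nat_lit 4305920],
 .step (nat_lit 99) [nat_lit 3667970, nat_lit 321600, nat_lit 1966144],
 .step (nat_lit 162) [nat_lit 345217, nat_lit 4927489, nat_lit 4860929, nat_lit 3384416],
 .step (nat_lit 67) [nat_lit 11298, nat_lit 4525056],
 .step (nat_lit 99) [nat_lit 37984, nat_lit 4526081],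
 .step (nat_lit 67) [nat_lit 1356803, nat_lit 1367042, nat_lit 4528160],
 .step (nat_lit 67) [nat_lit 37952, nat_lit 4532226],
 .step (nat_lit 33) [nat_lit 23553, nat_lit 4533280],
 .step (nat_lit 67) [nat_lit 37952, nat_lit 4534275],
 .step (nat_lit 39) [nat_lit 10246, nat_lit 4537344],
 .step (nat_lit 131) [nat_lit 135264, nat_lit 4267040, nat_lit 4541440, nat_lit 3399712],
 .step (nat_lit 132) [nat_lit 51296, nat_lit 4542464],
 .step (nat_lit 37) [nat_lit 1268738, nat_lit 1746946, nat_lit 1300512, nat_lit 3401728],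
 .step (nat_lit 97) [nat_lit 18529, nat_lit 4051968],
 .step (nat_lit 99) [nat_lit 11331, nat_lit 4545536],
 .step (nat_lit 129) [nat_lit 8288, nat_lit 4497409],
 .step (nat_lit 131) [nat_lit 1351810, nat_lit 4060256, nat_lit 4546561, nat_lit 4548609],
 .step (nat_lit 131) [nat_lit 1267809, nat_lit 1368162, nat_lit 4047968, nat_lit 4547585, nat_lit 4496417],
 .step (nat_lit 99) [nat_lit 6208, nat_lit 4551681],
 .step (nat_lit 129) [nat_lit 8288, nat_lit 4552705],
 .step (nat_lit 131) [nat_lit 1359969, nat_lit 4047968, nat_lit 4060256, nat_lit 2004994],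
 .step (nat_lit 133) [nat_lit 1354880, nat_lit 1754146, nat_lit 3405857, nat_lit 4492289],
 .step (nat_lit 101) [nat_lit 1359936, nat_lit 1754114, nat_lit 4472833],
 .step (nat_lit 132) [nat_lit 6241, nat_lit 4555776],
 .step (nat_lit 36) [nat_lit 1364993, nat_lit 1359872, nat_lit 4044802, nat_lit 4061185],
 .step (nat_lit 133) [nat_lit 1352802, nat_lit 2156546, nat_lit 4556832],
 .step (nat_lit 3) [nat_lit 31745, nat_lit 4560896],
 .step (nat_lit 98) [nat_lit 21568, nat_lit 4561920],
 .step (nat_lit 130) [nat_lit 1355777, nat_lit 1694752, nat_lit 4562945, nat_lit 4924417],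
 .step (nat_lit 129) [nat_lit 66656, nat_lit 4563968],
 .step (nat_lit 65) [nat_lit 1356801, nat_lit 1625088, nat_lit 4567104],
 .sym (nat_lit 5395) true false false (nat_lit 2) (nat_lit 9),
 .sym (nat_lit 5395) false true true (nat_lit 2) (nat_lit 9),
 .sym (nat_lit 5395) true true false (nat_lit 2) (nat_lit 9),
 .step (nat_lit 194) [nat_lit 5217, nat_lit 4568064],
 .step (nat_lit 97) [nat_lit 22529, nat_lit 4135936],
 .step (nat_lit 34) [nat_lit 29696, nat_lit 4569088],
 .step (nat_lit 129) [nat_lit 13409, nat_lit 4570112],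
 .step (nat_lit 34) [nat_lit 39937, nat_lit 4572160],
 .step (nat_lit 36) [nat_lit 29698, nat_lit 4574208],
 .step (nat_lit 98) [nat_lit 4575232, nat_lit 1555457, nat_lit 4576256],
 .step (nat_lit 163) [nat_lit 4070464, nat_lit 2750466, nat_lit 4101216, nat_lit 2058243, nat_lit 3449856],
 .step (nat_lit 130) [nat_lit 3460128, nat_lit 3455008, nat_lit 4580385, nat_lit 4579424, nat_lit 4578400, nat_lit 4581377],
 .step (nat_lit 98) [nat_lit 1355777, nat_lit 796673, nat_lit 4582432],
 .step (nat_lit 34) [nat_lit 17442, nat_lit 4583424],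
 .step (nat_lit 67) [nat_lit 63553, nat_lit 646176, nat_lit 4434945],
 .step (nat_lit 97) [nat_lit 133184, nat_lit 576576, nat_lit 3465248, nat_lit 4584448],
 .step (nat_lit 131) [nat_lit 2097217, nat_lit 3450912, nat_lit 3469344, nat_lit 4586496],
 .step (nat_lit 101) [nat_lit 2643008, nat_lit 2720770, nat_lit 2721792, nat_lit 1566722],
 .step (nat_lit 99) [nat_lit 1268800, nat_lit 921601, nat_lit 4588544],
 .step (nat_lit 130) [nat_lit 583808, nat_lit 2670722, nat_lit 4589568],
 .step (nat_lit 131) [nat_lit 2595904, nat_lit 4011009],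
 .step (nat_lit 131) [nat_lit 1357827, nat_lit 1361922, nat_lit 4591648],
 .step (nat_lit 131) [nat_lit 1269794, nat_lit 68611, nat_lit 4129792],
 .step (nat_lit 128) [nat_lit 15360, nat_lit 4592672],
 .step (nat_lit 34) [nat_lit 17442, nat_lit 4593664],
 .step (nat_lit 100) [nat_lit 487520, nat_lit 4350018, nat_lit 1198081],
 .step (nat_lit 195) [nat_lit 12386, nat_lit 4594688],
 .step (nat_lit 131) [nat_lit 498784, nat_lit 1565730, nat_lit 4598785],
 .step (nat_lit 100) [nat_lit 494596, nat_lit 4241409, nat_lit 3418112, nat_lit 3494914],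
 .step (nat_lit 129) [nat_lit 7265, nat_lit 4331520],
 .step (nat_lit 130) [nat_lit 6272, nat_lit 4011008],
 .step (nat_lit 194) [nat_lit 523297, nat_lit 626753, nat_lit 4436992],
 .sym (nat_lit 5427) true true false (nat_lit 2) (nat_lit 7),
 .step (nat_lit 100) [nat_lit 9280, nat_lit 3735553],
 .step (nat_lit 35) [nat_lit 2601984, nat_lit 4450304, nat_lit 1492992],
 .step (nat_lit 35) [nat_lit 758817, nat_lit 4602880],
 .step (nat_lit 67) [nat_lit 2131008, nat_lit 2283522, nat_lit 4602912],
 .step (nat_lit 225) [nat_lit 1269888, nat_lit 4247552],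
 .sym (nat_lit 5433) false true false (nat_lit 2) (nat_lit 9),
 .sym (nat_lit 5433) false false true (nat_lit 2) (nat_lit 9),
 .step (nat_lit 129) [nat_lit 8320, nat_lit 4605952],
 .step (nat_lit 34) [nat_lit 4216832, nat_lit 2665504],
 .sym (nat_lit 5437) false true false (nat_lit 5) (nat_lit 7),
 .step (nat_lit 34) [nat_lit 22529, nat_lit 4618240],
 .step (nat_lit 34) [nat_lit 1267712, nat_lit 4619266],
 .step (nat_lit 37) [nat_lit 7170, nat_lit 4622336],
 .step (nat_lit 68) [nat_lit 473121, nat_lit 463937, nat_lit 4855808],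
 .sym (nat_lit 5442) false true true (nat_lit 6) (nat_lit 6),
 .step (nat_lit 4) [nat_lit 7169, nat_lit 4623360],
 .step (nat_lit 132) [nat_lit 12323, nat_lit 4624384],
 .step (nat_lit 37) [nat_lit 7170, nat_lit 4625408],
 .step (nat_lit 99) [nat_lit 12291, nat_lit 4084736],
 .step (nat_lit 34) [nat_lit 10241, nat_lit 4175904],
 .step (nat_lit 162) [nat_lit 12354, nat_lit 4628480],
 .step (nat_lit 164) [nat_lit 12355, nat_lit 4629504],
 .step (nat_lit 196) [nat_lit 5220, nat_lit 4630528],
 .step (nat_lit 133) [nat_lit 2025475, nat_lit 2027521, nat_lit 3521602, nat_lit 4635651, nat_lit 4636672],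
 .step (nat_lit 161) [nat_lit 495616, nat_lit 2827296, nat_lit 4637696],
 .step (nat_lit 99) [nat_lit 12291, nat_lit 4124704],
 .step (nat_lit 132) [nat_lit 490564, nat_lit 496708, nat_lit 4317184],
 .step (nat_lit 129) [nat_lit 139264, nat_lit 656384, nat_lit 2895872, nat_lit 4639744],
 .sym (nat_lit 5456) true false false (nat_lit 2) (nat_lit 8),
 .sym (nat_lit 5456) false false true (nat_lit 2) (nat_lit 8),
 .step (nat_lit 133) [nat_lit 13441, nat_lit 4642816],
 .step (nat_lit 99) [nat_lit 2643008, nat_lit 2079744, nat_lit 1934402, nat_lit 1622083],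
 .step (nat_lit 99) [nat_lit 6208, nat_lit 4644864],
 .step (nat_lit 7) [nat_lit 7172, nat_lit 4651008],
 .step (nat_lit 132) [nat_lit 586848, nat_lit 2820128, nat_lit 4249600, nat_lit 3145728],
 .sym (nat_lit 5463) false false true (nat_lit 6) (nat_lit 6),
 .sym (nat_lit 5463) false true false (nat_lit 6) (nat_lit 6),
 .step (nat_lit 33) [nat_lit 8224, nat_lit 4655104],
 .step (nat_lit 70) [nat_lit 16418, nat_lit 4656128],
 .step (nat_lit 1) [nat_lit 9216, nat_lit 4654081],
 .step (nat_lit 1) [nat_lit 9216, nat_lit 4657153],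
 .step (nat_lit 129) [nat_lit 8288, nat_lit 4659201],
 .step (nat_lit 101) [nat_lit 1359936, nat_lit 4044866, nat_lit 3547137],
 .step (nat_lit 100) [nat_lit 3547136, nat_lit 4341792, nat_lit 1268801],
 .step (nat_lit 101) [nat_lit 1353792, nat_lit 4032578, nat_lit 3547137],
 .step (nat_lit 132) [nat_lit 485380, nat_lit 4317184, nat_lit 3880961],
 .sym (nat_lit 5474) true false false (nat_lit 7) (nat_lit 6),
 .step (nat_lit 35) [nat_lit 7171, nat_lit 4036608],
 .sym (nat_lit 5476) true false true (nat_lit 7) (nat_lit 2),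
 .step (nat_lit 129) [nat_lit 4246560, nat_lit 4224000],
 .step (nat_lit 64) [nat_lit 1356800, nat_lit 3551232, nat_lit 4666368],
 .step (nat_lit 66) [nat_lit 218177, nat_lit 225313, nat_lit 279585, nat_lit 4667392],
 .step (nat_lit 99) [nat_lit 218210, nat_lit 225346, nat_lit 279618, nat_lit 4668416],
 .step (nat_lit 35) [nat_lit 218146, nat_lit 225282, nat_lit 279554, nat_lit 4669440],
 .step (nat_lit 128) [nat_lit 49248, nat_lit 4672512],
 .step (nat_lit 67) [nat_lit 778275, nat_lit 2684929, nat_lit 4674592],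
 .step (nat_lit 67) [nat_lit 17475, nat_lit 4676608],
 .step (nat_lit 1) [nat_lit 133120, nat_lit 576512, nat_lit 4678656, nat_lit 4679680],
 .step (nat_lit 35) [nat_lit 32800, nat_lit 4680704],
 .step (nat_lit 131) [nat_lit 348163, nat_lit 4684832],
 .step (nat_lit 131) [nat_lit 2911234, nat_lit 3576832, nat_lit 5024768, nat_lit 4685824],
 .step (nat_lit 35) [nat_lit 35873, nat_lit 4686848],
 .step (nat_lit 38) [nat_lit 19459, nat_lit 4448288],
 .step (nat_lit 36) [nat_lit 32801, nat_lit 4467712],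
 .step (nat_lit 65) [nat_lit 8224, nat_lit 4691969],
 .step (nat_lit 163) [nat_lit 1367042, nat_lit 4049986, nat_lit 2125856],
 .step (nat_lit 35) [nat_lit 60450, nat_lit 4633600, nat_lit 4692992],
 .sym (nat_lit 5495) false true true (nat_lit 7) (nat_lit 4),
 .step (nat_lit 67) [nat_lit 486434, nat_lit 494626, nat_lit 4169729, nat_lit 4695072],
 .step (nat_lit 131) [nat_lit 1743906, nat_lit 3132418, nat_lit 4698112],
 .step (nat_lit 69) [nat_lit 26690, nat_lit 4699136]]

theorem c5250 : checkFrom tbl r5250 (nat_lit 5500) (nat_lit 5250) = true := by decide +kernel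

noncomputable def r7250 : List Rule := [
 .step (nat_lit 133) [nat_lit 1395715, nat_lit 4477956, nat_lit 4595776, nat_lit 7131168],
 .step (nat_lit 161) [nat_lit 8320, nat_lit 7132160],
 .step (nat_lit 131) [nat_lit 3250178, nat_lit 4861952, nat_lit 6761472, nat_lit 6167552, nat_lit 6400000, nat_lit 5750784, nat_lit 6166560, nat_lit 7134240],
 .step (nat_lit 160) [nat_lit 47232, nat_lit 7137280],
 .step (nat_lit 67) [nat_lit 17475, nat_lit 7138304],
 .step (nat_lit 164) [nat_lit 6273, nat_lit 7142400],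
 .step (nat_lit 163) [nat_lit 485411, nat_lit 1109088, nat_lit 1152096, nat_lit 7146496],
 .step (nat_lit 165) [nat_lit 2035716, nat_lit 936068, nat_lit 7147584],
 .step (nat_lit 69) [nat_lit 1270788, nat_lit 7274528],
 .step (nat_lit 163) [nat_lit 926848, nat_lit 6447104, nat_lit 7157760, nat_lit 7158784, nat_lit 6778912],
 .step (nat_lit 164) [nat_lit 1175584, nat_lit 4043842, nat_lit 7160832],
 .step (nat_lit 162) [nat_lit 495617, nat_lit 4068416, nat_lit 7161857],
 .step (nat_lit 67) [nat_lit 1351744, nat_lit 1365024, nat_lit 1368096, nat_lit 6043648],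
 .step (nat_lit 100) [nat_lit 2595872, nat_lit 1754113, nat_lit 7166976],
 .step (nat_lit 99) [nat_lit 4146176, nat_lit 2269184, nat_lit 6794240, nat_lit 5534720, nat_lit 6481920, nat_lit 7171072],
 .step (nat_lit 133) [nat_lit 1355812, nat_lit 775236, nat_lit 796708, nat_lit 7172096],
 .step (nat_lit 99) [nat_lit 2657282, nat_lit 2771970, nat_lit 1379331, nat_lit 1405954, nat_lit 7177216],
 .step (nat_lit 163) [nat_lit 3488800, nat_lit 4600832, nat_lit 5850176, nat_lit 7180288],
 .step (nat_lit 69) [nat_lit 11300, nat_lit 7181312],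
 .step (nat_lit 130) [nat_lit 1942656, nat_lit 3498113, nat_lit 7212033],
 .step (nat_lit 99) [nat_lit 142434, nat_lit 7126016],
 .step (nat_lit 132) [nat_lit 2649091, nat_lit 2624547, nat_lit 2009088, nat_lit 7099393],
 .sym (nat_lit 7271) true false false (nat_lit 7) (nat_lit 8),
 .step (nat_lit 132) [nat_lit 2623491, nat_lit 2646051, nat_lit 6624322, nat_lit 2008128],
 .sym (nat_lit 7273) false true true (nat_lit 7) (nat_lit 8),
 .sym (nat_lit 7273) false false true (nat_lit 7) (nat_lit 8),
 .step (nat_lit 100) [nat_lit 4612160, nat_lit 7124995, nat_lit 4794368, nat_lit 4928544],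
 .step (nat_lit 100) [nat_lit 2603009, nat_lit 5573632, nat_lit 5574656, nat_lit 7183360],
 .step (nat_lit 132) [nat_lit 3647490, nat_lit 3794944, nat_lit 7222273, nat_lit 7184385],
 .step (nat_lit 129) [nat_lit 3211264, nat_lit 6721600, nat_lit 6272032, nat_lit 7185440],
 .step (nat_lit 132) [nat_lit 3519490, nat_lit 4488290, nat_lit 7189600],
 .step (nat_lit 68) [nat_lit 791588, nat_lit 4362272, nat_lit 6366211, nat_lit 5017602],
 .step (nat_lit 130) [nat_lit 1361921, nat_lit 3011617, nat_lit 3104769, nat_lit 7191552],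
 .step (nat_lit 164) [nat_lit 4360256, nat_lit 368675, nat_lit 2310179, nat_lit 7192576],
 .step (nat_lit 131) [nat_lit 5271650, nat_lit 6309984, nat_lit 7286784],
 .step (nat_lit 68) [nat_lit 8227, nat_lit 7193600],
 .step (nat_lit 35) [nat_lit 19459, nat_lit 7195648],
 .step (nat_lit 132) [nat_lit 6241, nat_lit 7196672],
 .step (nat_lit 36) [nat_lit 10243, nat_lit 7197696],
 .step (nat_lit 97) [nat_lit 3144705, nat_lit 3789824, nat_lit 4675584, nat_lit 7198720],
 .step (nat_lit 68) [nat_lit 1351744, nat_lit 1268769, nat_lit 1364000, nat_lit 7139328],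
 .sym (nat_lit 7290) true true false (nat_lit 6) (nat_lit 5),
 .sym (nat_lit 7290) false false true (nat_lit 6) (nat_lit 5),
 .sym (nat_lit 7290) false true false (nat_lit 6) (nat_lit 5),
 .step (nat_lit 99) [nat_lit 2646018, nat_lit 2769954, nat_lit 3162112, nat_lit 3067904, nat_lit 5623808, nat_lit 7200800],
 .step (nat_lit 100) [nat_lit 2643009, nat_lit 6626305, nat_lit 5217344, nat_lit 2342947, nat_lit 4426755, nat_lit 6219777],
 .step (nat_lit 197) [nat_lit 18500, nat_lit 7203840],
 .step (nat_lit 100) [nat_lit 7265, nat_lit 7207936],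
 .step (nat_lit 165) [nat_lit 135298, nat_lit 3371010, nat_lit 3601474, nat_lit 7204864],
 .step (nat_lit 132) [nat_lit 6641760, nat_lit 3647490, nat_lit 3661825, nat_lit 3603457],
 .step (nat_lit 132) [nat_lit 5983264, nat_lit 4035619, nat_lit 4046883, nat_lit 6671360],
 .sym (nat_lit 7300) true true false (nat_lit 7) (nat_lit 7),
 .sym (nat_lit 7300) true true true (nat_lit 7) (nat_lit 7),
 .step (nat_lit 65) [nat_lit 1358848, nat_lit 1367040, nat_lit 7209024],
 .step (nat_lit 164) [nat_lit 580768, nat_lit 4710465, nat_lit 6630400, nat_lit 7209985],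
 .step (nat_lit 131) [nat_lit 2621537, nat_lit 2617441, nat_lit 2591841, nat_lit 3210240, nat_lit 7186498],
 .step (nat_lit 131) [nat_lit 2642017, nat_lit 2643040, nat_lit 6620226, nat_lit 3210240],
 .step (nat_lit 133) [nat_lit 3214337, nat_lit 3212288, nat_lit 7211073, nat_lit 6328320],
 .step (nat_lit 195) [nat_lit 491682, nat_lit 499874, nat_lit 4284512, nat_lit 7201794],
 .step (nat_lit 101) [nat_lit 2641985, nat_lit 6625282, nat_lit 5221441, nat_lit 2343968, nat_lit 4425729, nat_lit 4702208],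
 .step (nat_lit 133) [nat_lit 2872354, nat_lit 4744229, nat_lit 6963234, nat_lit 6889472],
 .step (nat_lit 132) [nat_lit 2643041, nat_lit 5217376, nat_lit 2342979, nat_lit 6644737, nat_lit 4611107, nat_lit 7083009],
 .step (nat_lit 130) [nat_lit 8321, nat_lit 7215104],
 .step (nat_lit 131) [nat_lit 2198624, nat_lit 6863872, nat_lit 5672000, nat_lit 7216224],
 .step (nat_lit 164) [nat_lit 5187, nat_lit 7217152],
 .step (nat_lit 99) [nat_lit 495619, nat_lit 6867971, nat_lit 6868995, nat_lit 7218240],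
 .step (nat_lit 99) [nat_lit 39008, nat_lit 7219203],
 .step (nat_lit 132) [nat_lit 6720512, nat_lit 3511298, nat_lit 7117824, nat_lit 7222273],
 .step (nat_lit 6) [nat_lit 7171, nat_lit 7121920],
 .step (nat_lit 100) [nat_lit 486467, nat_lit 2655235, nat_lit 3431457, nat_lit 7223360],
 .step (nat_lit 197) [nat_lit 1653920, nat_lit 4359234, nat_lit 7333891, nat_lit 3685472],
 .step (nat_lit 132) [nat_lit 4918304, nat_lit 5204994, nat_lit 7141472, nat_lit 6010912, nat_lit 6009857],
 .step (nat_lit 99) [nat_lit 2645056, nat_lit 2621505, nat_lit 2611264, nat_lit 2079744, nat_lit 2889762, nat_lit 6963200],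
 .sym (nat_lit 7322) true true false (nat_lit 8) (nat_lit 6),
 .sym (nat_lit 7322) false true false (nat_lit 8) (nat_lit 6),
 .step (nat_lit 99) [nat_lit 8258, nat_lit 7231488],
 .step (nat_lit 67) [nat_lit 2548800, nat_lit 3664928, nat_lit 3665921, nat_lit 3320832],
 .sym (nat_lit 7326) true false false (nat_lit 7) (nat_lit 6),
 .step (nat_lit 36) [nat_lit 2621441, nat_lit 2617345, nat_lit 2591745, nat_lit 6641664, nat_lit 6818818],
 .sym (nat_lit 7328) true true true (nat_lit 8) (nat_lit 5),
 .sym (nat_lit 7328) false false true (nat_lit 8) (nat_lit 5),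
 .sym (nat_lit 7328) true false true (nat_lit 8) (nat_lit 5),
 .sym (nat_lit 7328) true true false (nat_lit 8) (nat_lit 5),
 .step (nat_lit 35) [nat_lit 55298, nat_lit 5632000, nat_lit 7237632],
 .step (nat_lit 131) [nat_lit 486466, nat_lit 2649090, nat_lit 2655234, nat_lit 7239744],
 .step (nat_lit 99) [nat_lit 6309952, nat_lit 4658178, nat_lit 5710848, nat_lit 7230464, nat_lit 4117504, nat_lit 6988800],
 .step (nat_lit 130) [nat_lit 2361377, nat_lit 7073856, nat_lit 7240705, nat_lit 5713953],
 .step (nat_lit 195) [nat_lit 485411, nat_lit 493603, nat_lit 2703426, nat_lit 7241728],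
 .step (nat_lit 132) [nat_lit 1351808, nat_lit 1364064, nat_lit 7343105],
 .sym (nat_lit 7338) false true true (nat_lit 6) (nat_lit 9),
 .step (nat_lit 164) [nat_lit 6273, nat_lit 7243776],
 .step (nat_lit 132) [nat_lit 2588769, nat_lit 3209218, nat_lit 6641760, nat_lit 3206146, nat_lit 3613697],
 .step (nat_lit 132) [nat_lit 3702787, nat_lit 3703811, nat_lit 6380545, nat_lit 7248896, nat_lit 4835331, nat_lit 4834307],
 .step (nat_lit 101) [nat_lit 1365058, nat_lit 2079745, nat_lit 5340227, nat_lit 7390208],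
 .step (nat_lit 68) [nat_lit 7133216, nat_lit 1270787],
 .step (nat_lit 133) [nat_lit 219140, nat_lit 226308, nat_lit 280580, nat_lit 7255040],
 .step (nat_lit 132) [nat_lit 4849667, nat_lit 7257088, nat_lit 1057796],
 .step (nat_lit 132) [nat_lit 5299235, nat_lit 4849667, nat_lit 7257088, nat_lit 3718147],
 .step (nat_lit 162) [nat_lit 12354, nat_lit 7260160],
 .step (nat_lit 67) [nat_lit 37952, nat_lit 7263232],
 .step (nat_lit 100) [nat_lit 1268801, nat_lit 462913, nat_lit 7266304],
 .step (nat_lit 131) [nat_lit 7140448, nat_lit 4874272, nat_lit 6525952, nat_lit 7299072, nat_lit 4876320, nat_lit 4978752],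
 .step (nat_lit 132) [nat_lit 4312068, nat_lit 7267360],
 .step (nat_lit 99) [nat_lit 576610, nat_lit 4711426, nat_lit 6312962, nat_lit 7270400],
 .step (nat_lit 132) [nat_lit 4890626, nat_lit 6412290, nat_lit 6928384, nat_lit 7272448],
 .step (nat_lit 162) [nat_lit 4531201, nat_lit 7309313, nat_lit 5652545, nat_lit 6414400, nat_lit 7113793, nat_lit 7114752, nat_lit 6467585],
 .step (nat_lit 67) [nat_lit 2642976, nat_lit 2886689, nat_lit 3147777, nat_lit 3744769, nat_lit 3807264, nat_lit 5931008, nat_lit 6415362],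
 .sym (nat_lit 7356) true false false (nat_lit 7) (nat_lit 6),
 .step (nat_lit 163) [nat_lit 490595, nat_lit 485411, nat_lit 2659426, nat_lit 7148544],
 .step (nat_lit 197) [nat_lit 1269860, nat_lit 7273472],
 .step (nat_lit 131) [nat_lit 38016, nat_lit 7276544],
 .step (nat_lit 134) [nat_lit 579682, nat_lit 4709379, nat_lit 7159808, nat_lit 6931456],
 .step (nat_lit 100) [nat_lit 4709377, nat_lit 2210880, nat_lit 4538369, nat_lit 6933505],
 .step (nat_lit 131) [nat_lit 1353825, nat_lit 5167200, nat_lit 3782690, nat_lit 6670338],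
 .step (nat_lit 130) [nat_lit 1360992, nat_lit 3781665, nat_lit 6670337],
 .step (nat_lit 97) [nat_lit 1090561, nat_lit 3026976, nat_lit 2242560, nat_lit 2228224, nat_lit 7279648],
 .step (nat_lit 161) [nat_lit 2035712, nat_lit 6809664, nat_lit 6808672, nat_lit 7281760],
 .step (nat_lit 100) [nat_lit 7140416, nat_lit 4874240, nat_lit 4876288, nat_lit 6921216, nat_lit 5757952, nat_lit 5756960],
 .step (nat_lit 101) [nat_lit 142436, nat_lit 7109632],
 .step (nat_lit 132) [nat_lit 3106818, nat_lit 6720512, nat_lit 5791777, nat_lit 7117824],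
 .step (nat_lit 99) [nat_lit 747522, nat_lit 6405184, nat_lit 7097376, nat_lit 7098368],
 .step (nat_lit 131) [nat_lit 54275, nat_lit 2665506, nat_lit 5018624],
 .step (nat_lit 132) [nat_lit 5155, nat_lit 7293952],
 .step (nat_lit 131) [nat_lit 3122240, nat_lit 6462464, nat_lit 7301152],
 .sym (nat_lit 7373) true true true (nat_lit 7) (nat_lit 7),
 .step (nat_lit 133) [nat_lit 3602435, nat_lit 4358178, nat_lit 2875428, nat_lit 4968451, nat_lit 7251968],
 .step (nat_lit 165) [nat_lit 6512640, nat_lit 3693570, nat_lit 6377504, nat_lit 6960161, nat_lit 7246881],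
 .step (nat_lit 101) [nat_lit 6084611, nat_lit 2920450, nat_lit 4963360, nat_lit 4295682, nat_lit 6678528, nat_lit 4417568],
 .step (nat_lit 132) [nat_lit 3171361, nat_lit 5233728, nat_lit 5514240, nat_lit 5511168, nat_lit 6232064, nat_lit 6966274],
 .step (nat_lit 163) [nat_lit 493571, nat_lit 2647074, nat_lit 7303168],
 .step (nat_lit 195) [nat_lit 493603, nat_lit 2647106, nat_lit 7304192],
 .step (nat_lit 161) [nat_lit 1185792, nat_lit 7169024],
 .step (nat_lit 230) [nat_lit 5313540, nat_lit 7307362, nat_lit 6971424],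
 .step (nat_lit 133) [nat_lit 4882466, nat_lit 3564578, nat_lit 4843552, nat_lit 6297635, nat_lit 7269408, nat_lit 6484993],
 .step (nat_lit 99) [nat_lit 799810, nat_lit 6486080, nat_lit 7310336, nat_lit 6408224],
 .step (nat_lit 133) [nat_lit 1651716, nat_lit 1701892, nat_lit 2911236, nat_lit 6361090, nat_lit 6436898, nat_lit 7382016],
 .step (nat_lit 69) [nat_lit 487488, nat_lit 2770978, nat_lit 498752, nat_lit 7313408],
 .sym (nat_lit 7386) true false true (nat_lit 8) (nat_lit 7),
 .step (nat_lit 97) [nat_lit 1324032, nat_lit 5006336, nat_lit 7314432],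
 .step (nat_lit 101) [nat_lit 6084611, nat_lit 4963360, nat_lit 4295682, nat_lit 4415488, nat_lit 6980610, nat_lit 7341058, nat_lit 6981633],
 .step (nat_lit 132) [nat_lit 658530, nat_lit 521314, nat_lit 4171872, nat_lit 6502404, nat_lit 5753857],
 .step (nat_lit 101) [nat_lit 6084611, nat_lit 2920450, nat_lit 4963360, nat_lit 4295682, nat_lit 4417568, nat_lit 6192162, nat_lit 7340032],
 .step (nat_lit 133) [nat_lit 2619489, nat_lit 2610273, nat_lit 2588769, nat_lit 5980194, nat_lit 7317504],
 .step (nat_lit 99) [nat_lit 5224449, nat_lit 7000066, nat_lit 3886082, nat_lit 6993922, nat_lit 7319584],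
 .step (nat_lit 131) [nat_lit 7123040, nat_lit 3659777],
 .step (nat_lit 131) [nat_lit 7123040, nat_lit 4779008, nat_lit 3660801, nat_lit 4796417, nat_lit 6995968],
 .step (nat_lit 66) [nat_lit 1358849, nat_lit 1270785, nat_lit 1366017, nat_lit 7320608],
 .step (nat_lit 101) [nat_lit 4965379, nat_lit 6675458, nat_lit 4420611, nat_lit 7002114, nat_lit 4719619, nat_lit 7226368, nat_lit 4721667, nat_lit 6851584, nat_lit 7206912],
 .step (nat_lit 131) [nat_lit 2645088, nat_lit 2611296, nat_lit 6049889, nat_lit 3265570, nat_lit 6998048, nat_lit 7324672],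
 .step (nat_lit 164) [nat_lit 2642048, nat_lit 6620257, nat_lit 4027488, nat_lit 2627712, nat_lit 7325696],
 .sym (nat_lit 7399) true true false (nat_lit 7) (nat_lit 10),
 .sym (nat_lit 7399) true false false (nat_lit 7) (nat_lit 10),
 .step (nat_lit 130) [nat_lit 2588768, nat_lit 6620225, nat_lit 1736705],
 .step (nat_lit 132) [nat_lit 2621538, nat_lit 7186499, nat_lit 6440960],
 .step (nat_lit 132) [nat_lit 2643040, nat_lit 2593888, nat_lit 6622272, nat_lit 2007040],
 .step (nat_lit 99) [nat_lit 490563, nat_lit 496707, nat_lit 3165185, nat_lit 7335968],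
 .step (nat_lit 164) [nat_lit 1269827, nat_lit 1582145, nat_lit 5898272, nat_lit 7339009],
 .step (nat_lit 98) [nat_lit 656386, nat_lit 3685376, nat_lit 5012481],
 .step (nat_lit 100) [nat_lit 1270819, nat_lit 4681760, nat_lit 7342080],
 .step (nat_lit 197) [nat_lit 1269860, nat_lit 54341, nat_lit 5480515, nat_lit 7344128],
 .step (nat_lit 134) [nat_lit 579682, nat_lit 4066307, nat_lit 6923298, nat_lit 7278592],
 .step (nat_lit 132) [nat_lit 2645089, nat_lit 2618465, nat_lit 6622273, nat_lit 5172320, nat_lit 3483649, nat_lit 5510144, nat_lit 7175200],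
 .step (nat_lit 162) [nat_lit 3681313, nat_lit 3427329, nat_lit 4792449, nat_lit 7025664, nat_lit 7347201],
 .step (nat_lit 163) [nat_lit 2654274, nat_lit 1378370, nat_lit 1404994, nat_lit 7354368],
 .step (nat_lit 197) [nat_lit 2654308, nat_lit 1378404, nat_lit 1405028, nat_lit 2770020, nat_lit 7355392],
 .step (nat_lit 162) [nat_lit 1536032, nat_lit 5925889, nat_lit 7035904, nat_lit 7356416],
 .step (nat_lit 136) [nat_lit 56420, nat_lit 7358464],
 .step (nat_lit 132) [nat_lit 4890626, nat_lit 6412290, nat_lit 7272448, nat_lit 7359488],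
 .step (nat_lit 129) [nat_lit 4433952, nat_lit 5934080],
 .step (nat_lit 98) [nat_lit 21568, nat_lit 7360512],
 .step (nat_lit 163) [nat_lit 4309090, nat_lit 4292610, nat_lit 4294658, nat_lit 4293634, nat_lit 7199776, nat_lit 7070752],
 .step (nat_lit 132) [nat_lit 2616416, nat_lit 2589792, nat_lit 3655712, nat_lit 3647490],
 .step (nat_lit 133) [nat_lit 5636098, nat_lit 4871234, nat_lit 7074849, nat_lit 4442114, nat_lit 7311394, nat_lit 7046176, nat_lit 7361569],
 .step (nat_lit 131) [nat_lit 3313666, nat_lit 5099521, nat_lit 7362592, nat_lit 5939200],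
 .step (nat_lit 131) [nat_lit 3313666, nat_lit 5099521, nat_lit 6920192, nat_lit 7265312],
 .step (nat_lit 132) [nat_lit 2914307, nat_lit 1682435, nat_lit 6362114, nat_lit 6437922, nat_lit 7364608],
 .step (nat_lit 195) [nat_lit 3313730, nat_lit 5113952, nat_lit 5114944, nat_lit 7365698, nat_lit 7052288, nat_lit 7143456],
 .step (nat_lit 100) [nat_lit 657411, nat_lit 7368768, nat_lit 7369731],
 .sym (nat_lit 7427) true false true (nat_lit 8) (nat_lit 8),
 .step (nat_lit 100) [nat_lit 972896, nat_lit 4081665, nat_lit 1343552, nat_lit 7370752],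
 .step (nat_lit 198) [nat_lit 5338179, nat_lit 5259330, nat_lit 3732483, nat_lit 6174723, nat_lit 6423649, nat_lit 7371840],
 .step (nat_lit 164) [nat_lit 6760451, nat_lit 5448706, nat_lit 6596642, nat_lit 6189058, nat_lit 7061568, nat_lit 6759426],
 .step (nat_lit 198) [nat_lit 1494049, nat_lit 3906657, nat_lit 1347588, nat_lit 7373920],
 .step (nat_lit 162) [nat_lit 2597985, nat_lit 5117952, nat_lit 7374913],
 .step (nat_lit 132) [nat_lit 972928, nat_lit 4065345, nat_lit 3747840, nat_lit 7375937],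
 .step (nat_lit 132) [nat_lit 5794816, nat_lit 7144480, nat_lit 7145504, nat_lit 5851168, nat_lit 6762528, nat_lit 7376896],
 .step (nat_lit 165) [nat_lit 1777763, nat_lit 2035716, nat_lit 7147584, nat_lit 7312386],
 .step (nat_lit 133) [nat_lit 1651716, nat_lit 1701892, nat_lit 2911236, nat_lit 6361090, nat_lit 6436898, nat_lit 7378944],
 .step (nat_lit 162) [nat_lit 300161, nat_lit 2577473, nat_lit 7384064],
 .step (nat_lit 131) [nat_lit 925731, nat_lit 1868801, nat_lit 5426176, nat_lit 7291936],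
 .step (nat_lit 102) [nat_lit 800837, nat_lit 4361282, nat_lit 6726656, nat_lit 7387170, nat_lit 7386145],
 .step (nat_lit 164) [nat_lit 6311937, nat_lit 4161539, nat_lit 4658179, nat_lit 5711873, nat_lit 7229504, nat_lit 6679617],
 .step (nat_lit 100) [nat_lit 4919296, nat_lit 6524928, nat_lit 7297024, nat_lit 7298048, nat_lit 5651457],
 .step (nat_lit 131) [nat_lit 6647809, nat_lit 7242784, nat_lit 6756353, nat_lit 7078912, nat_lit 7085056, nat_lit 6018050, nat_lit 6666240, nat_lit 7395328],
 .sym (nat_lit 7443) true false true (nat_lit 7) (nat_lit 8),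
 .step (nat_lit 162) [nat_lit 2623489, nat_lit 2612225, nat_lit 2592769, nat_lit 6643777, nat_lit 7188480],
 .step (nat_lit 99) [nat_lit 2649090, nat_lit 2647074, nat_lit 2648066, nat_lit 2646050, nat_lit 7401472, nat_lit 7402560],
 .sym (nat_lit 7446) true false false (nat_lit 5) (nat_lit 8),
 .sym (nat_lit 7446) false false true (nat_lit 5) (nat_lit 8),
 .sym (nat_lit 7446) true true false (nat_lit 5) (nat_lit 8),
 .step (nat_lit 161) [nat_lit 7297, nat_lit 7404544],
 .step (nat_lit 100) [nat_lit 1353792, nat_lit 1359936, nat_lit 1369153, nat_lit 7406593],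
 .sym (nat_lit 7451) true true false (nat_lit 6) (nat_lit 6),
 .step (nat_lit 101) [nat_lit 5800961, nat_lit 2981922, nat_lit 6181888, nat_lit 4269058, nat_lit 5306369, nat_lit 5801985, nat_lit 7283713, nat_lit 5799937],
 .step (nat_lit 132) [nat_lit 6622273, nat_lit 6085697, nat_lit 6663233, nat_lit 6701089, nat_lit 7408640],
 .step (nat_lit 130) [nat_lit 6990848, nat_lit 6093857, nat_lit 7409665, nat_lit 3800065, nat_lit 6105089],
 .sym (nat_lit 7455) true true false (nat_lit 6) (nat_lit 8),
 .step (nat_lit 35) [nat_lit 3061793, nat_lit 1755138, nat_lit 7411712],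
 .step (nat_lit 101) [nat_lit 657476, nat_lit 3061859, nat_lit 4273186, nat_lit 7412736],
 .step (nat_lit 131) [nat_lit 1355778, nat_lit 3072002, nat_lit 5212193, nat_lit 7548928],
 .step (nat_lit 131) [nat_lit 461859, nat_lit 2678818, nat_lit 4034594, nat_lit 7413760],
 .step (nat_lit 198) [nat_lit 2647109, nat_lit 6097028, nat_lit 3164228, nat_lit 3070020, nat_lit 7415808],
 .step (nat_lit 132) [nat_lit 5252, nat_lit 7416832],
 .step (nat_lit 131) [nat_lit 7507968, nat_lit 4375682],
 .step (nat_lit 36) [nat_lit 2994176, nat_lit 7118849, nat_lit 5570560, nat_lit 7418882],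
 .step (nat_lit 36) [nat_lit 2610177, nat_lit 2588673, nat_lit 3656706, nat_lit 3187712],
 .step (nat_lit 133) [nat_lit 2913316, nat_lit 6152258, nat_lit 6153282, nat_lit 7419904],
 .sym (nat_lit 7466) true true false (nat_lit 8) (nat_lit 7),
 .step (nat_lit 131) [nat_lit 5296129, nat_lit 4251650, nat_lit 4255744, nat_lit 7449600],
 .step (nat_lit 131) [nat_lit 5296129, nat_lit 4251650, nat_lit 4255744, nat_lit 7205888, nat_lit 7581696, nat_lit 6738944],
 .step (nat_lit 131) [nat_lit 5296129, nat_lit 4251650, nat_lit 4255744, nat_lit 7517184, nat_lit 7422976],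
 .step (nat_lit 131) [nat_lit 6273, nat_lit 7425024],
 .step (nat_lit 100) [nat_lit 1270819, nat_lit 299104, nat_lit 7427072],
 .step (nat_lit 100) [nat_lit 1270819, nat_lit 3257408, nat_lit 7428096],
 .step (nat_lit 130) [nat_lit 1354880, nat_lit 1267808, nat_lit 1359968, nat_lit 7429121],
 .step (nat_lit 131) [nat_lit 38016, nat_lit 4476930],
 .step (nat_lit 137) [nat_lit 3170404, nat_lit 6771718, nat_lit 7431168],
 .step (nat_lit 196) [nat_lit 4163619, nat_lit 6304801, nat_lit 7534593, nat_lit 5963808, nat_lit 5476352, nat_lit 6493184],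
 .step (nat_lit 101) [nat_lit 1170496, nat_lit 5490720, nat_lit 6482976, nat_lit 7414784],
 .step (nat_lit 165) [nat_lit 497794, nat_lit 1561666, nat_lit 2400260, nat_lit 7432192],
 .step (nat_lit 131) [nat_lit 38016, nat_lit 7433219],
 .step (nat_lit 99) [nat_lit 37984, nat_lit 7435266],
 .step (nat_lit 164) [nat_lit 1997824, nat_lit 3487776, nat_lit 7436384],
 .step (nat_lit 131) [nat_lit 2645088, nat_lit 3171360, nat_lit 3339296, nat_lit 5516321, nat_lit 5515265, nat_lit 7437346],
 .step (nat_lit 197) [nat_lit 6107233, nat_lit 6798401, nat_lit 7173186, nat_lit 6242370, nat_lit 6799457, nat_lit 5536769, nat_lit 7439392, nat_lit 6800385],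
 .step (nat_lit 99) [nat_lit 5473315, nat_lit 7174211, nat_lit 7280642, nat_lit 6937600],
 .step (nat_lit 131) [nat_lit 38016, nat_lit 7440384],
 .step (nat_lit 68) [nat_lit 17476, nat_lit 7442432],
 .step (nat_lit 163) [nat_lit 9344, nat_lit 7403520],
 .step (nat_lit 163) [nat_lit 2187360, nat_lit 3604576, nat_lit 6061120, nat_lit 7450624],
 .step (nat_lit 68) [nat_lit 6177, nat_lit 7451648],
 .step (nat_lit 99) [nat_lit 5397571, nat_lit 7446528, nat_lit 7453698],
 .step (nat_lit 101) [nat_lit 58437, nat_lit 4634626, nat_lit 7454720],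
 .step (nat_lit 131) [nat_lit 2622560, nat_lit 2611296, nat_lit 2593888, nat_lit 6642690, nat_lit 7187488],
 .step (nat_lit 69) [nat_lit 218180, nat_lit 225316, nat_lit 279588, nat_lit 7455744],
 .step (nat_lit 101) [nat_lit 493572, nat_lit 2958403, nat_lit 4640769, nat_lit 7457856],
 .step (nat_lit 39) [nat_lit 1351715, nat_lit 1364995, nat_lit 1368067, nat_lit 7459840],
 .step (nat_lit 7) [nat_lit 7172, nat_lit 7460864],
 .step (nat_lit 98) [nat_lit 1267776, nat_lit 2598913, nat_lit 7461889],
 .step (nat_lit 131) [nat_lit 1357827, nat_lit 1269794, nat_lit 7462912]]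

theorem c7250 : checkFrom tbl r7250 (nat_lit 7500) (nat_lit 7250) = true := by decide +kernel

end Crest.Agent.R035
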