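import Crest.Agent.R035.Table

set_option autoImplicit false
set_option maxRecDepth 100000

namespace Crest.Agent.R035

noncomputable def r1500 : List Rule := [
 .sym (nat_lit 1499) false true false (nat_lit 4) (nat_lit 5),
 .step (nat_lit 132) [nat_lit 18435, nat_lit 686112],
 .sym (nat_lit 1501) false false true (nat_lit 4) (nat_lit 5),
 .sym (nat_lit 1501) true true false (nat_lit 4) (nat_lit 5),
 .step (nat_lit 33) [nat_lit 11265, nat_lit 687104],
 .sym (nat_lit 1504) true true true (nat_lit 5) (nat_lit 4),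
 .sym (nat_lit 1504) true true false (nat_lit 5) (nat_lit 4),
 .sym (nat_lit 1504) false false true (nat_lit 5) (nat_lit 4),
 .sym (nat_lit 1504) true false false (nat_lit 5) (nat_lit 4),
 .sym (nat_lit 1504) true false true (nat_lit 5) (nat_lit 4),
 .sym (nat_lit 1504) false true true (nat_lit 5) (nat_lit 4),
 .step (nat_lit 129) [nat_lit 8288, nat_lit 688129],
 .sym (nat_lit 1511) false true false (nat_lit 5) (nat_lit 5),
 .step (nat_lit 68) [nat_lit 9248, nat_lit 690177],
 .step (nat_lit 132) [nat_lit 6241, nat_lit 691200],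
 .sym (nat_lit 1514) false false true (nat_lit 5) (nat_lit 5),
 .sym (nat_lit 1514) true false true (nat_lit 5) (nat_lit 5),
 .step (nat_lit 98) [nat_lit 11265, nat_lit 568352],
 .sym (nat_lit 1517) true false true (nat_lit 5) (nat_lit 5),
 .step (nat_lit 129) [nat_lit 8288, nat_lit 558080],
 .sym (nat_lit 1519) true false false (nat_lit 4) (nat_lit 4),
 .sym (nat_lit 1519) true false true (nat_lit 4) (nat_lit 4),
 .sym (nat_lit 1519) false true false (nat_lit 4) (nat_lit 4),
 .sym (nat_lit 1519) false false true (nat_lit 4) (nat_lit 4),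
 .step (nat_lit 131) [nat_lit 23554, nat_lit 489568],
 .sym (nat_lit 1524) false false true (nat_lit 6) (nat_lit 4),
 .sym (nat_lit 1524) true false false (nat_lit 6) (nat_lit 4),
 .sym (nat_lit 1524) true true false (nat_lit 6) (nat_lit 4),
 .sym (nat_lit 1524) false true false (nat_lit 6) (nat_lit 4),
 .sym (nat_lit 1524) false true true (nat_lit 6) (nat_lit 4),
 .step (nat_lit 131) [nat_lit 44034, nat_lit 489568],
 .sym (nat_lit 1530) false false true (nat_lit 6) (nat_lit 4),
 .sym (nat_lit 1530) false true true (nat_lit 6) (nat_lit 4),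
 .sym (nat_lit 1530) true true true (nat_lit 6) (nat_lit 4),
 .sym (nat_lit 1530) true false true (nat_lit 6) (nat_lit 4),
 .sym (nat_lit 1530) false true false (nat_lit 6) (nat_lit 4),
 .step (nat_lit 4) [nat_lit 35840, nat_lit 472066],
 .step (nat_lit 97) [nat_lit 12289, nat_lit 699424],
 .step (nat_lit 128) [nat_lit 30720, nat_lit 463968],
 .step (nat_lit 32) [nat_lit 51232, nat_lit 708608],
 .sym (nat_lit 1539) false true false (nat_lit 4) (nat_lit 5),
 .step (nat_lit 98) [nat_lit 6240, nat_lit 488450],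
 .sym (nat_lit 1541) false false true (nat_lit 4) (nat_lit 6),
 .step (nat_lit 99) [nat_lit 19520, nat_lit 711680],
 .step (nat_lit 97) [nat_lit 10304, nat_lit 567296],
 .step (nat_lit 100) [nat_lit 5123, nat_lit 660544],
 .sym (nat_lit 1545) true true true (nat_lit 6) (nat_lit 4),
 .sym (nat_lit 1545) false true false (nat_lit 6) (nat_lit 4),
 .sym (nat_lit 1545) false true true (nat_lit 6) (nat_lit 4),
 .sym (nat_lit 1545) true false true (nat_lit 6) (nat_lit 4),
 .sym (nat_lit 1545) true false false (nat_lit 6) (nat_lit 4),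
 .sym (nat_lit 1545) true true false (nat_lit 6) (nat_lit 4),
 .step (nat_lit 132) [nat_lit 16480, nat_lit 1005568],
 .sym (nat_lit 1552) true true false (nat_lit 5) (nat_lit 4),
 .sym (nat_lit 1552) true false false (nat_lit 5) (nat_lit 4),
 .step (nat_lit 67) [nat_lit 7232, nat_lit 966656],
 .step (nat_lit 32) [nat_lit 11264, nat_lit 713728],
 .sym (nat_lit 1556) false true false (nat_lit 4) (nat_lit 4),
 .step (nat_lit 33) [nat_lit 5121, nat_lit 464896],
 .sym (nat_lit 1558) true true true (nat_lit 2) (nat_lit 5),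
 .step (nat_lit 99) [nat_lit 5122, nat_lit 627776],
 .step (nat_lit 131) [nat_lit 24672, nat_lit 622592],
 .step (nat_lit 100) [nat_lit 37952, nat_lit 496643],
 .sym (nat_lit 1562) false true true (nat_lit 4) (nat_lit 6),
 .step (nat_lit 65) [nat_lit 11264, nat_lit 472096],
 .sym (nat_lit 1564) true true false (nat_lit 2) (nat_lit 6),
 .step (nat_lit 98) [nat_lit 12290, nat_lit 499776],
 .sym (nat_lit 1566) false false true (nat_lit 6) (nat_lit 4),
 .sym (nat_lit 1566) false true true (nat_lit 6) (nat_lit 4),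
 .sym (nat_lit 1566) true false false (nat_lit 6) (nat_lit 4),
 .sym (nat_lit 1566) false true false (nat_lit 6) (nat_lit 4),
 .sym (nat_lit 1566) true false true (nat_lit 6) (nat_lit 4),
 .step (nat_lit 35) [nat_lit 10242, nat_lit 549920],
 .step (nat_lit 35) [nat_lit 11267, nat_lit 725024],
 .step (nat_lit 65) [nat_lit 8224, nat_lit 726017],
 .step (nat_lit 129) [nat_lit 8288, nat_lit 733185],
 .sym (nat_lit 1575) true true true (nat_lit 4) (nat_lit 5),
 .step (nat_lit 32) [nat_lit 11264, nat_lit 780288],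
 .sym (nat_lit 1577) false true true (nat_lit 5) (nat_lit 4),
 .step (nat_lit 130) [nat_lit 5153, nat_lit 624640],
 .step (nat_lit 33) [nat_lit 267264, nat_lit 750593, nat_lit 1167360],
 .step (nat_lit 162) [nat_lit 12354, nat_lit 759808],
 .step (nat_lit 129) [nat_lit 656384, nat_lit 143360, nat_lit 670720],
 .sym (nat_lit 1582) false true false (nat_lit 2) (nat_lit 6),
 .sym (nat_lit 1582) true false false (nat_lit 2) (nat_lit 6),
 .sym (nat_lit 1582) true true false (nat_lit 2) (nat_lit 6),
 .step (nat_lit 65) [nat_lit 13345, nat_lit 763904],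
 .sym (nat_lit 1586) false false true (nat_lit 5) (nat_lit 2),
 .step (nat_lit 65) [nat_lit 9280, nat_lit 769025],
 .step (nat_lit 129) [nat_lit 10241, nat_lit 611360],
 .sym (nat_lit 1589) true false true (nat_lit 2) (nat_lit 6),
 .step (nat_lit 97) [nat_lit 12288, nat_lit 778240],
 .sym (nat_lit 1591) true false false (nat_lit 2) (nat_lit 5),
 .step (nat_lit 65) [nat_lit 7201, nat_lit 783360],
 .sym (nat_lit 1593) false true false (nat_lit 5) (nat_lit 4),
 .sym (nat_lit 1593) true false false (nat_lit 5) (nat_lit 4),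
 .sym (nat_lit 1593) false false true (nat_lit 5) (nat_lit 4),
 .step (nat_lit 96) [nat_lit 42048, nat_lit 494592],
 .sym (nat_lit 1597) true false true (nat_lit 4) (nat_lit 6),
 .sym (nat_lit 1597) true false false (nat_lit 4) (nat_lit 6),
 .sym (nat_lit 1597) true true true (nat_lit 4) (nat_lit 6),
 .sym (nat_lit 1597) false false true (nat_lit 4) (nat_lit 6),
 .sym (nat_lit 1597) false true true (nat_lit 4) (nat_lit 6),
 .step (nat_lit 68) [nat_lit 9248, nat_lit 566273],
 .step (nat_lit 66) [nat_lit 27681, nat_lit 806912],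
 .step (nat_lit 99) [nat_lit 23554, nat_lit 809024],
 .step (nat_lit 129) [nat_lit 44032, nat_lit 741472],
 .step (nat_lit 131) [nat_lit 659552, nat_lit 72706],
 .sym (nat_lit 1607) true false false (nat_lit 6) (nat_lit 5),
 .step (nat_lit 99) [nat_lit 6241, nat_lit 527360],
 .step (nat_lit 129) [nat_lit 11264, nat_lit 774176],
 .step (nat_lit 36) [nat_lit 39936, nat_lit 661536],
 .step (nat_lit 98) [nat_lit 5121, nat_lit 814112],
 .step (nat_lit 65) [nat_lit 11264, nat_lit 475168],
 .sym (nat_lit 1613) true false false (nat_lit 2) (nat_lit 6),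
 .sym (nat_lit 1613) false true true (nat_lit 2) (nat_lit 6),
 .sym (nat_lit 1613) false true false (nat_lit 2) (nat_lit 6),
 .sym (nat_lit 1613) true true false (nat_lit 2) (nat_lit 6),
 .step (nat_lit 129) [nat_lit 33793, nat_lit 656384],
 .step (nat_lit 4) [nat_lit 7169, nat_lit 816128],
 .step (nat_lit 35) [nat_lit 11267, nat_lit 716800],
 .step (nat_lit 98) [nat_lit 28673, nat_lit 768096],
 .step (nat_lit 68) [nat_lit 7233, nat_lit 817152],
 .step (nat_lit 161) [nat_lit 21632, nat_lit 495616],
 .step (nat_lit 65) [nat_lit 9280, nat_lit 619520],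
 .sym (nat_lit 1624) true false false (nat_lit 4) (nat_lit 5),
 .sym (nat_lit 1624) true true false (nat_lit 4) (nat_lit 5),
 .step (nat_lit 97) [nat_lit 7233, nat_lit 819200],
 .step (nat_lit 68) [nat_lit 21568, nat_lit 569344],
 .sym (nat_lit 1628) false true true (nat_lit 4) (nat_lit 4),
 .step (nat_lit 98) [nat_lit 12290, nat_lit 827424],
 .step (nat_lit 68) [nat_lit 7233, nat_lit 828416],
 .sym (nat_lit 1631) true true false (nat_lit 5) (nat_lit 5),
 .step (nat_lit 99) [nat_lit 12291, nat_lit 564224],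
 .sym (nat_lit 1633) false true false (nat_lit 5) (nat_lit 4),
 .step (nat_lit 37) [nat_lit 10244, nat_lit 834592],
 .step (nat_lit 66) [nat_lit 7201, nat_lit 480256],
 .step (nat_lit 4) [nat_lit 7169, nat_lit 835584],
 .step (nat_lit 67) [nat_lit 6176, nat_lit 837632],
 .sym (nat_lit 1638) false true true (nat_lit 4) (nat_lit 4),
 .step (nat_lit 129) [nat_lit 8288, nat_lit 836608],
 .sym (nat_lit 1640) false false true (nat_lit 4) (nat_lit 4),
 .step (nat_lit 65) [nat_lit 11264, nat_lit 508928],
 .sym (nat_lit 1642) true false false (nat_lit 2) (nat_lit 5),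
 .sym (nat_lit 1642) false true false (nat_lit 2) (nat_lit 5),
 .sym (nat_lit 1642) false false true (nat_lit 2) (nat_lit 5),
 .sym (nat_lit 1642) true true true (nat_lit 2) (nat_lit 5),
 .sym (nat_lit 1642) false true true (nat_lit 2) (nat_lit 5),
 .step (nat_lit 65) [nat_lit 11296, nat_lit 736257],
 .sym (nat_lit 1648) true true true (nat_lit 2) (nat_lit 5),
 .step (nat_lit 97) [nat_lit 5121, nat_lit 472064],
 .sym (nat_lit 1650) true false false (nat_lit 2) (nat_lit 5),
 .step (nat_lit 33) [nat_lit 12288, nat_lit 475136],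
 .sym (nat_lit 1652) false true true (nat_lit 2) (nat_lit 5),
 .step (nat_lit 100) [nat_lit 5123, nat_lit 582720],
 .sym (nat_lit 1654) true false false (nat_lit 5) (nat_lit 4),
 .sym (nat_lit 1654) true true true (nat_lit 5) (nat_lit 4),
 .step (nat_lit 129) [nat_lit 9312, nat_lit 845824],
 .step (nat_lit 98) [nat_lit 9281, nat_lit 846848],
 .sym (nat_lit 1658) true true true (nat_lit 5) (nat_lit 4),
 .sym (nat_lit 1658) false true false (nat_lit 5) (nat_lit 4),
 .sym (nat_lit 1658) false true true (nat_lit 5) (nat_lit 4),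
 .step (nat_lit 65) [nat_lit 11264, nat_lit 464928],
 .sym (nat_lit 1662) false true false (nat_lit 1) (nat_lit 6),
 .sym (nat_lit 1662) true false false (nat_lit 1) (nat_lit 6),
 .sym (nat_lit 1662) true true false (nat_lit 1) (nat_lit 6),
 .step (nat_lit 36) [nat_lit 21536, nat_lit 660480],
 .sym (nat_lit 1666) false false true (nat_lit 6) (nat_lit 2),
 .sym (nat_lit 1666) true true true (nat_lit 6) (nat_lit 2),
 .sym (nat_lit 1666) false true true (nat_lit 6) (nat_lit 2),
 .sym (nat_lit 1666) true false true (nat_lit 6) (nat_lit 2),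
 .step (nat_lit 96) [nat_lit 7232, nat_lit 486400],
 .step (nat_lit 33) [nat_lit 9248, nat_lit 611329],
 .step (nat_lit 97) [nat_lit 21568, nat_lit 652288],
 .step (nat_lit 35) [nat_lit 10242, nat_lit 849952],
 .step (nat_lit 36) [nat_lit 21536, nat_lit 513024],
 .sym (nat_lit 1675) false true false (nat_lit 6) (nat_lit 2),
 .step (nat_lit 35) [nat_lit 8224, nat_lit 473089],
 .sym (nat_lit 1677) true false false (nat_lit 6) (nat_lit 2),
 .sym (nat_lit 1677) true true true (nat_lit 6) (nat_lit 2),
 .sym (nat_lit 1677) true false true (nat_lit 6) (nat_lit 2),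
 .sym (nat_lit 1677) true true false (nat_lit 6) (nat_lit 2),
 .sym (nat_lit 1677) false true false (nat_lit 6) (nat_lit 2),
 .sym (nat_lit 1677) false true true (nat_lit 6) (nat_lit 2),
 .sym (nat_lit 1677) false false true (nat_lit 6) (nat_lit 2),
 .step (nat_lit 132) [nat_lit 26753, nat_lit 1168384],
 .step (nat_lit 99) [nat_lit 48224, nat_lit 612354],
 .step (nat_lit 65) [nat_lit 8224, nat_lit 852992],
 .sym (nat_lit 1687) false true false (nat_lit 5) (nat_lit 4),
 .step (nat_lit 35) [nat_lit 11267, nat_lit 858112],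
 .step (nat_lit 97) [nat_lit 523265, nat_lit 859168],
 .step (nat_lit 129) [nat_lit 7265, nat_lit 1196032],
 .step (nat_lit 36) [nat_lit 205825, nat_lit 860160],
 .step (nat_lit 3) [nat_lit 52226, nat_lit 499712],
 .step (nat_lit 1) [nat_lit 20481, nat_lit 861184],
 .step (nat_lit 133) [nat_lit 52229, nat_lit 500832],
 .step (nat_lit 99) [nat_lit 45059, nat_lit 499808],
 .sym (nat_lit 1696) false true true (nat_lit 6) (nat_lit 4),
 .step (nat_lit 37) [nat_lit 19458, nat_lit 740384],
 .step (nat_lit 131) [nat_lit 40962, nat_lit 531552],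
 .sym (nat_lit 1699) true false true (nat_lit 5) (nat_lit 4),
 .sym (nat_lit 1699) false false true (nat_lit 5) (nat_lit 4),
 .sym (nat_lit 1699) true false false (nat_lit 5) (nat_lit 4),
 .step (nat_lit 129) [nat_lit 61440, nat_lit 461857],
 .sym (nat_lit 1703) true false true (nat_lit 2) (nat_lit 6),
 .sym (nat_lit 1703) false true true (nat_lit 2) (nat_lit 6),
 .sym (nat_lit 1703) false false true (nat_lit 2) (nat_lit 6),
 .sym (nat_lit 1703) true false false (nat_lit 2) (nat_lit 6),
 .sym (nat_lit 1703) true true false (nat_lit 2) (nat_lit 6),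
 .sym (nat_lit 1703) false true false (nat_lit 2) (nat_lit 6),
 .step (nat_lit 33) [nat_lit 59392, nat_lit 553985],
 .sym (nat_lit 1710) true false true (nat_lit 2) (nat_lit 7),
 .sym (nat_lit 1710) true false false (nat_lit 2) (nat_lit 7),
 .step (nat_lit 132) [nat_lit 16480, nat_lit 873473],
 .step (nat_lit 1) [nat_lit 43008, nat_lit 877568],
 .step (nat_lit 32) [nat_lit 41984, nat_lit 581632],
 .step (nat_lit 99) [nat_lit 12291, nat_lit 879616],
 .step (nat_lit 35) [nat_lit 19456, nat_lit 471040],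
 .sym (nat_lit 1717) true true false (nat_lit 5) (nat_lit 2),
 .sym (nat_lit 1717) true true true (nat_lit 5) (nat_lit 2),
 .sym (nat_lit 1717) false true true (nat_lit 5) (nat_lit 2),
 .sym (nat_lit 1717) false false true (nat_lit 5) (nat_lit 2),
 .sym (nat_lit 1717) false true false (nat_lit 5) (nat_lit 2),
 .step (nat_lit 129) [nat_lit 48257, nat_lit 881664],
 .step (nat_lit 33) [nat_lit 9216, nat_lit 506880],
 .step (nat_lit 132) [nat_lit 18435, nat_lit 882720],
 .step (nat_lit 97) [nat_lit 11264, nat_lit 464928],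
 .sym (nat_lit 1726) true false true (nat_lit 1) (nat_lit 6),
 .sym (nat_lit 1726) false false true (nat_lit 1) (nat_lit 6),
 .sym (nat_lit 1726) true false false (nat_lit 1) (nat_lit 6),
 .sym (nat_lit 1726) false true false (nat_lit 1) (nat_lit 6),
 .step (nat_lit 33) [nat_lit 11264, nat_lit 883712],
 .step (nat_lit 162) [nat_lit 5185, nat_lit 886784],
 .step (nat_lit 65) [nat_lit 20545, nat_lit 884736],
 .step (nat_lit 164) [nat_lit 5187, nat_lit 887808],
 .step (nat_lit 131) [nat_lit 11266, nat_lit 863264],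
 .step (nat_lit 35) [nat_lit 29697, nat_lit 744480],
 .step (nat_lit 99) [nat_lit 5122, nat_lit 893984],
 .step (nat_lit 34) [nat_lit 11266, nat_lit 880672],
 .step (nat_lit 129) [nat_lit 488448, nat_lit 495616, nat_lit 648224],
 .step (nat_lit 131) [nat_lit 487520, nat_lit 493571],
 .step (nat_lit 97) [nat_lit 219201, nat_lit 127008, nat_lit 647168],
 .step (nat_lit 65) [nat_lit 5185, nat_lit 478208],
 .sym (nat_lit 1742) true true true (nat_lit 2) (nat_lit 6),
 .sym (nat_lit 1742) true false false (nat_lit 2) (nat_lit 6),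
 .sym (nat_lit 1742) true true false (nat_lit 2) (nat_lit 6),
 .step (nat_lit 67) [nat_lit 11266, nat_lit 863264],
 .step (nat_lit 68) [nat_lit 27651, nat_lit 704512],
 .sym (nat_lit 1747) true false true (nat_lit 5) (nat_lit 4),
 .sym (nat_lit 1747) false true true (nat_lit 5) (nat_lit 4)]

theorem c1500 : checkFrom tbl r1500 (nat_lit 1750) (nat_lit 1500) = true := by decide +kernel

noncomputable def r3500 : List Rule := [
 .sym (nat_lit 3499) true true true (nat_lit 5) (nat_lit 5),
 .sym (nat_lit 3499) true true false (nat_lit 5) (nat_lit 5),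
 .step (nat_lit 66) [nat_lit 1353760, nat_lit 1360928, nat_lit 2101249],
 .sym (nat_lit 3502) false true true (nat_lit 6) (nat_lit 4),
 .sym (nat_lit 3502) true false false (nat_lit 6) (nat_lit 4),
 .step (nat_lit 131) [nat_lit 12323, nat_lit 2341888],
 .step (nat_lit 65) [nat_lit 20545, nat_lit 2350080],
 .step (nat_lit 33) [nat_lit 25632, nat_lit 2344960],
 .step (nat_lit 1) [nat_lit 20481, nat_lit 2349056],
 .sym (nat_lit 3508) true true true (nat_lit 6) (nat_lit 4),
 .step (nat_lit 130) [nat_lit 5153, nat_lit 1972224],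
 .step (nat_lit 97) [nat_lit 25696, nat_lit 2017280],
 .step (nat_lit 35) [nat_lit 10242, nat_lit 2351104],
 .step (nat_lit 129) [nat_lit 8288, nat_lit 1865729],
 .step (nat_lit 100) [nat_lit 144448, nat_lit 1503296, nat_lit 1646592],
 .step (nat_lit 69) [nat_lit 6178, nat_lit 1828864],
 .step (nat_lit 100) [nat_lit 6209, nat_lit 1576960],
 .step (nat_lit 35) [nat_lit 1567744, nat_lit 1789952],
 .step (nat_lit 133) [nat_lit 1268834, nat_lit 2174976],
 .step (nat_lit 133) [nat_lit 1359968, nat_lit 2238466],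
 .step (nat_lit 97) [nat_lit 175104, nat_lit 571392, nat_lit 1977345],
 .sym (nat_lit 3520) false true true (nat_lit 6) (nat_lit 4),
 .step (nat_lit 132) [nat_lit 18435, nat_lit 2352160],
 .step (nat_lit 99) [nat_lit 487488, nat_lit 730146, nat_lit 2353154],
 .sym (nat_lit 3523) true false false (nat_lit 6) (nat_lit 5),
 .step (nat_lit 68) [nat_lit 16416, nat_lit 2302976],
 .step (nat_lit 65) [nat_lit 1270784, nat_lit 833601],
 .step (nat_lit 67) [nat_lit 82946, nat_lit 89090, nat_lit 2236480],
 .step (nat_lit 97) [nat_lit 8288, nat_lit 1980416],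
 .step (nat_lit 133) [nat_lit 1267808, nat_lit 952322],
 .step (nat_lit 99) [nat_lit 12291, nat_lit 1684544],
 .step (nat_lit 65) [nat_lit 8224, nat_lit 1916928],
 .step (nat_lit 133) [nat_lit 53252, nat_lit 2357344],
 .step (nat_lit 66) [nat_lit 66593, nat_lit 636960, nat_lit 1489922],
 .step (nat_lit 98) [nat_lit 24641, nat_lit 1514496],
 .step (nat_lit 130) [nat_lit 45058, nat_lit 2359296],
 .step (nat_lit 130) [nat_lit 7264, nat_lit 1954816],
 .step (nat_lit 35) [nat_lit 1269794, nat_lit 232448],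
 .step (nat_lit 129) [nat_lit 1269824, nat_lit 59392],
 .step (nat_lit 37) [nat_lit 26659, nat_lit 2368512],
 .step (nat_lit 97) [nat_lit 64512, nat_lit 2369568],
 .step (nat_lit 98) [nat_lit 1268801, nat_lit 874496],
 .step (nat_lit 35) [nat_lit 18467, nat_lit 2370560],
 .step (nat_lit 196) [nat_lit 41027, nat_lit 2371584],
 .step (nat_lit 132) [nat_lit 23587, nat_lit 2372608],
 .step (nat_lit 35) [nat_lit 232448, nat_lit 1551360],
 .step (nat_lit 163) [nat_lit 1582144, nat_lit 896000],
 .step (nat_lit 99) [nat_lit 1379331, nat_lit 232512, nat_lit 2374688],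
 .step (nat_lit 128) [nat_lit 52224, nat_lit 1816608],
 .step (nat_lit 35) [nat_lit 10243, nat_lit 2375712],
 .step (nat_lit 34) [nat_lit 6176, nat_lit 2376704],
 .step (nat_lit 129) [nat_lit 43009, nat_lit 1717312],
 .step (nat_lit 36) [nat_lit 40996, nat_lit 1823744],
 .step (nat_lit 66) [nat_lit 21536, nat_lit 2377730],
 .step (nat_lit 98) [nat_lit 23553, nat_lit 2378784],
 .step (nat_lit 97) [nat_lit 21568, nat_lit 2057216],
 .step (nat_lit 34) [nat_lit 17442, nat_lit 2379776],
 .step (nat_lit 35) [nat_lit 239648, nat_lit 1884160, nat_lit 2380800],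
 .step (nat_lit 67) [nat_lit 2069504, nat_lit 2381856, nat_lit 2070560, nat_lit 2382880],
 .step (nat_lit 99) [nat_lit 141408, nat_lit 1434624, nat_lit 2053152],
 .step (nat_lit 65) [nat_lit 6209, nat_lit 2383872],
 .step (nat_lit 130) [nat_lit 5153, nat_lit 2384896],
 .step (nat_lit 132) [nat_lit 1351808, nat_lit 2386945],
 .step (nat_lit 67) [nat_lit 65570, nat_lit 1481792, nat_lit 640002],
 .step (nat_lit 99) [nat_lit 7233, nat_lit 1534976],
 .step (nat_lit 35) [nat_lit 1584128, nat_lit 651264, nat_lit 1607680],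
 .step (nat_lit 129) [nat_lit 66656, nat_lit 1810432],
 .step (nat_lit 34) [nat_lit 1352705, nat_lit 1590272, nat_lit 2387969],
 .step (nat_lit 130) [nat_lit 1357826, nat_lit 1361921, nat_lit 1488928],
 .step (nat_lit 101) [nat_lit 1351777, nat_lit 1360960, nat_lit 1660929],
 .step (nat_lit 98) [nat_lit 1354848, nat_lit 2291713],
 .sym (nat_lit 3570) true true false (nat_lit 6) (nat_lit 4),
 .sym (nat_lit 3570) true true true (nat_lit 6) (nat_lit 4),
 .step (nat_lit 1) [nat_lit 9216, nat_lit 1989633],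
 .step (nat_lit 1) [nat_lit 9216, nat_lit 2388993],
 .step (nat_lit 1) [nat_lit 9216, nat_lit 1992705],
 .step (nat_lit 133) [nat_lit 1267808, nat_lit 2238466],
 .step (nat_lit 99) [nat_lit 6208, nat_lit 2391040],
 .step (nat_lit 101) [nat_lit 1354848, nat_lit 931842, nat_lit 2240514],
 .step (nat_lit 98) [nat_lit 9313, nat_lit 2276352],
 .step (nat_lit 129) [nat_lit 9344, nat_lit 2395137],
 .step (nat_lit 37) [nat_lit 1268738, nat_lit 55296],
 .sym (nat_lit 3581) true true true (nat_lit 7) (nat_lit 2),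
 .sym (nat_lit 3581) false true false (nat_lit 7) (nat_lit 2),
 .sym (nat_lit 3581) false false true (nat_lit 7) (nat_lit 2),
 .sym (nat_lit 3581) true false false (nat_lit 7) (nat_lit 2),
 .sym (nat_lit 3581) true true false (nat_lit 7) (nat_lit 2),
 .sym (nat_lit 3581) false true true (nat_lit 7) (nat_lit 2),
 .step (nat_lit 132) [nat_lit 15364, nat_lit 1394752],
 .step (nat_lit 35) [nat_lit 1403904, nat_lit 1614848, nat_lit 964608, nat_lit 603136],
 .step (nat_lit 68) [nat_lit 26659, nat_lit 2396160],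
 .step (nat_lit 34) [nat_lit 1353728, nat_lit 322561],
 .step (nat_lit 131) [nat_lit 1269794, nat_lit 712704],
 .step (nat_lit 35) [nat_lit 10242, nat_lit 2404384],
 .step (nat_lit 101) [nat_lit 487520, nat_lit 498784, nat_lit 2067458],
 .sym (nat_lit 3594) false false true (nat_lit 8) (nat_lit 6),
 .step (nat_lit 131) [nat_lit 5155, nat_lit 1853440],
 .step (nat_lit 100) [nat_lit 19552, nat_lit 1869825],
 .step (nat_lit 130) [nat_lit 290849, nat_lit 2129920, nat_lit 1045505],
 .step (nat_lit 100) [nat_lit 1351777, nat_lit 476224, nat_lit 1374209],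
 .step (nat_lit 67) [nat_lit 6176, nat_lit 2407426],
 .step (nat_lit 1) [nat_lit 9216, nat_lit 2315265],
 .step (nat_lit 34) [nat_lit 11266, nat_lit 2408448],
 .step (nat_lit 34) [nat_lit 6177, nat_lit 1473536],
 .step (nat_lit 36) [nat_lit 8224, nat_lit 1553410],
 .step (nat_lit 130) [nat_lit 25729, nat_lit 1543168],
 .step (nat_lit 99) [nat_lit 493570, nat_lit 1279040, nat_lit 2279488],
 .step (nat_lit 98) [nat_lit 29760, nat_lit 2410496],
 .step (nat_lit 67) [nat_lit 11266, nat_lit 1388576],
 .step (nat_lit 98) [nat_lit 658496, nat_lit 1691650],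
 .sym (nat_lit 3609) true false false (nat_lit 6) (nat_lit 5),
 .step (nat_lit 97) [nat_lit 20577, nat_lit 1696768],
 .step (nat_lit 164) [nat_lit 44067, nat_lit 2413568],
 .step (nat_lit 66) [nat_lit 29728, nat_lit 2414592],
 .step (nat_lit 3) [nat_lit 37888, nat_lit 1826819],
 .step (nat_lit 3) [nat_lit 37888, nat_lit 1579008],
 .step (nat_lit 130) [nat_lit 1059840, nat_lit 1670176],
 .step (nat_lit 97) [nat_lit 1314816, nat_lit 2178048, nat_lit 2162720],
 .step (nat_lit 96) [nat_lit 656384, nat_lit 2415616],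
 .step (nat_lit 96) [nat_lit 40032, nat_lit 2415616],
 .step (nat_lit 197) [nat_lit 5220, nat_lit 2416640],
 .step (nat_lit 69) [nat_lit 14404, nat_lit 2417664],
 .step (nat_lit 129) [nat_lit 1701888, nat_lit 2178048, nat_lit 1124352, nat_lit 2162720],
 .step (nat_lit 129) [nat_lit 1701888, nat_lit 1314816, nat_lit 2419744],
 .step (nat_lit 4) [nat_lit 37889, nat_lit 1430528],
 .step (nat_lit 129) [nat_lit 8320, nat_lit 2397185],
 .step (nat_lit 3) [nat_lit 37888, nat_lit 1887233],
 .step (nat_lit 4) [nat_lit 43011, nat_lit 2421760],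
 .step (nat_lit 65) [nat_lit 21536, nat_lit 2422784],
 .step (nat_lit 100) [nat_lit 12292, nat_lit 2327552],
 .step (nat_lit 32) [nat_lit 14336, nat_lit 1860608],
 .step (nat_lit 131) [nat_lit 12323, nat_lit 2423808],
 .step (nat_lit 164) [nat_lit 5188, nat_lit 2424832],
 .step (nat_lit 101) [nat_lit 5124, nat_lit 2426944],
 .step (nat_lit 97) [nat_lit 37985, nat_lit 2166784],
 .step (nat_lit 6) [nat_lit 26627, nat_lit 2428928],
 .step (nat_lit 100) [nat_lit 6209, nat_lit 2429952],
 .step (nat_lit 37) [nat_lit 28676, nat_lit 2431008],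
 .step (nat_lit 34) [nat_lit 11266, nat_lit 2433024],
 .step (nat_lit 67) [nat_lit 508930, nat_lit 1388576],
 .step (nat_lit 128) [nat_lit 490560, nat_lit 493568, nat_lit 496704],
 .sym (nat_lit 3640) true false false (nat_lit 1) (nat_lit 8),
 .step (nat_lit 98) [nat_lit 656386, nat_lit 2435136],
 .step (nat_lit 34) [nat_lit 14338, nat_lit 1983488],
 .step (nat_lit 102) [nat_lit 7235, nat_lit 2436096],
 .step (nat_lit 163) [nat_lit 27746, nat_lit 2438144],
 .step (nat_lit 33) [nat_lit 5153, nat_lit 2142208],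
 .step (nat_lit 67) [nat_lit 6176, nat_lit 1414144],
 .step (nat_lit 100) [nat_lit 57440, nat_lit 1460225],
 .sym (nat_lit 3648) false false true (nat_lit 6) (nat_lit 5),
 .step (nat_lit 100) [nat_lit 1368128, nat_lit 1522689],
 .step (nat_lit 100) [nat_lit 1368128, nat_lit 1604609],
 .step (nat_lit 34) [nat_lit 18466, nat_lit 1441792],
 .step (nat_lit 100) [nat_lit 32834, nat_lit 1391616],
 .step (nat_lit 99) [nat_lit 98307, nat_lit 2096160],
 .step (nat_lit 129) [nat_lit 1651712, nat_lit 1701888, nat_lit 2440224],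
 .step (nat_lit 99) [nat_lit 480258, nat_lit 1453120],
 .step (nat_lit 37) [nat_lit 314402, nat_lit 1022977, nat_lit 2040864],
 .sym (nat_lit 3657) true false false (nat_lit 6) (nat_lit 5),
 .step (nat_lit 100) [nat_lit 5123, nat_lit 2443264],
 .step (nat_lit 129) [nat_lit 13440, nat_lit 2002944],
 .step (nat_lit 67) [nat_lit 30723, nat_lit 1557568],
 .sym (nat_lit 3661) true true true (nat_lit 4) (nat_lit 6),
 .step (nat_lit 130) [nat_lit 1354880, nat_lit 700417],
 .step (nat_lit 98) [nat_lit 472097, nat_lit 507905, nat_lit 1802240],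
 .step (nat_lit 66) [nat_lit 21536, nat_lit 2183168],
 .step (nat_lit 2) [nat_lit 9217, nat_lit 1887232],
 .step (nat_lit 100) [nat_lit 486404, nat_lit 1721408],
 .step (nat_lit 131) [nat_lit 486435, nat_lit 2300928],
 .step (nat_lit 132) [nat_lit 13440, nat_lit 2445313],
 .step (nat_lit 132) [nat_lit 1351808, nat_lit 1296385, nat_lit 2446336],
 .step (nat_lit 34) [nat_lit 599040, nat_lit 608256, nat_lit 2233345],
 .step (nat_lit 34) [nat_lit 32768, nat_lit 925729],
 .step (nat_lit 65) [nat_lit 23553, nat_lit 1628224],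
 .step (nat_lit 131) [nat_lit 1408002, nat_lit 980064],
 .sym (nat_lit 3674) false true true (nat_lit 6) (nat_lit 6),
 .step (nat_lit 97) [nat_lit 2139168, nat_lit 1420384, nat_lit 1275904, nat_lit 2447360],
 .step (nat_lit 33) [nat_lit 8224, nat_lit 2449408],
 .step (nat_lit 65) [nat_lit 26656, nat_lit 1426432],
 .step (nat_lit 131) [nat_lit 10243, nat_lit 2171904],
 .step (nat_lit 36) [nat_lit 14371, nat_lit 2450432],
 .step (nat_lit 67) [nat_lit 35874, nat_lit 2452480],
 .step (nat_lit 68) [nat_lit 22564, nat_lit 2195456],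
 .step (nat_lit 99) [nat_lit 28675, nat_lit 1684544],
 .step (nat_lit 98) [nat_lit 5121, nat_lit 2453504],
 .step (nat_lit 34) [nat_lit 517152, nat_lit 513056, nat_lit 1931266],
 .sym (nat_lit 3685) true false true (nat_lit 6) (nat_lit 6),
 .step (nat_lit 130) [nat_lit 12322, nat_lit 1911808],
 .step (nat_lit 129) [nat_lit 1361920, nat_lit 1355776, nat_lit 1593344],
 .step (nat_lit 66) [nat_lit 7201, nat_lit 1372160],
 .step (nat_lit 34) [nat_lit 26656, nat_lit 2454528],
 .step (nat_lit 136) [nat_lit 1268837, nat_lit 2455552],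
 .step (nat_lit 37) [nat_lit 29699, nat_lit 2457600],
 .step (nat_lit 129) [nat_lit 8288, nat_lit 2186241],
 .sym (nat_lit 3693) false true false (nat_lit 5) (nat_lit 6),
 .sym (nat_lit 3693) true false false (nat_lit 5) (nat_lit 6),
 .step (nat_lit 67) [nat_lit 7232, nat_lit 2460672],
 .step (nat_lit 3) [nat_lit 37888, nat_lit 2461696],
 .step (nat_lit 66) [nat_lit 24641, nat_lit 2282496],
 .step (nat_lit 129) [nat_lit 1355776, nat_lit 1362944, nat_lit 1811488],
 .step (nat_lit 129) [nat_lit 1355776, nat_lit 1362944, nat_lit 2354208],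
 .step (nat_lit 99) [nat_lit 488451, nat_lit 2014272],
 .step (nat_lit 34) [nat_lit 25633, nat_lit 2043904],
 .step (nat_lit 100) [nat_lit 13408, nat_lit 1384449],
 .step (nat_lit 35) [nat_lit 37920, nat_lit 2024448],
 .step (nat_lit 99) [nat_lit 11266, nat_lit 1521696],
 .step (nat_lit 130) [nat_lit 1354880, nat_lit 1859585],
 .step (nat_lit 130) [nat_lit 485378, nat_lit 1524800, nat_lit 732161],
 .step (nat_lit 98) [nat_lit 1360960, nat_lit 1660929, nat_lit 1612801],
 .step (nat_lit 37) [nat_lit 7202, nat_lit 2467840],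
 .step (nat_lit 67) [nat_lit 1361954, nat_lit 930848, nat_lit 2239488],
 .step (nat_lit 65) [nat_lit 115776, nat_lit 2464768, nat_lit 2470912],
 .step (nat_lit 33) [nat_lit 9216, nat_lit 2471937],
 .step (nat_lit 129) [nat_lit 10241, nat_lit 2270240],
 .step (nat_lit 98) [nat_lit 63584, nat_lit 2077696],
 .step (nat_lit 33) [nat_lit 9216, nat_lit 2475008],
 .step (nat_lit 163) [nat_lit 1947680, nat_lit 811072, nat_lit 488450],
 .step (nat_lit 36) [nat_lit 7201, nat_lit 2476032],
 .step (nat_lit 34) [nat_lit 2477058, nat_lit 1267712],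
 .step (nat_lit 33) [nat_lit 9216, nat_lit 2478081],
 .step (nat_lit 100) [nat_lit 27651, nat_lit 2356256],
 .step (nat_lit 161) [nat_lit 1569792, nat_lit 2096224],
 .step (nat_lit 129) [nat_lit 1569792, nat_lit 2096224],
 .step (nat_lit 33) [nat_lit 11265, nat_lit 1478656],
 .step (nat_lit 164) [nat_lit 1269827, nat_lit 1312768],
 .step (nat_lit 67) [nat_lit 27650, nat_lit 2463744],
 .step (nat_lit 67) [nat_lit 12290, nat_lit 2463744],
 .step (nat_lit 129) [nat_lit 7265, nat_lit 2089984],
 .step (nat_lit 99) [nat_lit 500832, nat_lit 1526785],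
 .step (nat_lit 65) [nat_lit 25664, nat_lit 2522112],
 .step (nat_lit 66) [nat_lit 1354816, nat_lit 781346, nat_lit 1996801],
 .step (nat_lit 99) [nat_lit 1390592, nat_lit 784416],
 .step (nat_lit 96) [nat_lit 12288, nat_lit 1922048],
 .step (nat_lit 67) [nat_lit 33794, nat_lit 2481152],
 .step (nat_lit 68) [nat_lit 24609, nat_lit 2100224],
 .step (nat_lit 3) [nat_lit 37888, nat_lit 2579459],
 .step (nat_lit 3) [nat_lit 37888, nat_lit 2483203],
 .step (nat_lit 100) [nat_lit 1352769, nat_lit 1586178, nat_lit 1935424],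
 .step (nat_lit 67) [nat_lit 39970, nat_lit 2484224],
 .step (nat_lit 100) [nat_lit 487520, nat_lit 2485248, nat_lit 498784],
 .step (nat_lit 68) [nat_lit 487488, nat_lit 498752, nat_lit 2486273],
 .step (nat_lit 97) [nat_lit 783392, nat_lit 1837056],
 .step (nat_lit 100) [nat_lit 6209, nat_lit 2489344],
 .step (nat_lit 132) [nat_lit 6241, nat_lit 2490368],
 .step (nat_lit 36) [nat_lit 1352705, nat_lit 1268738, nat_lit 1359872],
 .step (nat_lit 132) [nat_lit 1267808, nat_lit 2156545],
 .step (nat_lit 130) [nat_lit 569345, nat_lit 1927200],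
 .step (nat_lit 130) [nat_lit 21600, nat_lit 2144256],
 .step (nat_lit 66) [nat_lit 21536, nat_lit 2491392],
 .step (nat_lit 34) [nat_lit 28673, nat_lit 2492416]]

theorem c3500 : checkFrom tbl r3500 (nat_lit 3750) (nat_lit 3500) = true := by decide +kernel

noncomputable def r5500 : List Rule := [
 .step (nat_lit 71) [nat_lit 6180, nat_lit 4633600],
 .step (nat_lit 68) [nat_lit 6177, nat_lit 4694016],
 .step (nat_lit 130) [nat_lit 5153, nat_lit 4072448],
 .step (nat_lit 99) [nat_lit 2643008, nat_lit 4982784, nat_lit 2065408, nat_lit 2124802],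
 .sym (nat_lit 5503) true false true (nat_lit 8) (nat_lit 6),
 .step (nat_lit 98) [nat_lit 220226, nat_lit 212033, nat_lit 646208, nat_lit 4704256],
 .step (nat_lit 101) [nat_lit 493572, nat_lit 1564738, nat_lit 4705344],
 .step (nat_lit 130) [nat_lit 8289, nat_lit 4706304],
 .step (nat_lit 33) [nat_lit 13313, nat_lit 4707328],
 .step (nat_lit 66) [nat_lit 11298, nat_lit 4708352],
 .step (nat_lit 36) [nat_lit 10243, nat_lit 4715520],
 .step (nat_lit 97) [nat_lit 1569792, nat_lit 798816, nat_lit 4717568],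
 .step (nat_lit 99) [nat_lit 2621505, nat_lit 2617409, nat_lit 2591809, nat_lit 2872320, nat_lit 4741122],
 .step (nat_lit 36) [nat_lit 1351712, nat_lit 1268737, nat_lit 1363968, nat_lit 4164609],
 .step (nat_lit 131) [nat_lit 490563, nat_lit 485379, nat_lit 1783810, nat_lit 4722752],
 .step (nat_lit 102) [nat_lit 2656323, nat_lit 1515554, nat_lit 4736002, nat_lit 4728832],
 .sym (nat_lit 5515) false true false (nat_lit 9) (nat_lit 5),
 .step (nat_lit 129) [nat_lit 11264, nat_lit 4246560],
 .step (nat_lit 67) [nat_lit 2645024, nat_lit 1934370, nat_lit 2889730, nat_lit 2888704],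
 .step (nat_lit 67) [nat_lit 4071425, nat_lit 4100096, nat_lit 4093952, nat_lit 2280480],
 .step (nat_lit 98) [nat_lit 21568, nat_lit 4732928],
 .step (nat_lit 131) [nat_lit 2643040, nat_lit 2588769, nat_lit 2006018, nat_lit 4382753],
 .step (nat_lit 33) [nat_lit 8224, nat_lit 4734977],
 .step (nat_lit 69) [nat_lit 16417, nat_lit 4737024],
 .step (nat_lit 68) [nat_lit 3098688, nat_lit 1626147, nat_lit 4371458],
 .step (nat_lit 100) [nat_lit 31808, nat_lit 4739072],
 .step (nat_lit 99) [nat_lit 2801698, nat_lit 1716322, nat_lit 4701184],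
 .step (nat_lit 99) [nat_lit 2667522, nat_lit 1397824, nat_lit 4025346],
 .step (nat_lit 132) [nat_lit 489569, nat_lit 4742144],
 .step (nat_lit 131) [nat_lit 12323, nat_lit 4745216],
 .step (nat_lit 162) [nat_lit 794625, nat_lit 4746272],
 .step (nat_lit 163) [nat_lit 4035650, nat_lit 896000, nat_lit 2364416],
 .step (nat_lit 133) [nat_lit 1364066, nat_lit 4048992, nat_lit 2365443],
 .step (nat_lit 165) [nat_lit 16513, nat_lit 4753408],
 .step (nat_lit 129) [nat_lit 136225, nat_lit 4755456, nat_lit 4756480],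
 .step (nat_lit 129) [nat_lit 223233, nat_lit 4755456, nat_lit 4757504],
 .step (nat_lit 67) [nat_lit 1704963, nat_lit 2198560, nat_lit 4758528],
 .step (nat_lit 100) [nat_lit 49248, nat_lit 4760578],
 .step (nat_lit 195) [nat_lit 7360, nat_lit 4435969],
 .step (nat_lit 68) [nat_lit 38976, nat_lit 4761600],
 .step (nat_lit 97) [nat_lit 64512, nat_lit 4763648],
 .step (nat_lit 32) [nat_lit 156672, nat_lit 4766720],
 .step (nat_lit 67) [nat_lit 232480, nat_lit 2198560, nat_lit 4767744, nat_lit 4768800],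
 .step (nat_lit 133) [nat_lit 1268834, nat_lit 56417, nat_lit 4769792],
 .step (nat_lit 35) [nat_lit 18467, nat_lit 4770816],
 .step (nat_lit 131) [nat_lit 4021344, nat_lit 449536],
 .step (nat_lit 132) [nat_lit 5155, nat_lit 4771840],
 .step (nat_lit 68) [nat_lit 14403, nat_lit 4772864],
 .step (nat_lit 64) [nat_lit 27712, nat_lit 4773888],
 .step (nat_lit 163) [nat_lit 240768, nat_lit 4774912, nat_lit 3643424, nat_lit 3642432],
 .step (nat_lit 163) [nat_lit 135296, nat_lit 3644416, nat_lit 4775936, nat_lit 3643424],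
 .step (nat_lit 129) [nat_lit 2294816, nat_lit 974849, nat_lit 2296864, nat_lit 4621344],
 .step (nat_lit 6) [nat_lit 7171, nat_lit 4376576],
 .step (nat_lit 33) [nat_lit 8224, nat_lit 4780032],
 .step (nat_lit 163) [nat_lit 626722, nat_lit 230434, nat_lit 4784128],
 .step (nat_lit 98) [nat_lit 1905761, nat_lit 3649600, nat_lit 4785153],
 .step (nat_lit 195) [nat_lit 485411, nat_lit 2659426, nat_lit 3002466, nat_lit 4787200],
 .step (nat_lit 99) [nat_lit 494658, nat_lit 486466, nat_lit 2774018, nat_lit 4788288],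
 .step (nat_lit 69) [nat_lit 1382466, nat_lit 1614882, nat_lit 4790272],
 .step (nat_lit 100) [nat_lit 662532, nat_lit 4697088, nat_lit 4160512],
 .step (nat_lit 133) [nat_lit 5156, nat_lit 4795392],
 .step (nat_lit 131) [nat_lit 927778, nat_lit 380962, nat_lit 2729984, nat_lit 4797440],
 .step (nat_lit 196) [nat_lit 2740291, nat_lit 4315140, nat_lit 4115584],
 .sym (nat_lit 5562) true false false (nat_lit 8) (nat_lit 8),
 .step (nat_lit 131) [nat_lit 2659362, nat_lit 2768930, nat_lit 1376291, nat_lit 1402914, nat_lit 4799488],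
 .step (nat_lit 130) [nat_lit 5153, nat_lit 4800512],
 .step (nat_lit 68) [nat_lit 27651, nat_lit 4802560],
 .step (nat_lit 97) [nat_lit 64512, nat_lit 4152352],
 .step (nat_lit 98) [nat_lit 25697, nat_lit 4805632],
 .step (nat_lit 101) [nat_lit 5124, nat_lit 4304928],
 .step (nat_lit 131) [nat_lit 10243, nat_lit 4806688],
 .sym (nat_lit 5570) false true false (nat_lit 5) (nat_lit 6),
 .step (nat_lit 71) [nat_lit 2669569, nat_lit 2346019, nat_lit 4700192],
 .step (nat_lit 3) [nat_lit 20483, nat_lit 4811776],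
 .step (nat_lit 131) [nat_lit 496707, nat_lit 2799681, nat_lit 4110336],
 .step (nat_lit 34) [nat_lit 11266, nat_lit 4816896],
 .step (nat_lit 132) [nat_lit 1703940, nat_lit 829474, nat_lit 4177920],
 .step (nat_lit 101) [nat_lit 2644033, nat_lit 4182082, nat_lit 4179008, nat_lit 2808832, nat_lit 4817922],
 .sym (nat_lit 5577) false true false (nat_lit 8) (nat_lit 8),
 .sym (nat_lit 5577) true false false (nat_lit 8) (nat_lit 8),
 .step (nat_lit 67) [nat_lit 1366018, nat_lit 4321313, nat_lit 4818976],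
 .step (nat_lit 34) [nat_lit 11266, nat_lit 4819968],
 .step (nat_lit 132) [nat_lit 5155, nat_lit 4820992],
 .step (nat_lit 34) [nat_lit 11266, nat_lit 4822016],
 .step (nat_lit 165) [nat_lit 18468, nat_lit 4823040],
 .step (nat_lit 98) [nat_lit 10305, nat_lit 4825088],
 .step (nat_lit 133) [nat_lit 1652740, nat_lit 3244034, nat_lit 3696674, nat_lit 4826112],
 .step (nat_lit 100) [nat_lit 2641984, nat_lit 2619456, nat_lit 2617408, nat_lit 1053696],
 .step (nat_lit 132) [nat_lit 5155, nat_lit 4828160],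
 .step (nat_lit 131) [nat_lit 2811938, nat_lit 3602433, nat_lit 4358176, nat_lit 4502528],
 .step (nat_lit 35) [nat_lit 37920, nat_lit 4102147],
 .step (nat_lit 166) [nat_lit 6275, nat_lit 4831232],
 .step (nat_lit 102) [nat_lit 7267, nat_lit 4832256],
 .step (nat_lit 3) [nat_lit 37888, nat_lit 4134914],
 .step (nat_lit 99) [nat_lit 37984, nat_lit 4677635],
 .step (nat_lit 99) [nat_lit 8290, nat_lit 4836352],
 .step (nat_lit 3) [nat_lit 37888, nat_lit 4132866],
 .step (nat_lit 97) [nat_lit 2418688, nat_lit 3708928, nat_lit 4838400],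
 .step (nat_lit 71) [nat_lit 7236, nat_lit 4839424],
 .step (nat_lit 130) [nat_lit 1267808, nat_lit 2420737, nat_lit 4841472],
 .step (nat_lit 3) [nat_lit 37888, nat_lit 4313091],
 .step (nat_lit 103) [nat_lit 6244, nat_lit 4844544],
 .step (nat_lit 193) [nat_lit 472160, nat_lit 917600, nat_lit 4020288, nat_lit 3074048],
 .step (nat_lit 132) [nat_lit 12323, nat_lit 4850688],
 .step (nat_lit 133) [nat_lit 18436, nat_lit 4851712],
 .step (nat_lit 163) [nat_lit 717858, nat_lit 664611, nat_lit 4228096],
 .step (nat_lit 165) [nat_lit 364549, nat_lit 4852768],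
 .step (nat_lit 101) [nat_lit 2602050, nat_lit 3912770, nat_lit 4854786, nat_lit 4853856],
 .step (nat_lit 134) [nat_lit 22566, nat_lit 4856832],
 .step (nat_lit 130) [nat_lit 12322, nat_lit 4857856],
 .step (nat_lit 101) [nat_lit 2655236, nat_lit 1516611, nat_lit 4727810, nat_lit 4858944],
 .step (nat_lit 194) [nat_lit 12386, nat_lit 4859904],
 .step (nat_lit 99) [nat_lit 1645569, nat_lit 2308099, nat_lit 2335808, nat_lit 3565632],
 .step (nat_lit 69) [nat_lit 1883138, nat_lit 3383297, nat_lit 4523040],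
 .step (nat_lit 99) [nat_lit 2400258, nat_lit 2883616, nat_lit 4133952, nat_lit 1883168, nat_lit 3094528],
 .step (nat_lit 67) [nat_lit 11266, nat_lit 4120576],
 .step (nat_lit 99) [nat_lit 1651714, nat_lit 1701890, nat_lit 4410369, nat_lit 4864001, nat_lit 3729408],
 .step (nat_lit 162) [nat_lit 1885218, nat_lit 4865024, nat_lit 2851840],
 .step (nat_lit 101) [nat_lit 6242, nat_lit 4866048],
 .step (nat_lit 133) [nat_lit 627810, nat_lit 3117153, nat_lit 4867072],
 .step (nat_lit 132) [nat_lit 6241, nat_lit 4869120],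
 .step (nat_lit 100) [nat_lit 487520, nat_lit 4872193],
 .step (nat_lit 100) [nat_lit 4068354, nat_lit 2026497, nat_lit 4098081, nat_lit 4082689, nat_lit 4125698, nat_lit 4977664],
 .step (nat_lit 97) [nat_lit 154688, nat_lit 2403328, nat_lit 4875264],
 .step (nat_lit 162) [nat_lit 588834, nat_lit 3531808, nat_lit 2441216],
 .step (nat_lit 97) [nat_lit 589825, nat_lit 4339776, nat_lit 764960],
 .sym (nat_lit 5625) true false false (nat_lit 2) (nat_lit 9),
 .sym (nat_lit 5625) false false true (nat_lit 2) (nat_lit 9),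
 .step (nat_lit 68) [nat_lit 1268769, nat_lit 3160096, nat_lit 3161120, nat_lit 4878336],
 .step (nat_lit 36) [nat_lit 32770, nat_lit 4231168],
 .step (nat_lit 99) [nat_lit 126979, nat_lit 1560578, nat_lit 4881408],
 .step (nat_lit 99) [nat_lit 2625570, nat_lit 2648066, nat_lit 2064384, nat_lit 4233216],
 .sym (nat_lit 5631) true false false (nat_lit 6) (nat_lit 8),
 .sym (nat_lit 5631) false true false (nat_lit 6) (nat_lit 8),
 .step (nat_lit 97) [nat_lit 3667968, nat_lit 1258560, nat_lit 3753024],
 .step (nat_lit 99) [nat_lit 37984, nat_lit 3124227],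
 .step (nat_lit 35) [nat_lit 41984, nat_lit 4889600],
 .step (nat_lit 35) [nat_lit 9250, nat_lit 4892672],
 .step (nat_lit 97) [nat_lit 587776, nat_lit 1687552, nat_lit 4520000],
 .sym (nat_lit 5638) true false false (nat_lit 2) (nat_lit 9),
 .step (nat_lit 99) [nat_lit 736259, nat_lit 265250, nat_lit 4897824],
 .step (nat_lit 131) [nat_lit 2081824, nat_lit 2891810, nat_lit 3602433, nat_lit 4358176, nat_lit 4502528],
 .step (nat_lit 131) [nat_lit 2621537, nat_lit 2611296, nat_lit 3602433, nat_lit 4502528, nat_lit 3858465],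
 .step (nat_lit 131) [nat_lit 485379, nat_lit 490563, nat_lit 3767360, nat_lit 4900864],
 .step (nat_lit 4) [nat_lit 9219, nat_lit 4229120],
 .step (nat_lit 129) [nat_lit 1701888, nat_lit 4903936, nat_lit 4902944],
 .step (nat_lit 37) [nat_lit 10245, nat_lit 4904992],
 .step (nat_lit 67) [nat_lit 7232, nat_lit 4905984],
 .step (nat_lit 99) [nat_lit 486466, nat_lit 2655234, nat_lit 2800705, nat_lit 4144128],
 .sym (nat_lit 5648) false true false (nat_lit 6) (nat_lit 8),
 .step (nat_lit 99) [nat_lit 37984, nat_lit 4910083],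
 .step (nat_lit 133) [nat_lit 12325, nat_lit 4911104],
 .step (nat_lit 38) [nat_lit 2666499, nat_lit 4024322, nat_lit 3400704],
 .step (nat_lit 195) [nat_lit 485411, nat_lit 2768994, nat_lit 493603, nat_lit 4912128],
 .step (nat_lit 130) [nat_lit 8289, nat_lit 4913152],
 .step (nat_lit 99) [nat_lit 1267777, nat_lit 4036672, nat_lit 2831456, nat_lit 4053057, nat_lit 1837058],
 .sym (nat_lit 5655) true false false (nat_lit 8) (nat_lit 4),
 .step (nat_lit 129) [nat_lit 12320, nat_lit 4916224],
 .step (nat_lit 129) [nat_lit 17408, nat_lit 4917248],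
 .step (nat_lit 98) [nat_lit 493569, nat_lit 4400192, nat_lit 1875040],
 .step (nat_lit 65) [nat_lit 497728, nat_lit 642048, nat_lit 4236321],
 .step (nat_lit 67) [nat_lit 27650, nat_lit 4319232],
 .step (nat_lit 34) [nat_lit 6176, nat_lit 4449280],
 .step (nat_lit 132) [nat_lit 332867, nat_lit 2465889, nat_lit 4240384],
 .step (nat_lit 99) [nat_lit 4220929, nat_lit 2910211, nat_lit 4935745, nat_lit 2984993, nat_lit 4936704],
 .step (nat_lit 101) [nat_lit 3728388, nat_lit 5095488, nat_lit 4729856, nat_lit 4118528, nat_lit 4153344],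
 .sym (nat_lit 5665) true false false (nat_lit 8) (nat_lit 8),
 .step (nat_lit 34) [nat_lit 8225, nat_lit 4942848],
 .step (nat_lit 195) [nat_lit 33859, nat_lit 4944896],
 .step (nat_lit 131) [nat_lit 12323, nat_lit 4947968],
 .step (nat_lit 129) [nat_lit 2710592, nat_lit 1957888, nat_lit 3158016, nat_lit 3156032, nat_lit 4346912],
 .step (nat_lit 65) [nat_lit 133152, nat_lit 576544, nat_lit 2096128, nat_lit 4950016],
 .step (nat_lit 32) [nat_lit 11264, nat_lit 4952096],
 .step (nat_lit 100) [nat_lit 27683, nat_lit 4599808],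
 .step (nat_lit 68) [nat_lit 7233, nat_lit 4953088],
 .step (nat_lit 33) [nat_lit 798752, nat_lit 1038336, nat_lit 4955136],
 .sym (nat_lit 5675) true true false (nat_lit 5) (nat_lit 6),
 .step (nat_lit 69) [nat_lit 500768, nat_lit 4069378, nat_lit 721952],
 .step (nat_lit 33) [nat_lit 11265, nat_lit 4958240],
 .step (nat_lit 131) [nat_lit 495618, nat_lit 4105281, nat_lit 3357696],
 .step (nat_lit 132) [nat_lit 22564, nat_lit 4908032],
 .step (nat_lit 67) [nat_lit 97283, nat_lit 4959264],
 .step (nat_lit 66) [nat_lit 2974752, nat_lit 1729569, nat_lit 1730561, nat_lit 4957185],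
 .step (nat_lit 34) [nat_lit 11266, nat_lit 4962304],
 .step (nat_lit 66) [nat_lit 1706049, nat_lit 3342368, nat_lit 4782081],
 .step (nat_lit 35) [nat_lit 6177, nat_lit 4899840],
 .step (nat_lit 34) [nat_lit 28673, nat_lit 4967456],
 .step (nat_lit 131) [nat_lit 8290, nat_lit 4808704],
 .step (nat_lit 131) [nat_lit 3602433, nat_lit 4358176, nat_lit 2875426, nat_lit 4502528],
 .step (nat_lit 130) [nat_lit 2619488, nat_lit 959489, nat_lit 2838593],
 .step (nat_lit 100) [nat_lit 497729, nat_lit 753666, nat_lit 4632576],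
 .step (nat_lit 33) [nat_lit 13344, nat_lit 3666944],
 .step (nat_lit 36) [nat_lit 1267712, nat_lit 3668993, nat_lit 3666945],
 .step (nat_lit 129) [nat_lit 8288, nat_lit 4971521],
 .step (nat_lit 36) [nat_lit 10243, nat_lit 4815872],
 .step (nat_lit 161) [nat_lit 133248, nat_lit 4914208, nat_lit 3420160],
 .step (nat_lit 97) [nat_lit 1568832, nat_lit 2242560, nat_lit 2585664],
 .step (nat_lit 100) [nat_lit 3842049, nat_lit 4470784, nat_lit 1351776],
 .step (nat_lit 132) [nat_lit 2073602, nat_lit 4907040, nat_lit 4515841],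
 .step (nat_lit 161) [nat_lit 1701920, nat_lit 3846208, nat_lit 2497568, nat_lit 4976640],
 .step (nat_lit 133) [nat_lit 238628, nat_lit 3815458, nat_lit 3814434, nat_lit 4887552],
 .step (nat_lit 133) [nat_lit 127011, nat_lit 1560610, nat_lit 1562656, nat_lit 4845568],
 .step (nat_lit 130) [nat_lit 491617, nat_lit 2798657, nat_lit 2176000, nat_lit 4840448],
 .step (nat_lit 98) [nat_lit 1267776, nat_lit 1360960, nat_lit 4988929],
 .step (nat_lit 196) [nat_lit 2959364, nat_lit 3853376, nat_lit 4990050],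
 .step (nat_lit 66) [nat_lit 21536, nat_lit 4990977],
 .step (nat_lit 164) [nat_lit 522368, nat_lit 2699266, nat_lit 4992000, nat_lit 4993088],
 .step (nat_lit 100) [nat_lit 656388, nat_lit 3855362, nat_lit 4504576],
 .step (nat_lit 98) [nat_lit 489569, nat_lit 497761, nat_lit 5133312],
 .step (nat_lit 131) [nat_lit 495618, nat_lit 2712610, nat_lit 3357696],
 .step (nat_lit 131) [nat_lit 488450, nat_lit 495618, nat_lit 4281408, nat_lit 2896896],
 .step (nat_lit 35) [nat_lit 29697, nat_lit 4996096],
 .step (nat_lit 129) [nat_lit 9312, nat_lit 4364289],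
 .step (nat_lit 35) [nat_lit 37920, nat_lit 4807680],
 .step (nat_lit 132) [nat_lit 4709377, nat_lit 1822817, nat_lit 4998145, nat_lit 4997184, nat_lit 4925472],
 .step (nat_lit 163) [nat_lit 1376323, nat_lit 2503744, nat_lit 4931616, nat_lit 3859456],
 .step (nat_lit 131) [nat_lit 2659362, nat_lit 2503712, nat_lit 4999168, nat_lit 2411552],
 .step (nat_lit 68) [nat_lit 1270787, nat_lit 5000256],
 .step (nat_lit 164) [nat_lit 1269827, nat_lit 5002240],
 .step (nat_lit 97) [nat_lit 11264, nat_lit 4303873],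
 .step (nat_lit 131) [nat_lit 3247136, nat_lit 5004289, nat_lit 491617, nat_lit 3862528],
 .step (nat_lit 130) [nat_lit 1355777, nat_lit 1269793, nat_lit 1362945, nat_lit 5005312],
 .step (nat_lit 198) [nat_lit 16546, nat_lit 5007360],
 .step (nat_lit 131) [nat_lit 17410, nat_lit 4638752],
 .step (nat_lit 35) [nat_lit 12290, nat_lit 4873216],
 .step (nat_lit 36) [nat_lit 133152, nat_lit 661536, nat_lit 5009408, nat_lit 3872769],
 .step (nat_lit 131) [nat_lit 17410, nat_lit 4507648],
 .step (nat_lit 228) [nat_lit 12419, nat_lit 5014528],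
 .step (nat_lit 68) [nat_lit 1356804, nat_lit 4054019, nat_lit 4055043, nat_lit 4404256],
 .step (nat_lit 97) [nat_lit 5015552, nat_lit 4590592, nat_lit 3821568, nat_lit 5016576],
 .step (nat_lit 102) [nat_lit 1364034, nat_lit 1384451, nat_lit 4801600],
 .step (nat_lit 164) [nat_lit 4446209, nat_lit 2320385, nat_lit 4004928, nat_lit 3883104, nat_lit 3882080],
 .step (nat_lit 130) [nat_lit 1540096, nat_lit 4246561],
 .step (nat_lit 131) [nat_lit 11266, nat_lit 4328480],
 .step (nat_lit 131) [nat_lit 15363, nat_lit 5025792],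
 .step (nat_lit 133) [nat_lit 18436, nat_lit 5026816],
 .step (nat_lit 131) [nat_lit 1357827, nat_lit 1361922, nat_lit 5027872],
 .step (nat_lit 68) [nat_lit 1945601, nat_lit 4909056, nat_lit 5028896],
 .step (nat_lit 35) [nat_lit 9216, nat_lit 4318208],
 .step (nat_lit 33) [nat_lit 9216, nat_lit 5023745],
 .step (nat_lit 100) [nat_lit 3727363, nat_lit 1620995, nat_lit 5151745, nat_lit 5037122, nat_lit 4937728],
 .step (nat_lit 68) [nat_lit 19520, nat_lit 5031936],
 .step (nat_lit 162) [nat_lit 74786, nat_lit 4096064, nat_lit 3891200],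
 .step (nat_lit 164) [nat_lit 299136, nat_lit 355456, nat_lit 5035008],
 .step (nat_lit 101) [nat_lit 2641985, nat_lit 2343968, nat_lit 4425729, nat_lit 3039266, nat_lit 3608610],
 .step (nat_lit 97) [nat_lit 9312, nat_lit 4121600],
 .step (nat_lit 129) [nat_lit 11264, nat_lit 4597792],
 .step (nat_lit 36) [nat_lit 486403, nat_lit 494595, nat_lit 4789248],
 .step (nat_lit 98) [nat_lit 495618, nat_lit 1512513, nat_lit 3895360, nat_lit 4412448],
 .step (nat_lit 99) [nat_lit 486466, nat_lit 2655234, nat_lit 3431456, nat_lit 3889216]]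

theorem c5500 : checkFrom tbl r5500 (nat_lit 5750) (nat_lit 5500) = true := by decide +kernel

noncomputable def r7500 : List Rule := [
 .step (nat_lit 165) [nat_lit 4419587, nat_lit 3569667, nat_lit 5618723, nat_lit 6300706, nat_lit 5620802, nat_lit 7469090, nat_lit 6840385, nat_lit 6841344],
 .step (nat_lit 164) [nat_lit 5268483, nat_lit 6304833, nat_lit 5605440, nat_lit 5585984, nat_lit 6305859, nat_lit 5588099],
 .step (nat_lit 165) [nat_lit 5268484, nat_lit 5270533, nat_lit 4161604, nat_lit 5591105, nat_lit 6334498, nat_lit 7470144],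
 .step (nat_lit 164) [nat_lit 12355, nat_lit 7471104],
 .step (nat_lit 132) [nat_lit 1351808, nat_lit 1268833, nat_lit 1364064, nat_lit 7472128],
 .step (nat_lit 131) [nat_lit 4251650, nat_lit 3307522, nat_lit 7474176, nat_lit 7452672],
 .step (nat_lit 131) [nat_lit 7448576, nat_lit 3307522, nat_lit 7599104, nat_lit 6821888],
 .step (nat_lit 164) [nat_lit 5233760, nat_lit 5239872, nat_lit 5434369, nat_lit 7477312, nat_lit 6034465, nat_lit 7190560, nat_lit 7380033, nat_lit 7380993],
 .step (nat_lit 198) [nat_lit 5337186, nat_lit 5258306, nat_lit 6212643, nat_lit 5965922, nat_lit 4877408, nat_lit 6965314, nat_lit 7479298, nat_lit 7077888],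
 .sym (nat_lit 7508) true false false (nat_lit 9) (nat_lit 9),
 .sym (nat_lit 7508) true true false (nat_lit 9) (nat_lit 9),
 .step (nat_lit 131) [nat_lit 5296129, nat_lit 7205888, nat_lit 7417920, nat_lit 7421953, nat_lit 5400577, nat_lit 7482369],
 .step (nat_lit 165) [nat_lit 792708, nat_lit 4336769, nat_lit 4607073, nat_lit 7443456],
 .step (nat_lit 101) [nat_lit 4253730, nat_lit 3223650, nat_lit 7444480, nat_lit 7502880],
 .step (nat_lit 165) [nat_lit 486500, nat_lit 494692, nat_lit 7483392],
 .step (nat_lit 134) [nat_lit 6309987, nat_lit 4190243, nat_lit 7389218, nat_lit 7497762, nat_lit 5587046, nat_lit 7233536, nat_lit 7485440],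
 .step (nat_lit 164) [nat_lit 5268483, nat_lit 4190273, nat_lit 5606466, nat_lit 6888481, nat_lit 6943809, nat_lit 6880288],
 .step (nat_lit 164) [nat_lit 5270532, nat_lit 4191296, nat_lit 5605440, nat_lit 6886432, nat_lit 6942784, nat_lit 6879265],
 .sym (nat_lit 7517) true true false (nat_lit 9) (nat_lit 8),
 .step (nat_lit 165) [nat_lit 5268484, nat_lit 3727429, nat_lit 5478532, nat_lit 5635137, nat_lit 6334498, nat_lit 7486496],
 .step (nat_lit 162) [nat_lit 13442, nat_lit 7487488],
 .step (nat_lit 229) [nat_lit 3626113, nat_lit 6186114, nat_lit 4759616, nat_lit 5668929, nat_lit 7488513],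
 .step (nat_lit 100) [nat_lit 1356836, nat_lit 2926592, nat_lit 7489569],
 .step (nat_lit 134) [nat_lit 1356870, nat_lit 2726978, nat_lit 7490560],
 .step (nat_lit 100) [nat_lit 742435, nat_lit 342080, nat_lit 7491584],
 .step (nat_lit 133) [nat_lit 7503968, nat_lit 5685248],
 .sym (nat_lit 7525) true false false (nat_lit 8) (nat_lit 8),
 .step (nat_lit 133) [nat_lit 7599104, nat_lit 5685248, nat_lit 5144576, nat_lit 7493632, nat_lit 7492608],
 .sym (nat_lit 7527) true false false (nat_lit 8) (nat_lit 5),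
 .step (nat_lit 100) [nat_lit 2885665, nat_lit 4144129, nat_lit 3345473, nat_lit 3232769, nat_lit 5688320, nat_lit 7463936],
 .step (nat_lit 65) [nat_lit 55328, nat_lit 7500800],
 .step (nat_lit 133) [nat_lit 2394113, nat_lit 7480320, nat_lit 2393089, nat_lit 7420928],
 .step (nat_lit 99) [nat_lit 3222626, nat_lit 4392001, nat_lit 7544832, nat_lit 7501857],
 .sym (nat_lit 7532) true false false (nat_lit 8) (nat_lit 9),
 .step (nat_lit 129) [nat_lit 2658368, nat_lit 4475904],
 .step (nat_lit 36) [nat_lit 1267714, nat_lit 5344256, nat_lit 6892547, nat_lit 7508992],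
 .step (nat_lit 132) [nat_lit 5269604, nat_lit 6309985, nat_lit 4190241, nat_lit 7497760, nat_lit 7397376],
 .step (nat_lit 196) [nat_lit 485412, nat_lit 493604, nat_lit 2714691, nat_lit 7512064],
 .step (nat_lit 100) [nat_lit 7265, nat_lit 7516160],
 .step (nat_lit 133) [nat_lit 7480320, nat_lit 7481344, nat_lit 2001921, nat_lit 5399553, nat_lit 5653504],
 .step (nat_lit 198) [nat_lit 1053795, nat_lit 1993795, nat_lit 2037798, nat_lit 5728259, nat_lit 7518272],
 .step (nat_lit 166) [nat_lit 6311939, nat_lit 7498819, nat_lit 7388162, nat_lit 7499842, nat_lit 5021702, nat_lit 7552032, nat_lit 5731363],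
 .step (nat_lit 134) [nat_lit 6388738, nat_lit 3826721, nat_lit 4193346, nat_lit 4842563, nat_lit 7519264, nat_lit 7254112],
 .step (nat_lit 132) [nat_lit 490564, nat_lit 1405955, nat_lit 5736451, nat_lit 7521376],
 .step (nat_lit 135) [nat_lit 1269798, nat_lit 54279, nat_lit 7522304, nat_lit 7523328],
 .step (nat_lit 102) [nat_lit 16450, nat_lit 7524352],
 .step (nat_lit 100) [nat_lit 1075264, nat_lit 7247904, nat_lit 6802432, nat_lit 7525376],
 .sym (nat_lit 7546) false true false (nat_lit 7) (nat_lit 7),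
 .step (nat_lit 100) [nat_lit 656388, nat_lit 4880386, nat_lit 7530560],
 .step (nat_lit 100) [nat_lit 2620419, nat_lit 4016129, nat_lit 6715393, nat_lit 7531520],
 .sym (nat_lit 7549) true false false (nat_lit 8) (nat_lit 10),
 .step (nat_lit 99) [nat_lit 2255938, nat_lit 6486080, nat_lit 7310336, nat_lit 7533601],
 .step (nat_lit 165) [nat_lit 3241088, nat_lit 3242112, nat_lit 6772768, nat_lit 6674434],
 .step (nat_lit 101) [nat_lit 2399268, nat_lit 393312, nat_lit 7535616],
 .step (nat_lit 102) [nat_lit 3922976, nat_lit 2205792, nat_lit 6211587, nat_lit 6173696, nat_lit 7537664],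
 .step (nat_lit 131) [nat_lit 38016, nat_lit 7538690],
 .step (nat_lit 132) [nat_lit 2622561, nat_lit 6626337, nat_lit 4146209, nat_lit 5435425, nat_lit 6002784, nat_lit 7540737, nat_lit 7086080, nat_lit 7539712],
 .sym (nat_lit 7556) false true false (nat_lit 8) (nat_lit 9),
 .step (nat_lit 164) [nat_lit 2643073, nat_lit 2622593, nat_lit 6626369, nat_lit 5174400, nat_lit 5434369, nat_lit 5169280, nat_lit 7540769, nat_lit 7539744],
 .sym (nat_lit 7558) true true false (nat_lit 8) (nat_lit 8),
 .step (nat_lit 100) [nat_lit 4612160, nat_lit 7506947, nat_lit 4798464, nat_lit 5567520],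
 .step (nat_lit 100) [nat_lit 4612160, nat_lit 4798464, nat_lit 5567520, nat_lit 7445504, nat_lit 6938624],
 .step (nat_lit 195) [nat_lit 3792992, nat_lit 7282784, nat_lit 6940672, nat_lit 5853280, nat_lit 7543904],
 .step (nat_lit 100) [nat_lit 37952, nat_lit 6945793],
 .step (nat_lit 131) [nat_lit 5296129, nat_lit 4251650, nat_lit 4255744, nat_lit 7503968, nat_lit 7545856],
 .step (nat_lit 165) [nat_lit 1938436, nat_lit 6083680, nat_lit 3053604, nat_lit 6082594, nat_lit 7546882],
 .step (nat_lit 165) [nat_lit 2768964, nat_lit 2714660, nat_lit 2703396, nat_lit 7515200, nat_lit 7478276],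
 .sym (nat_lit 7566) true false false (nat_lit 10) (nat_lit 9),
 .step (nat_lit 100) [nat_lit 5293122, nat_lit 1731650, nat_lit 3816514, nat_lit 7405568],
 .step (nat_lit 99) [nat_lit 2645056, nat_lit 2644033, nat_lit 6626304, nat_lit 6625282],
 .sym (nat_lit 7569) true true false (nat_lit 8) (nat_lit 5),
 .sym (nat_lit 7569) true false false (nat_lit 8) (nat_lit 5),
 .sym (nat_lit 7569) false true true (nat_lit 8) (nat_lit 5),
 .sym (nat_lit 7569) true true true (nat_lit 8) (nat_lit 5),
 .step (nat_lit 132) [nat_lit 4281409, nat_lit 4105282, nat_lit 4149313, nat_lit 6095969, nat_lit 6030337, nat_lit 5524483, nat_lit 7550976],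
 .step (nat_lit 66) [nat_lit 496642, nat_lit 1692736],
 .step (nat_lit 229) [nat_lit 488516, nat_lit 2770052, nat_lit 495684, nat_lit 7559168],
 .step (nat_lit 163) [nat_lit 1824864, nat_lit 7199776, nat_lit 7271456, nat_lit 6410242, nat_lit 7560256],
 .step (nat_lit 131) [nat_lit 38016, nat_lit 7564289],
 .step (nat_lit 163) [nat_lit 3488800, nat_lit 4600832, nat_lit 5852192, nat_lit 7542784],
 .step (nat_lit 163) [nat_lit 1355810, nat_lit 1269826, nat_lit 1362978, nat_lit 7565312],
 .step (nat_lit 101) [nat_lit 1651716, nat_lit 3243010, nat_lit 6436898, nat_lit 7567360],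
 .step (nat_lit 133) [nat_lit 5225505, nat_lit 4522050, nat_lit 3776578, nat_lit 6214721, nat_lit 7473152],
 .step (nat_lit 101) [nat_lit 490565, nat_lit 496709, nat_lit 2702340, nat_lit 7570496],
 .step (nat_lit 101) [nat_lit 2911236, nat_lit 6882305, nat_lit 7571456, nat_lit 6883329, nat_lit 7572480],
 .step (nat_lit 133) [nat_lit 2643040, nat_lit 2642017, nat_lit 2645088, nat_lit 5986306, nat_lit 7398432],
 .sym (nat_lit 7585) true false false (nat_lit 8) (nat_lit 7),
 .sym (nat_lit 7585) false true false (nat_lit 8) (nat_lit 7),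
 .sym (nat_lit 7585) false true true (nat_lit 8) (nat_lit 7),
 .step (nat_lit 162) [nat_lit 488449, nat_lit 495617, nat_lit 2701345, nat_lit 7573504],
 .step (nat_lit 163) [nat_lit 2622592, nat_lit 2611328, nat_lit 5981216, nat_lit 5982272, nat_lit 7574528],
 .sym (nat_lit 7590) false true false (nat_lit 10) (nat_lit 10),
 .step (nat_lit 133) [nat_lit 6675490, nat_lit 7002146, nat_lit 6878274, nat_lit 7226400, nat_lit 6360097, nat_lit 6373409, nat_lit 5036067, nat_lit 7510050, nat_lit 7511073, nat_lit 7323648],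
 .step (nat_lit 165) [nat_lit 677893, nat_lit 722948, nat_lit 7575584],
 .step (nat_lit 164) [nat_lit 2644096, nat_lit 2642048, nat_lit 5979169, nat_lit 2591872, nat_lit 7009280],
 .step (nat_lit 131) [nat_lit 5190688, nat_lit 6523904, nat_lit 7294976, nat_lit 7296000],
 .sym (nat_lit 7595) true true false (nat_lit 7) (nat_lit 7),
 .step (nat_lit 100) [nat_lit 7447552, nat_lit 7505923, nat_lit 4798464, nat_lit 4617216, nat_lit 6264832, nat_lit 6814720],
 .step (nat_lit 134) [nat_lit 1912833, nat_lit 7579650, nat_lit 7580672],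
 .step (nat_lit 131) [nat_lit 38016, nat_lit 7582720],
 .step (nat_lit 132) [nat_lit 5050368, nat_lit 5049376, nat_lit 5855232, nat_lit 5001216, nat_lit 5857280, nat_lit 7583744, nat_lit 6978560, nat_lit 7015425],
 .step (nat_lit 100) [nat_lit 1681411, nat_lit 3243009, nat_lit 6983680, nat_lit 7584769],
 .step (nat_lit 165) [nat_lit 1269828, nat_lit 5160002, nat_lit 5343300, nat_lit 5904416, nat_lit 7586816, nat_lit 7019552],
 .step (nat_lit 99) [nat_lit 1354848, nat_lit 1267776, nat_lit 1359936, nat_lit 7410689],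
 .step (nat_lit 97) [nat_lit 1090561, nat_lit 7558176, nat_lit 7350304],
 .step (nat_lit 165) [nat_lit 7168035, nat_lit 5831682, nat_lit 6564866, nat_lit 7556130, nat_lit 7353344, nat_lit 7557122],
 .step (nat_lit 165) [nat_lit 1718368, nat_lit 5077024, nat_lit 7590946, nat_lit 7591936],
 .step (nat_lit 164) [nat_lit 2654275, nat_lit 2769987, nat_lit 1378371, nat_lit 1404995, nat_lit 7592960],
 .step (nat_lit 135) [nat_lit 1268836, nat_lit 1031265, nat_lit 6208577, nat_lit 7593984],
 .step (nat_lit 100) [nat_lit 656388, nat_lit 4880386, nat_lit 7595072],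
 .step (nat_lit 71) [nat_lit 2641955, nat_lit 2884643, nat_lit 3146755, nat_lit 3745795, nat_lit 6133763, nat_lit 6575138, nat_lit 7528480],
 .step (nat_lit 100) [nat_lit 657411, nat_lit 3680256, nat_lit 5937152, nat_lit 7563296],
 .step (nat_lit 135) [nat_lit 1682438, nat_lit 3849220, nat_lit 7600128],
 .step (nat_lit 165) [nat_lit 5947392, nat_lit 4065378, nat_lit 6218816, nat_lit 7056384, nat_lit 6757475, nat_lit 7057408],
 .step (nat_lit 100) [nat_lit 153603, nat_lit 4870145, nat_lit 7275520],
 .step (nat_lit 99) [nat_lit 657410, nat_lit 4870144, nat_lit 7607328],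
 .step (nat_lit 102) [nat_lit 1351778, nat_lit 1744963, nat_lit 3131458, nat_lit 7609344],
 .step (nat_lit 196) [nat_lit 134244, nat_lit 578628, nat_lit 7610368, nat_lit 5958721],
 .step (nat_lit 165) [nat_lit 2644097, nat_lit 2773122, nat_lit 3163201, nat_lit 3068993, nat_lit 5947392, nat_lit 7526466],
 .step (nat_lit 166) [nat_lit 2644098, nat_lit 2610306, nat_lit 5220482, nat_lit 7166080, nat_lit 5960704, nat_lit 6590465, nat_lit 7054403, nat_lit 7611393],
 .step (nat_lit 195) [nat_lit 1941665, nat_lit 6132833, nat_lit 5762177, nat_lit 7058432, nat_lit 7612451],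
 .step (nat_lit 97) [nat_lit 490561, nat_lit 2771968, nat_lit 496705, nat_lit 7613440],
 .step (nat_lit 196) [nat_lit 6887521, nat_lit 5777472, nat_lit 5776448, nat_lit 7534593, nat_lit 5778465],
 .step (nat_lit 130) [nat_lit 1308802, nat_lit 4803649, nat_lit 7616512],
 .step (nat_lit 164) [nat_lit 1362979, nat_lit 5380131, nat_lit 7547969, nat_lit 7069696],
 .step (nat_lit 133) [nat_lit 6106112, nat_lit 5813313, nat_lit 6446177, nat_lit 6948928, nat_lit 7617601],
 .step (nat_lit 230) [nat_lit 6676547, nat_lit 7004227, nat_lit 5846083, nat_lit 7228545, nat_lit 4506691, nat_lit 4994115, nat_lit 4505667, nat_lit 7619649, nat_lit 7300096],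
 .sym (nat_lit 7626) false true false (nat_lit 10) (nat_lit 11),
 .step (nat_lit 134) [nat_lit 5607552, nat_lit 4930625, nat_lit 4731908, nat_lit 6616066],
 .sym (nat_lit 7628) true false false (nat_lit 9) (nat_lit 8),
 .step (nat_lit 133) [nat_lit 7154690, nat_lit 7152642, nat_lit 6649859, nat_lit 7624706, nat_lit 6770688, nat_lit 7076866, nat_lit 7620642, nat_lit 7394336],
 .step (nat_lit 132) [nat_lit 1706115, nat_lit 4208674, nat_lit 4204578, nat_lit 6466593, nat_lit 6065187, nat_lit 7749632],
 .step (nat_lit 166) [nat_lit 6625347, nat_lit 6620259, nat_lit 6661187, nat_lit 7468099, nat_lit 7407617, nat_lit 7631872],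
 .step (nat_lit 100) [nat_lit 1759267, nat_lit 5311523, nat_lit 6700033, nat_lit 7746592, nat_lit 7632928],
 .step (nat_lit 103) [nat_lit 1270822, nat_lit 5330979, nat_lit 6713347, nat_lit 7636034, nat_lit 7636992],
 .step (nat_lit 99) [nat_lit 2620418, nat_lit 2614274, nat_lit 6715392, nat_lit 7638080],
 .sym (nat_lit 7635) true false false (nat_lit 7) (nat_lit 9),
 .step (nat_lit 131) [nat_lit 4281376, nat_lit 2615298, nat_lit 7467041, nat_lit 4961281],
 .sym (nat_lit 7637) true false false (nat_lit 6) (nat_lit 7),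
 .step (nat_lit 35) [nat_lit 3196960, nat_lit 1985570, nat_lit 7120898, nat_lit 7644160, nat_lit 7643136],
 .step (nat_lit 133) [nat_lit 4615168, nat_lit 5396480, nat_lit 7647232, nat_lit 7130112, nat_lit 7648256, nat_lit 7719937, nat_lit 7649280, nat_lit 7691264],
 .step (nat_lit 133) [nat_lit 4883491, nat_lit 4389986, nat_lit 6330400, nat_lit 6161474, nat_lit 7693314, nat_lit 7424096],
 .step (nat_lit 196) [nat_lit 2647107, nat_lit 2592803, nat_lit 4133985, nat_lit 1578017, nat_lit 5821536, nat_lit 7650304],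
 .step (nat_lit 165) [nat_lit 494661, nat_lit 6122497, nat_lit 4670531, nat_lit 6986784],
 .step (nat_lit 161) [nat_lit 1717344, nat_lit 2951232, nat_lit 5421088, nat_lit 7651328, nat_lit 7652352],
 .step (nat_lit 230) [nat_lit 7654403, nat_lit 6377569, nat_lit 6603811, nat_lit 7430179, nat_lit 6987840],
 .step (nat_lit 161) [nat_lit 3427328, nat_lit 5521472, nat_lit 5832704, nat_lit 7541760, nat_lit 7786496],
 .step (nat_lit 166) [nat_lit 7153794, nat_lit 2161698, nat_lit 3451908, nat_lit 4577283, nat_lit 7663648],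
 .step (nat_lit 197) [nat_lit 6306, nat_lit 7666688],
 .step (nat_lit 130) [nat_lit 1267808, nat_lit 2597953, nat_lit 7718913],
 .step (nat_lit 162) [nat_lit 2657280, nat_lit 2137184, nat_lit 7667712],
 .step (nat_lit 162) [nat_lit 2657280, nat_lit 7667712, nat_lit 7182432],
 .step (nat_lit 34) [nat_lit 1354784, nat_lit 1267712, nat_lit 1359872, nat_lit 7669761],
 .step (nat_lit 133) [nat_lit 1270852, nat_lit 5159009, nat_lit 5342212, nat_lit 5627906, nat_lit 7671808],
 .step (nat_lit 196) [nat_lit 485412, nat_lit 2768995, nat_lit 493604, nat_lit 7673856],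
 .step (nat_lit 227) [nat_lit 216163, nat_lit 223331, nat_lit 277603, nat_lit 7674880],
 .step (nat_lit 102) [nat_lit 57442, nat_lit 4033603, nat_lit 7675968, nat_lit 4649985],
 .step (nat_lit 102) [nat_lit 56386, nat_lit 4032579, nat_lit 3539970, nat_lit 7675968],
 .step (nat_lit 39) [nat_lit 1268740, nat_lit 5475332, nat_lit 5598210, nat_lit 7676928],
 .step (nat_lit 101) [nat_lit 2622528, nat_lit 2617409, nat_lit 6625282, nat_lit 2398272, nat_lit 6048832, nat_lit 6996992, nat_lit 7677952],
 .sym (nat_lit 7659) true false false (nat_lit 8) (nat_lit 6),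
 .step (nat_lit 99) [nat_lit 2622528, nat_lit 2617409, nat_lit 6625282, nat_lit 2398272, nat_lit 6048832, nat_lit 6996992, nat_lit 7677952],
 .step (nat_lit 100) [nat_lit 5233696, nat_lit 971843, nat_lit 7465985, nat_lit 7680001],
 .step (nat_lit 163) [nat_lit 15395, nat_lit 7683072],
 .step (nat_lit 133) [nat_lit 1351810, nat_lit 1550370, nat_lit 7700480],
 .step (nat_lit 226) [nat_lit 676929, nat_lit 5666912, nat_lit 5667936, nat_lit 6341665, nat_lit 6342721, nat_lit 7701504],
 .step (nat_lit 133) [nat_lit 3669090, nat_lit 2365443, nat_lit 7700480],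
 .step (nat_lit 164) [nat_lit 2615363, nat_lit 5219395, nat_lit 6643811, nat_lit 3375137, nat_lit 3621953, nat_lit 5663809, nat_lit 7702528],
 .step (nat_lit 101) [nat_lit 493572, nat_lit 4198403, nat_lit 4777985, nat_lit 7457856],
 .step (nat_lit 99) [nat_lit 1268800, nat_lit 4044864, nat_lit 5156864, nat_lit 5894208, nat_lit 6421504],
 .step (nat_lit 6) [nat_lit 7171, nat_lit 7646208],
 .step (nat_lit 131) [nat_lit 496707, nat_lit 2648066, nat_lit 7679040],
 .step (nat_lit 70) [nat_lit 1351746, nat_lit 1268771, nat_lit 1364002, nat_lit 7710720],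
 .step (nat_lit 295) [nat_lit 2656516, nat_lit 3433667, nat_lit 1515747, nat_lit 7692288],
 .step (nat_lit 100) [nat_lit 56384, nat_lit 4032577, nat_lit 3539968, nat_lit 7714817],
 .sym (nat_lit 7674) true false false (nat_lit 7) (nat_lit 8),
 .step (nat_lit 165) [nat_lit 6647843, nat_lit 7242818, nat_lit 6769728, nat_lit 7080002, nat_lit 6666274, nat_lit 7496738, nat_lit 7717889, nat_lit 7513090],
 .step (nat_lit 136) [nat_lit 6642693, nat_lit 4158533, nat_lit 6964261, nat_lit 7720960],
 .step (nat_lit 197) [nat_lit 3700832, nat_lit 6290529, nat_lit 6908992, nat_lit 6907968, nat_lit 7723008],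
 .step (nat_lit 165) [nat_lit 1653890, nat_lit 3055683, nat_lit 7756866, nat_lit 7724032],
 .step (nat_lit 231) [nat_lit 1269894, nat_lit 4229251, nat_lit 7258114, nat_lit 7256066, nat_lit 6473763, nat_lit 7725184],
 .step (nat_lit 66) [nat_lit 11298, nat_lit 7726080],
 .step (nat_lit 198) [nat_lit 7156771, nat_lit 5748771, nat_lit 7302211, nat_lit 6215681, nat_lit 6397987, nat_lit 7011329, nat_lit 7262243, nat_lit 6396992, nat_lit 7338017, nat_lit 7426145],
 .step (nat_lit 132) [nat_lit 2621537, nat_lit 2617441, nat_lit 2591841, nat_lit 3737634, nat_lit 7653376],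
 .step (nat_lit 101) [nat_lit 799812, nat_lit 6486082, nat_lit 7310338, nat_lit 7792672],
 .step (nat_lit 134) [nat_lit 1653859, nat_lit 346212, nat_lit 7729152],
 .step (nat_lit 100) [nat_lit 1940515, nat_lit 6131745, nat_lit 5774370, nat_lit 7040033, nat_lit 7732224],
 .step (nat_lit 99) [nat_lit 1268800, nat_lit 4045888, nat_lit 5156864, nat_lit 5893184, nat_lit 6420480],
 .step (nat_lit 133) [nat_lit 393344, nat_lit 5783554, nat_lit 7658528],
 .step (nat_lit 134) [nat_lit 3923008, nat_lit 2205824, nat_lit 6932483, nat_lit 7736320, nat_lit 7587872],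
 .step (nat_lit 133) [nat_lit 5530659, nat_lit 5905441, nat_lit 6426624, nat_lit 7305248, nat_lit 6793248, nat_lit 7662592, nat_lit 7170080, nat_lit 7438368],
 .step (nat_lit 164) [nat_lit 1075328, nat_lit 6958144, nat_lit 7150688, nat_lit 7760928, nat_lit 7743488],
 .step (nat_lit 132) [nat_lit 1075296, nat_lit 7247936, nat_lit 7179264, nat_lit 7441408],
 .step (nat_lit 131) [nat_lit 7332897, nat_lit 5766144, nat_lit 4156416, nat_lit 5556224, nat_lit 4405280, nat_lit 7744576, nat_lit 5406720, nat_lit 7178240],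
 .step (nat_lit 133) [nat_lit 4615168, nat_lit 5396480, nat_lit 7647232, nat_lit 7130112, nat_lit 7648256, nat_lit 7745536, nat_lit 7780352, nat_lit 7711745],
 .step (nat_lit 133) [nat_lit 2990209, nat_lit 7750688, nat_lit 6697985, nat_lit 7095297],
 .sym (nat_lit 7695) true true false (nat_lit 9) (nat_lit 8),
 .sym (nat_lit 7695) false true false (nat_lit 9) (nat_lit 8),
 .step (nat_lit 165) [nat_lit 494661, nat_lit 6122497, nat_lit 7111680, nat_lit 7292960],
 .step (nat_lit 98) [nat_lit 2116609, nat_lit 6608897, nat_lit 6955008, nat_lit 7068673, nat_lit 7807008],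
 .step (nat_lit 164) [nat_lit 1075328, nat_lit 4427904, nat_lit 7176224, nat_lit 7245824, nat_lit 7665664],
 .step (nat_lit 197) [nat_lit 489634, nat_lit 1377440, nat_lit 6017090, nat_lit 7757824],
 .step (nat_lit 229) [nat_lit 7504961, nat_lit 5846082, nat_lit 4506690, nat_lit 4994114, nat_lit 6774848, nat_lit 7562368, nat_lit 7383040, nat_lit 7656480],
 .step (nat_lit 164) [nat_lit 1075328, nat_lit 7247968, nat_lit 7759872, nat_lit 7781376],
 .step (nat_lit 161) [nat_lit 1717344, nat_lit 2951232, nat_lit 7651328, nat_lit 7652352, nat_lit 5854240],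
 .step (nat_lit 131) [nat_lit 6084641, nat_lit 6544384, nat_lit 5858337, nat_lit 6495232, nat_lit 6543360, nat_lit 7761920, nat_lit 6977536],
 .step (nat_lit 99) [nat_lit 2620418, nat_lit 2612226, nat_lit 2590754, nat_lit 5173282, nat_lit 5168162, nat_lit 3001346, nat_lit 6849536, nat_lit 7763968],
 .step (nat_lit 133) [nat_lit 7154690, nat_lit 7152642, nat_lit 7624706, nat_lit 7778338, nat_lit 6885380, nat_lit 7690272, nat_lit 7764992],
 .step (nat_lit 131) [nat_lit 2618464, nat_lit 2616416, nat_lit 2589792, nat_lit 5981184, nat_lit 7684098],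
 .sym (nat_lit 7708) true true false (nat_lit 11) (nat_lit 7),
 .step (nat_lit 133) [nat_lit 5298178, nat_lit 4254722, nat_lit 7706624, nat_lit 7221249, nat_lit 7708672, nat_lit 7766016],
 .step (nat_lit 164) [nat_lit 7155747, nat_lit 7151651, nat_lit 6648865, nat_lit 7627810, nat_lit 6755361, nat_lit 7777312, nat_lit 7234592, nat_lit 7771170, nat_lit 6520864, nat_lit 7321600],
 .sym (nat_lit 7711) true false true (nat_lit 7) (nat_lit 9),
 .step (nat_lit 164) [nat_lit 216100, nat_lit 223268, nat_lit 277540, nat_lit 7775232],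
 .step (nat_lit 133) [nat_lit 2645090, nat_lit 2863204, nat_lit 4725860, nat_lit 7083010, nat_lit 7715936],
 .step (nat_lit 101) [nat_lit 493572, nat_lit 5057600, nat_lit 6550592, nat_lit 7345153],
 .step (nat_lit 35) [nat_lit 1354784, nat_lit 1267712, nat_lit 1359872, nat_lit 6038529],
 .step (nat_lit 132) [nat_lit 6241, nat_lit 7789568],
 .step (nat_lit 100) [nat_lit 6621185, nat_lit 2545667, nat_lit 6573088, nat_lit 6927363, nat_lit 5932035],
 .step (nat_lit 134) [nat_lit 1653859, nat_lit 346212, nat_lit 7791616],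
 .step (nat_lit 131) [nat_lit 1652738, nat_lit 2146304, nat_lit 1126400, nat_lit 7793664],
 .step (nat_lit 165) [nat_lit 3313700, nat_lit 3259428, nat_lit 5108802, nat_lit 5471268, nat_lit 7045120, nat_lit 7794752],
 .step (nat_lit 195) [nat_lit 1941665, nat_lit 6132833, nat_lit 5951521, nat_lit 7058432, nat_lit 7797795],
 .step (nat_lit 163) [nat_lit 3530880, nat_lit 3986432, nat_lit 3985409, nat_lit 7798848],
 .step (nat_lit 229) [nat_lit 2569252, nat_lit 5456002, nat_lit 6599746, nat_lit 6598721, nat_lit 7372801, nat_lit 7063585, nat_lit 7799840],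
 .step (nat_lit 131) [nat_lit 38016, nat_lit 7803906],
 .step (nat_lit 165) [nat_lit 317536, nat_lit 5784610, nat_lit 7734272],
 .step (nat_lit 101) [nat_lit 4282371, nat_lit 2788356, nat_lit 5433344, nat_lit 6024194, nat_lit 6468610],
 .step (nat_lit 163) [nat_lit 4945984, nat_lit 3803202, nat_lit 6606946, nat_lit 4947009, nat_lit 7287809, nat_lit 7805952],
 .step (nat_lit 132) [nat_lit 7154689, nat_lit 4926531, nat_lit 3999747, nat_lit 5058595, nat_lit 6368288],
 .step (nat_lit 131) [nat_lit 7124000, nat_lit 4326498, nat_lit 4954113, nat_lit 4626434, nat_lit 4627458],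
 .step (nat_lit 132) [nat_lit 7753730, nat_lit 7754786, nat_lit 6653952, nat_lit 6668321, nat_lit 6657025, nat_lit 6658081, nat_lit 6669313, nat_lit 6672385, nat_lit 7393281, nat_lit 6618145, nat_lit 6619169, nat_lit 7622689, nat_lit 7897120],
 .sym (nat_lit 7731) false true false (nat_lit 9) (nat_lit 9),
 .sym (nat_lit 7731) true false false (nat_lit 9) (nat_lit 9),
 .sym (nat_lit 7731) false false true (nat_lit 9) (nat_lit 9),
 .step (nat_lit 134) [nat_lit 3431491, nat_lit 4144163, nat_lit 2944035, nat_lit 2662499, nat_lit 7628834, nat_lit 7814144],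
 .step (nat_lit 165) [nat_lit 6752321, nat_lit 6073377, nat_lit 6435873, nat_lit 6704193, nat_lit 7630913, nat_lit 7634945, nat_lit 7815168],
 .step (nat_lit 165) [nat_lit 6751331, nat_lit 6072387, nat_lit 6434883, nat_lit 6703137, nat_lit 7629891, nat_lit 7633987, nat_lit 7816192],
 .sym (nat_lit 7737) true false false (nat_lit 10) (nat_lit 10),
 .step (nat_lit 231) [nat_lit 1269894, nat_lit 4137091, nat_lit 6684803, nat_lit 6112324, nat_lit 7105635, nat_lit 7817216],
 .step (nat_lit 164) [nat_lit 217252, nat_lit 224388, nat_lit 278660, nat_lit 7857152],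
 .step (nat_lit 133) [nat_lit 5297250, nat_lit 4253762, nat_lit 7642112, nat_lit 7116896, nat_lit 7645216, nat_lit 7822432],
 .step (nat_lit 199) [nat_lit 1352867, nat_lit 4032676, nat_lit 4038819, nat_lit 7824384],
 .step (nat_lit 196) [nat_lit 2647107, nat_lit 2648099, nat_lit 2646083, nat_lit 2649123, nat_lit 3255392, nat_lit 7827456],
 .step (nat_lit 137) [nat_lit 2610277, nat_lit 5237797, nat_lit 7465030, nat_lit 7431168],
 .step (nat_lit 133) [nat_lit 1651748, nat_lit 1314852, nat_lit 3484708, nat_lit 7830528],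
 .step (nat_lit 162) [nat_lit 7298, nat_lit 7831552],
 .step (nat_lit 134) [nat_lit 2610274, nat_lit 2398305, nat_lit 5234754, nat_lit 5233728, nat_lit 5986307, nat_lit 7832577],
 .step (nat_lit 133) [nat_lit 2618464, nat_lit 5888000, nat_lit 6265856, nat_lit 6267904, nat_lit 7835744],
 .step (nat_lit 165) [nat_lit 3431522, nat_lit 4144194, nat_lit 2944066, nat_lit 2662530, nat_lit 7628865, nat_lit 7836672]]

theorem c7500 : checkFrom tbl r7500 (nat_lit 7750) (nat_lit 7500) = true := by decide +kernel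

end Crest.Agent.R035
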