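import Crest.Agent.R035.Table

set_option autoImplicit false
set_option maxRecDepth 100000

namespace Crest.Agent.R035

noncomputable def r1750 : List Rule := [
 .sym (nat_lit 1747) true false false (nat_lit 5) (nat_lit 4),
 .step (nat_lit 99) [nat_lit 46082, nat_lit 517216],
 .step (nat_lit 99) [nat_lit 39008, nat_lit 903168],
 .step (nat_lit 98) [nat_lit 5121, nat_lit 762880],
 .sym (nat_lit 1753) true false true (nat_lit 5) (nat_lit 4),
 .sym (nat_lit 1753) true true true (nat_lit 5) (nat_lit 4),
 .step (nat_lit 33) [nat_lit 20513, nat_lit 904192],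
 .sym (nat_lit 1756) false true false (nat_lit 6) (nat_lit 2),
 .sym (nat_lit 1756) true false false (nat_lit 6) (nat_lit 2),
 .sym (nat_lit 1756) true true true (nat_lit 6) (nat_lit 2),
 .sym (nat_lit 1756) true false true (nat_lit 6) (nat_lit 2),
 .sym (nat_lit 1756) true true false (nat_lit 6) (nat_lit 2),
 .step (nat_lit 132) [nat_lit 906336, nat_lit 908289, nat_lit 900098],
 .step (nat_lit 129) [nat_lit 13409, nat_lit 909312],
 .sym (nat_lit 1763) true true true (nat_lit 5) (nat_lit 4),
 .step (nat_lit 65) [nat_lit 9280, nat_lit 910336],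
 .step (nat_lit 129) [nat_lit 26720, nat_lit 657409],
 .sym (nat_lit 1766) false false true (nat_lit 4) (nat_lit 6),
 .step (nat_lit 97) [nat_lit 9312, nat_lit 845824],
 .sym (nat_lit 1768) true true true (nat_lit 4) (nat_lit 5),
 .step (nat_lit 131) [nat_lit 15363, nat_lit 911392],
 .step (nat_lit 99) [nat_lit 40000, nat_lit 662531],
 .step (nat_lit 33) [nat_lit 9216, nat_lit 913408],
 .step (nat_lit 33) [nat_lit 8224, nat_lit 913408],
 .step (nat_lit 98) [nat_lit 7232, nat_lit 641024],
 .sym (nat_lit 1774) true true false (nat_lit 5) (nat_lit 4),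
 .sym (nat_lit 1774) false true true (nat_lit 5) (nat_lit 4),
 .step (nat_lit 34) [nat_lit 19458, nat_lit 740384],
 .sym (nat_lit 1777) false true true (nat_lit 6) (nat_lit 2),
 .sym (nat_lit 1777) false false true (nat_lit 6) (nat_lit 2),
 .step (nat_lit 34) [nat_lit 7168, nat_lit 474112],
 .step (nat_lit 35) [nat_lit 26657, nat_lit 860160],
 .step (nat_lit 36) [nat_lit 21506, nat_lit 498720],
 .sym (nat_lit 1782) true false false (nat_lit 6) (nat_lit 2),
 .sym (nat_lit 1782) true false true (nat_lit 6) (nat_lit 2),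
 .step (nat_lit 67) [nat_lit 486402, nat_lit 497696],
 .step (nat_lit 33) [nat_lit 16417, nat_lit 621568],
 .sym (nat_lit 1786) true true false (nat_lit 5) (nat_lit 5),
 .step (nat_lit 65) [nat_lit 17440, nat_lit 501760],
 .step (nat_lit 68) [nat_lit 7233, nat_lit 941056],
 .step (nat_lit 65) [nat_lit 663553, nat_lit 369696, nat_lit 943104],
 .step (nat_lit 131) [nat_lit 492672, nat_lit 732162],
 .step (nat_lit 163) [nat_lit 492672, nat_lit 485379],
 .step (nat_lit 163) [nat_lit 492672, nat_lit 493571],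
 .step (nat_lit 65) [nat_lit 9280, nat_lit 946176],
 .step (nat_lit 98) [nat_lit 7233, nat_lit 839680],
 .step (nat_lit 96) [nat_lit 12288, nat_lit 596000],
 .sym (nat_lit 1796) true false true (nat_lit 2) (nat_lit 6),
 .step (nat_lit 67) [nat_lit 25632, nat_lit 955392],
 .step (nat_lit 100) [nat_lit 13408, nat_lit 865281],
 .step (nat_lit 163) [nat_lit 42112, nat_lit 488450],
 .step (nat_lit 36) [nat_lit 17444, nat_lit 956416],
 .step (nat_lit 161) [nat_lit 8320, nat_lit 870400],
 .step (nat_lit 65) [nat_lit 9280, nat_lit 962561],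
 .step (nat_lit 96) [nat_lit 47168, nat_lit 486400],
 .sym (nat_lit 1804) false true false (nat_lit 4) (nat_lit 6),
 .step (nat_lit 130) [nat_lit 38017, nat_lit 969728],
 .step (nat_lit 68) [nat_lit 9248, nat_lit 945152],
 .step (nat_lit 65) [nat_lit 17440, nat_lit 901120],
 .step (nat_lit 34) [nat_lit 465920, nat_lit 889857],
 .step (nat_lit 34) [nat_lit 11266, nat_lit 1127456],
 .step (nat_lit 98) [nat_lit 9281, nat_lit 645120],
 .sym (nat_lit 1811) true false true (nat_lit 5) (nat_lit 4),
 .step (nat_lit 131) [nat_lit 18467, nat_lit 1262592],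
 .step (nat_lit 100) [nat_lit 47202, nat_lit 892928],
 .step (nat_lit 97) [nat_lit 21568, nat_lit 1103872],
 .step (nat_lit 65) [nat_lit 13345, nat_lit 984064],
 .sym (nat_lit 1816) true true true (nat_lit 5) (nat_lit 4),
 .step (nat_lit 131) [nat_lit 46082, nat_lit 555104],
 .step (nat_lit 130) [nat_lit 10242, nat_lit 503840],
 .step (nat_lit 34) [nat_lit 10241, nat_lit 804864],
 .step (nat_lit 133) [nat_lit 6242, nat_lit 987136],
 .sym (nat_lit 1821) false false true (nat_lit 6) (nat_lit 4),
 .step (nat_lit 98) [nat_lit 7232, nat_lit 662530],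
 .step (nat_lit 67) [nat_lit 26689, nat_lit 484352],
 .sym (nat_lit 1824) false false true (nat_lit 5) (nat_lit 5),
 .step (nat_lit 131) [nat_lit 7264, nat_lit 914432],
 .step (nat_lit 66) [nat_lit 45090, nat_lit 1304576],
 .step (nat_lit 129) [nat_lit 461857, nat_lit 988160],
 .step (nat_lit 99) [nat_lit 27650, nat_lit 757760],
 .step (nat_lit 100) [nat_lit 12291, nat_lit 989184],
 .step (nat_lit 35) [nat_lit 820224, nat_lit 990209, nat_lit 310272, nat_lit 286720],
 .step (nat_lit 161) [nat_lit 485377, nat_lit 701504, nat_lit 995392],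
 .step (nat_lit 1) [nat_lit 9216, nat_lit 1150976],
 .sym (nat_lit 1833) true false false (nat_lit 4) (nat_lit 4),
 .sym (nat_lit 1833) true true true (nat_lit 4) (nat_lit 4),
 .sym (nat_lit 1833) false true false (nat_lit 4) (nat_lit 4),
 .step (nat_lit 129) [nat_lit 17408, nat_lit 472096],
 .step (nat_lit 34) [nat_lit 27650, nat_lit 630816],
 .step (nat_lit 66) [nat_lit 6208, nat_lit 616448],
 .sym (nat_lit 1839) false true false (nat_lit 4) (nat_lit 5),
 .step (nat_lit 129) [nat_lit 15361, nat_lit 490528],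
 .step (nat_lit 96) [nat_lit 42048, nat_lit 488448],
 .sym (nat_lit 1842) true false true (nat_lit 4) (nat_lit 6),
 .sym (nat_lit 1842) true true false (nat_lit 4) (nat_lit 6),
 .sym (nat_lit 1842) true true true (nat_lit 4) (nat_lit 6),
 .step (nat_lit 99) [nat_lit 22531, nat_lit 649216],
 .step (nat_lit 37) [nat_lit 7170, nat_lit 997408],
 .step (nat_lit 68) [nat_lit 7233, nat_lit 976896],
 .step (nat_lit 34) [nat_lit 10241, nat_lit 491520],
 .step (nat_lit 68) [nat_lit 16416, nat_lit 557057],
 .sym (nat_lit 1850) true false false (nat_lit 6) (nat_lit 2),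
 .step (nat_lit 65) [nat_lit 8224, nat_lit 714752],
 .step (nat_lit 100) [nat_lit 27651, nat_lit 988160],
 .step (nat_lit 66) [nat_lit 37953, nat_lit 1004544],
 .step (nat_lit 99) [nat_lit 7264, nat_lit 1350657],
 .step (nat_lit 33) [nat_lit 28672, nat_lit 596000],
 .sym (nat_lit 1856) false true true (nat_lit 2) (nat_lit 6),
 .sym (nat_lit 1856) false false true (nat_lit 2) (nat_lit 6),
 .sym (nat_lit 1856) true true true (nat_lit 2) (nat_lit 6),
 .step (nat_lit 65) [nat_lit 44097, nat_lit 662528],
 .sym (nat_lit 1860) false true true (nat_lit 2) (nat_lit 6),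
 .step (nat_lit 34) [nat_lit 29730, nat_lit 824320],
 .step (nat_lit 35) [nat_lit 7200, nat_lit 789506],
 .step (nat_lit 100) [nat_lit 23555, nat_lit 788544],
 .step (nat_lit 129) [nat_lit 14337, nat_lit 778272],
 .step (nat_lit 97) [nat_lit 22529, nat_lit 620544],
 .sym (nat_lit 1866) true true true (nat_lit 5) (nat_lit 4),
 .step (nat_lit 69) [nat_lit 52229, nat_lit 468000],
 .step (nat_lit 1) [nat_lit 9216, nat_lit 1010689],
 .step (nat_lit 3) [nat_lit 27651, nat_lit 928768],
 .step (nat_lit 34) [nat_lit 21504, nat_lit 986112],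
 .step (nat_lit 97) [nat_lit 10241, nat_lit 649248],
 .step (nat_lit 100) [nat_lit 7265, nat_lit 1011712],
 .sym (nat_lit 1873) true true false (nat_lit 5) (nat_lit 5),
 .step (nat_lit 67) [nat_lit 50178, nat_lit 550976],
 .step (nat_lit 66) [nat_lit 6209, nat_lit 696320],
 .step (nat_lit 67) [nat_lit 38976, nat_lit 1012736],
 .sym (nat_lit 1877) true true true (nat_lit 4) (nat_lit 5),
 .step (nat_lit 164) [nat_lit 5187, nat_lit 1014784],
 .step (nat_lit 37) [nat_lit 6178, nat_lit 899072],
 .step (nat_lit 100) [nat_lit 6209, nat_lit 1015808],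
 .step (nat_lit 67) [nat_lit 21537, nat_lit 541696],
 .step (nat_lit 65) [nat_lit 13345, nat_lit 1016832],
 .step (nat_lit 65) [nat_lit 8224, nat_lit 965633],
 .sym (nat_lit 1884) true true true (nat_lit 5) (nat_lit 4),
 .step (nat_lit 129) [nat_lit 14337, nat_lit 464928],
 .sym (nat_lit 1886) false false true (nat_lit 2) (nat_lit 6),
 .step (nat_lit 97) [nat_lit 21568, nat_lit 1017856],
 .step (nat_lit 3) [nat_lit 491520, nat_lit 136194],
 .sym (nat_lit 1889) true false false (nat_lit 6) (nat_lit 4),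
 .sym (nat_lit 1889) true false true (nat_lit 6) (nat_lit 4),
 .step (nat_lit 33) [nat_lit 11264, nat_lit 810016],
 .step (nat_lit 96) [nat_lit 823296, nat_lit 822304, nat_lit 994304, nat_lit 992320],
 .sym (nat_lit 1893) false true true (nat_lit 1) (nat_lit 7),
 .sym (nat_lit 1893) true false false (nat_lit 1) (nat_lit 7),
 .sym (nat_lit 1893) true false true (nat_lit 1) (nat_lit 7),
 .sym (nat_lit 1893) false false true (nat_lit 1) (nat_lit 7),
 .sym (nat_lit 1893) true true false (nat_lit 1) (nat_lit 7),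
 .step (nat_lit 36) [nat_lit 10243, nat_lit 1018912],
 .step (nat_lit 35) [nat_lit 10242, nat_lit 1021952],
 .step (nat_lit 33) [nat_lit 118784, nat_lit 876576],
 .sym (nat_lit 1901) true false false (nat_lit 4) (nat_lit 5),
 .sym (nat_lit 1901) false true true (nat_lit 4) (nat_lit 5),
 .step (nat_lit 98) [nat_lit 51264, nat_lit 490497],
 .sym (nat_lit 1904) true true false (nat_lit 4) (nat_lit 6),
 .step (nat_lit 162) [nat_lit 12354, nat_lit 1001472],
 .step (nat_lit 33) [nat_lit 9216, nat_lit 462849],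
 .step (nat_lit 1) [nat_lit 9216, nat_lit 898048],
 .sym (nat_lit 1908) true true false (nat_lit 4) (nat_lit 5),
 .step (nat_lit 99) [nat_lit 10243, nat_lit 897056],
 .step (nat_lit 97) [nat_lit 40000, nat_lit 698368],
 .step (nat_lit 161) [nat_lit 485377, nat_lit 798848],
 .sym (nat_lit 1912) true false true (nat_lit 5) (nat_lit 6),
 .sym (nat_lit 1912) true false false (nat_lit 5) (nat_lit 6),
 .step (nat_lit 68) [nat_lit 25632, nat_lit 955392],
 .step (nat_lit 37) [nat_lit 7170, nat_lit 1028096],
 .step (nat_lit 37) [nat_lit 6178, nat_lit 1028096],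
 .step (nat_lit 35) [nat_lit 28674, nat_lit 1030144],
 .step (nat_lit 132) [nat_lit 29792, nat_lit 553987],
 .step (nat_lit 132) [nat_lit 5155, nat_lit 1034240],
 .step (nat_lit 96) [nat_lit 42048, nat_lit 1043456],
 .step (nat_lit 99) [nat_lit 12290, nat_lit 1101824],
 .step (nat_lit 65) [nat_lit 23553, nat_lit 1044544],
 .step (nat_lit 98) [nat_lit 25696, nat_lit 982017],
 .sym (nat_lit 1924) true true false (nat_lit 4) (nat_lit 6),
 .sym (nat_lit 1924) false true true (nat_lit 4) (nat_lit 6),
 .sym (nat_lit 1924) true false false (nat_lit 4) (nat_lit 6),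
 .step (nat_lit 33) [nat_lit 41985, nat_lit 1047584],
 .step (nat_lit 67) [nat_lit 22531, nat_lit 981024],
 .step (nat_lit 36) [nat_lit 11268, nat_lit 993312],
 .sym (nat_lit 1930) true true false (nat_lit 5) (nat_lit 4),
 .step (nat_lit 132) [nat_lit 18435, nat_lit 1260576],
 .step (nat_lit 131) [nat_lit 17410, nat_lit 1048608],
 .step (nat_lit 132) [nat_lit 6241, nat_lit 1049600],
 .sym (nat_lit 1934) true true true (nat_lit 5) (nat_lit 5),
 .step (nat_lit 132) [nat_lit 6241, nat_lit 1025024],
 .sym (nat_lit 1936) true true true (nat_lit 5) (nat_lit 5),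
 .sym (nat_lit 1936) true false false (nat_lit 5) (nat_lit 5),
 .step (nat_lit 65) [nat_lit 50176, nat_lit 738368],
 .sym (nat_lit 1939) true true false (nat_lit 5) (nat_lit 4),
 .step (nat_lit 133) [nat_lit 6242, nat_lit 1051648],
 .step (nat_lit 164) [nat_lit 5188, nat_lit 1052672],
 .step (nat_lit 97) [nat_lit 27648, nat_lit 660576],
 .sym (nat_lit 1943) true false false (nat_lit 6) (nat_lit 4),
 .step (nat_lit 33) [nat_lit 43008, nat_lit 1055744],
 .sym (nat_lit 1945) false true false (nat_lit 4) (nat_lit 4),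
 .step (nat_lit 35) [nat_lit 37920, nat_lit 578563],
 .sym (nat_lit 1947) true false true (nat_lit 4) (nat_lit 5),
 .step (nat_lit 97) [nat_lit 50208, nat_lit 1056768],
 .step (nat_lit 97) [nat_lit 8256, nat_lit 1128449],
 .step (nat_lit 67) [nat_lit 37952, nat_lit 663555],
 .sym (nat_lit 1951) true true false (nat_lit 4) (nat_lit 6),
 .sym (nat_lit 1951) true false true (nat_lit 4) (nat_lit 6),
 .step (nat_lit 35) [nat_lit 43010, nat_lit 1058816],
 .step (nat_lit 67) [nat_lit 302082, nat_lit 1220608, nat_lit 1129472],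
 .step (nat_lit 100) [nat_lit 7265, nat_lit 919552],
 .sym (nat_lit 1956) true false true (nat_lit 5) (nat_lit 5),
 .sym (nat_lit 1956) true false false (nat_lit 5) (nat_lit 5),
 .step (nat_lit 99) [nat_lit 499808, nat_lit 351234],
 .sym (nat_lit 1959) true false false (nat_lit 6) (nat_lit 5),
 .sym (nat_lit 1959) false false true (nat_lit 6) (nat_lit 5),
 .sym (nat_lit 1959) true false true (nat_lit 6) (nat_lit 5),
 .step (nat_lit 68) [nat_lit 50179, nat_lit 706624],
 .step (nat_lit 33) [nat_lit 8224, nat_lit 1062913],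
 .step (nat_lit 161) [nat_lit 8320, nat_lit 1063937],
 .step (nat_lit 164) [nat_lit 16512, nat_lit 1064961],
 .step (nat_lit 34) [nat_lit 6177, nat_lit 771072],
 .step (nat_lit 129) [nat_lit 46080, nat_lit 657409],
 .step (nat_lit 130) [nat_lit 472097, nat_lit 103457, nat_lit 695296],
 .step (nat_lit 65) [nat_lit 9280, nat_lit 920577],
 .sym (nat_lit 1970) false true true (nat_lit 5) (nat_lit 4),
 .sym (nat_lit 1970) true true true (nat_lit 5) (nat_lit 4),
 .step (nat_lit 99) [nat_lit 12291, nat_lit 767040],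
 .step (nat_lit 3) [nat_lit 22530, nat_lit 521216],
 .step (nat_lit 129) [nat_lit 7265, nat_lit 1068032],
 .sym (nat_lit 1975) false true true (nat_lit 5) (nat_lit 5),
 .step (nat_lit 98) [nat_lit 486402, nat_lit 514112],
 .sym (nat_lit 1977) false false true (nat_lit 6) (nat_lit 6),
 .sym (nat_lit 1977) true false false (nat_lit 6) (nat_lit 6),
 .sym (nat_lit 1977) false true true (nat_lit 6) (nat_lit 6),
 .sym (nat_lit 1977) false true false (nat_lit 6) (nat_lit 6),
 .step (nat_lit 97) [nat_lit 874496, nat_lit 66624],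
 .step (nat_lit 129) [nat_lit 175136, nat_lit 571424, nat_lit 1071105],
 .step (nat_lit 34) [nat_lit 47106, nat_lit 1231872],
 .step (nat_lit 99) [nat_lit 27650, nat_lit 1073152],
 .step (nat_lit 98) [nat_lit 29760, nat_lit 693249],
 .step (nat_lit 35) [nat_lit 17443, nat_lit 512000],
 .step (nat_lit 129) [nat_lit 40032, nat_lit 495616],
 .sym (nat_lit 1988) true false false (nat_lit 4) (nat_lit 6),
 .step (nat_lit 129) [nat_lit 494656, nat_lit 493569],
 .sym (nat_lit 1990) false false true (nat_lit 2) (nat_lit 8),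
 .step (nat_lit 36) [nat_lit 10243, nat_lit 1166368],
 .step (nat_lit 37) [nat_lit 7170, nat_lit 476160],
 .step (nat_lit 33) [nat_lit 24576, nat_lit 497696],
 .step (nat_lit 66) [nat_lit 587778, nat_lit 318496, nat_lit 1077312],
 .step (nat_lit 99) [nat_lit 492640, nat_lit 297986],
 .step (nat_lit 35) [nat_lit 11267, nat_lit 512000],
 .step (nat_lit 97) [nat_lit 11264, nat_lit 939008],
 .step (nat_lit 33) [nat_lit 6177, nat_lit 1079296]]

theorem c1750 : checkFrom tbl r1750 (nat_lit 2000) (nat_lit 1750) = true := by decide +kernel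

noncomputable def r3750 : List Rule := [
 .step (nat_lit 99) [nat_lit 70720, nat_lit 641025, nat_lit 2494464],
 .step (nat_lit 161) [nat_lit 1358848, nat_lit 649280, nat_lit 1795136],
 .step (nat_lit 131) [nat_lit 6240, nat_lit 2132992],
 .step (nat_lit 100) [nat_lit 1268801, nat_lit 1364032, nat_lit 921602],
 .step (nat_lit 32) [nat_lit 48160, nat_lit 1998848],
 .step (nat_lit 162) [nat_lit 29824, nat_lit 2496513],
 .step (nat_lit 98) [nat_lit 400448, nat_lit 1595392],
 .step (nat_lit 163) [nat_lit 40064, nat_lit 2496514],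
 .step (nat_lit 133) [nat_lit 6242, nat_lit 2499584],
 .step (nat_lit 67) [nat_lit 10243, nat_lit 1542176],
 .sym (nat_lit 3759) true false false (nat_lit 5) (nat_lit 5),
 .step (nat_lit 97) [nat_lit 9312, nat_lit 2500609],
 .step (nat_lit 132) [nat_lit 10244, nat_lit 2092032],
 .step (nat_lit 131) [nat_lit 492640, nat_lit 491618, nat_lit 1525826, nat_lit 2022401],
 .step (nat_lit 66) [nat_lit 5186, nat_lit 2571264],
 .step (nat_lit 133) [nat_lit 659552, nat_lit 2277378],
 .step (nat_lit 3) [nat_lit 40963, nat_lit 2488320],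
 .step (nat_lit 99) [nat_lit 24642, nat_lit 1513472],
 .step (nat_lit 101) [nat_lit 1268802, nat_lit 2502656],
 .step (nat_lit 67) [nat_lit 37952, nat_lit 2164739],
 .step (nat_lit 164) [nat_lit 204864, nat_lit 2505728],
 .step (nat_lit 35) [nat_lit 11267, nat_lit 2046976],
 .step (nat_lit 97) [nat_lit 1181697, nat_lit 1765472, nat_lit 2468896],
 .step (nat_lit 34) [nat_lit 11266, nat_lit 2508832],
 .step (nat_lit 97) [nat_lit 783392, nat_lit 1807360],
 .step (nat_lit 129) [nat_lit 12321, nat_lit 2510848],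
 .step (nat_lit 65) [nat_lit 10241, nat_lit 2220064],
 .step (nat_lit 132) [nat_lit 24707, nat_lit 2511872],
 .step (nat_lit 68) [nat_lit 1351744, nat_lit 1268769, nat_lit 1533953],
 .step (nat_lit 35) [nat_lit 11267, nat_lit 2512896],
 .step (nat_lit 65) [nat_lit 11264, nat_lit 1801217],
 .step (nat_lit 97) [nat_lit 40961, nat_lit 1647616],
 .step (nat_lit 36) [nat_lit 222240, nat_lit 130049, nat_lit 1784833],
 .step (nat_lit 37) [nat_lit 9218, nat_lit 1819648],
 .step (nat_lit 99) [nat_lit 9280, nat_lit 1374208],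
 .step (nat_lit 66) [nat_lit 23554, nat_lit 2513984],
 .step (nat_lit 98) [nat_lit 137281, nat_lit 1867776, nat_lit 2308097],
 .step (nat_lit 64) [nat_lit 47136, nat_lit 1949696],
 .step (nat_lit 98) [nat_lit 5121, nat_lit 2515968],
 .step (nat_lit 97) [nat_lit 217088, nat_lit 128032, nat_lit 1501216],
 .step (nat_lit 67) [nat_lit 466947, nat_lit 1397792],
 .step (nat_lit 67) [nat_lit 1352736, nat_lit 1800192, nat_lit 832513, nat_lit 1007616],
 .step (nat_lit 67) [nat_lit 1351744, nat_lit 1365024, nat_lit 2098176],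
 .step (nat_lit 65) [nat_lit 8224, nat_lit 2451457],
 .step (nat_lit 130) [nat_lit 5153, nat_lit 1677312],
 .step (nat_lit 131) [nat_lit 1357827, nat_lit 1361922, nat_lit 2232352],
 .step (nat_lit 32) [nat_lit 39968, nat_lit 2480128],
 .step (nat_lit 129) [nat_lit 1269792, nat_lit 335873, nat_lit 1298432],
 .step (nat_lit 34) [nat_lit 1512449, nat_lit 1715232],
 .step (nat_lit 66) [nat_lit 72706, nat_lit 1459232],
 .step (nat_lit 66) [nat_lit 1484832, nat_lit 638977],
 .step (nat_lit 35) [nat_lit 94208, nat_lit 1431552],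
 .step (nat_lit 162) [nat_lit 1114112, nat_lit 1269825],
 .step (nat_lit 128) [nat_lit 490560, nat_lit 1708032, nat_lit 1709120],
 .step (nat_lit 33) [nat_lit 497696, nat_lit 2525184],
 .step (nat_lit 132) [nat_lit 1351808, nat_lit 2234368],
 .step (nat_lit 162) [nat_lit 18465, nat_lit 2527232],
 .step (nat_lit 98) [nat_lit 583776, nat_lit 1106946, nat_lit 2334753],
 .step (nat_lit 131) [nat_lit 583776, nat_lit 1106946, nat_lit 2334753],
 .step (nat_lit 99) [nat_lit 500832, nat_lit 2265090, nat_lit 1123330],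
 .step (nat_lit 99) [nat_lit 1701890, nat_lit 2265090, nat_lit 2038848],
 .step (nat_lit 130) [nat_lit 6273, nat_lit 1810432],
 .step (nat_lit 35) [nat_lit 1377312, nat_lit 1088515, nat_lit 1738753],
 .step (nat_lit 100) [nat_lit 781377, nat_lit 738369, nat_lit 1422336],
 .step (nat_lit 67) [nat_lit 1270786, nat_lit 1362978, nat_lit 172064],
 .sym (nat_lit 3814) false false true (nat_lit 4) (nat_lit 7),
 .sym (nat_lit 3814) false true false (nat_lit 4) (nat_lit 7),
 .step (nat_lit 163) [nat_lit 1269826, nat_lit 1074176],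
 .step (nat_lit 97) [nat_lit 129088, nat_lit 535616, nat_lit 531552, nat_lit 2528256],
 .step (nat_lit 97) [nat_lit 129088, nat_lit 531552, nat_lit 2529281, nat_lit 491584],
 .step (nat_lit 129) [nat_lit 221313, nat_lit 228480, nat_lit 282752, nat_lit 2530304],
 .step (nat_lit 32) [nat_lit 11264, nat_lit 2217984],
 .step (nat_lit 97) [nat_lit 1681408, nat_lit 2068544],
 .step (nat_lit 66) [nat_lit 1364000, nat_lit 752641],
 .step (nat_lit 130) [nat_lit 1810432, nat_lit 752705],
 .step (nat_lit 33) [nat_lit 40961, nat_lit 2190336],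
 .step (nat_lit 100) [nat_lit 14435, nat_lit 2531328],
 .step (nat_lit 35) [nat_lit 1377312, nat_lit 718850, nat_lit 1292290],
 .step (nat_lit 34) [nat_lit 11266, nat_lit 2533376],
 .step (nat_lit 99) [nat_lit 12291, nat_lit 1662976],
 .step (nat_lit 97) [nat_lit 102464, nat_lit 1662976],
 .step (nat_lit 67) [nat_lit 37952, nat_lit 1867778],
 .step (nat_lit 66) [nat_lit 26688, nat_lit 1665024],
 .step (nat_lit 100) [nat_lit 1352768, nat_lit 1365056, nat_lit 1664001],
 .step (nat_lit 98) [nat_lit 16482, nat_lit 1805312],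
 .step (nat_lit 100) [nat_lit 1351777, nat_lit 1359936, nat_lit 1774592],
 .step (nat_lit 66) [nat_lit 50177, nat_lit 1739840],
 .step (nat_lit 132) [nat_lit 40963, nat_lit 2075680],
 .step (nat_lit 100) [nat_lit 1409088, nat_lit 1707011],
 .step (nat_lit 130) [nat_lit 2099200, nat_lit 923649],
 .step (nat_lit 99) [nat_lit 22531, nat_lit 2534400],
 .step (nat_lit 98) [nat_lit 490497, nat_lit 1641504],
 .step (nat_lit 68) [nat_lit 50179, nat_lit 1890368],
 .step (nat_lit 163) [nat_lit 22595, nat_lit 2535424],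
 .step (nat_lit 66) [nat_lit 42018, nat_lit 2487296],
 .step (nat_lit 66) [nat_lit 50177, nat_lit 1910848],
 .step (nat_lit 99) [nat_lit 6242, nat_lit 2170880],
 .step (nat_lit 100) [nat_lit 7265, nat_lit 2536448],
 .step (nat_lit 98) [nat_lit 25696, nat_lit 2537472],
 .step (nat_lit 6) [nat_lit 37891, nat_lit 2170880],
 .step (nat_lit 97) [nat_lit 9312, nat_lit 2538497],
 .step (nat_lit 68) [nat_lit 30724, nat_lit 2539584],
 .step (nat_lit 99) [nat_lit 21600, nat_lit 1468418],
 .step (nat_lit 225) [nat_lit 8384, nat_lit 2540545],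
 .step (nat_lit 100) [nat_lit 5123, nat_lit 2541568],
 .step (nat_lit 66) [nat_lit 50177, nat_lit 2542656],
 .step (nat_lit 130) [nat_lit 8289, nat_lit 2543616],
 .step (nat_lit 130) [nat_lit 15362, nat_lit 2544672],
 .step (nat_lit 97) [nat_lit 26688, nat_lit 2314240],
 .step (nat_lit 35) [nat_lit 41984, nat_lit 1897472],
 .step (nat_lit 128) [nat_lit 15360, nat_lit 2546688],
 .step (nat_lit 129) [nat_lit 17408, nat_lit 1909792],
 .step (nat_lit 100) [nat_lit 234497, nat_lit 2523136],
 .step (nat_lit 35) [nat_lit 43010, nat_lit 2547712],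
 .step (nat_lit 2) [nat_lit 25601, nat_lit 1555456],
 .step (nat_lit 34) [nat_lit 1352705, nat_lit 1184768, nat_lit 983040],
 .step (nat_lit 98) [nat_lit 2444289, nat_lit 2275328],
 .step (nat_lit 4) [nat_lit 7169, nat_lit 2551808],
 .step (nat_lit 98) [nat_lit 11265, nat_lit 1778720],
 .step (nat_lit 97) [nat_lit 1386496, nat_lit 1541121],
 .step (nat_lit 131) [nat_lit 493571, nat_lit 2274336],
 .step (nat_lit 99) [nat_lit 5122, nat_lit 1573888],
 .step (nat_lit 129) [nat_lit 50177, nat_lit 2552864],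
 .step (nat_lit 130) [nat_lit 5153, nat_lit 2553856],
 .step (nat_lit 69) [nat_lit 492576, nat_lit 1631233, nat_lit 1549314],
 .step (nat_lit 101) [nat_lit 492608, nat_lit 761857, nat_lit 1549346],
 .step (nat_lit 132) [nat_lit 1369184, nat_lit 1982496, nat_lit 1589281, nat_lit 1917952],
 .step (nat_lit 99) [nat_lit 11266, nat_lit 1606688],
 .step (nat_lit 129) [nat_lit 46080, nat_lit 2554880],
 .step (nat_lit 35) [nat_lit 29697, nat_lit 1509376],
 .step (nat_lit 34) [nat_lit 29696, nat_lit 1619970],
 .step (nat_lit 98) [nat_lit 985089, nat_lit 2556928],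
 .step (nat_lit 68) [nat_lit 7233, nat_lit 2557952],
 .step (nat_lit 129) [nat_lit 5217, nat_lit 1479680],
 .step (nat_lit 161) [nat_lit 12352, nat_lit 2560000],
 .step (nat_lit 161) [nat_lit 8352, nat_lit 2562048],
 .step (nat_lit 193) [nat_lit 13473, nat_lit 2563072],
 .step (nat_lit 162) [nat_lit 8352, nat_lit 2562048],
 .step (nat_lit 129) [nat_lit 1363040, nat_lit 1208320],
 .step (nat_lit 129) [nat_lit 1355872, nat_lit 1208320],
 .step (nat_lit 99) [nat_lit 24640, nat_lit 1586176],
 .step (nat_lit 97) [nat_lit 12320, nat_lit 1863680],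
 .step (nat_lit 161) [nat_lit 1130528, nat_lit 2566144],
 .step (nat_lit 162) [nat_lit 1354912, nat_lit 2562049],
 .step (nat_lit 100) [nat_lit 134147, nat_lit 1799200, nat_lit 2567168],
 .step (nat_lit 67) [nat_lit 46083, nat_lit 2103360],
 .step (nat_lit 101) [nat_lit 1435648, nat_lit 1040386, nat_lit 1975296],
 .step (nat_lit 35) [nat_lit 12322, nat_lit 2570240],
 .step (nat_lit 161) [nat_lit 16545, nat_lit 2566144],
 .step (nat_lit 34) [nat_lit 11266, nat_lit 2572288],
 .step (nat_lit 98) [nat_lit 743520, nat_lit 2575361],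
 .step (nat_lit 98) [nat_lit 24641, nat_lit 1524736],
 .step (nat_lit 34) [nat_lit 26657, nat_lit 1524736],
 .step (nat_lit 97) [nat_lit 9312, nat_lit 2576384],
 .step (nat_lit 33) [nat_lit 26624, nat_lit 2340864],
 .step (nat_lit 97) [nat_lit 1366016, nat_lit 1361952, nat_lit 576608],
 .step (nat_lit 65) [nat_lit 1720320, nat_lit 2578465],
 .step (nat_lit 99) [nat_lit 507906, nat_lit 1693728],
 .step (nat_lit 34) [nat_lit 1267712, nat_lit 2581506],
 .step (nat_lit 1) [nat_lit 9216, nat_lit 2582529],
 .step (nat_lit 65) [nat_lit 69633, nat_lit 1403904],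
 .step (nat_lit 99) [nat_lit 1368128, nat_lit 650241],
 .step (nat_lit 100) [nat_lit 755713, nat_lit 1727552],
 .step (nat_lit 130) [nat_lit 152577, nat_lit 143361, nat_lit 2586624],
 .step (nat_lit 69) [nat_lit 589828, nat_lit 313377, nat_lit 2587712],
 .sym (nat_lit 3914) true true true (nat_lit 6) (nat_lit 6),
 .step (nat_lit 67) [nat_lit 7232, nat_lit 2625538],
 .step (nat_lit 99) [nat_lit 7264, nat_lit 2620418],
 .step (nat_lit 97) [nat_lit 2623488, nat_lit 528417, nat_lit 529473],
 .step (nat_lit 67) [nat_lit 491554, nat_lit 499746, nat_lit 2650114, nat_lit 2652160],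
 .step (nat_lit 100) [nat_lit 1351776, nat_lit 1364032, nat_lit 2598912],
 .sym (nat_lit 3920) true false false (nat_lit 6) (nat_lit 5),
 .sym (nat_lit 3920) true false true (nat_lit 6) (nat_lit 5),
 .sym (nat_lit 3920) false true true (nat_lit 6) (nat_lit 5),
 .sym (nat_lit 3920) false false true (nat_lit 6) (nat_lit 5),
 .step (nat_lit 34) [nat_lit 1267712, nat_lit 55297, nat_lit 2674688],
 .sym (nat_lit 3925) true false true (nat_lit 7) (nat_lit 2),
 .sym (nat_lit 3925) true true false (nat_lit 7) (nat_lit 2),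
 .sym (nat_lit 3925) false true false (nat_lit 7) (nat_lit 2),
 .step (nat_lit 34) [nat_lit 19458, nat_lit 2673664],
 .sym (nat_lit 3929) true true false (nat_lit 7) (nat_lit 2),
 .sym (nat_lit 3929) false true true (nat_lit 7) (nat_lit 2),
 .sym (nat_lit 3929) false true false (nat_lit 7) (nat_lit 2),
 .step (nat_lit 69) [nat_lit 1353760, nat_lit 1364001, nat_lit 2595841],
 .sym (nat_lit 3933) true false false (nat_lit 7) (nat_lit 5),
 .sym (nat_lit 3933) false true true (nat_lit 7) (nat_lit 5),
 .sym (nat_lit 3933) false true false (nat_lit 7) (nat_lit 5),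
 .sym (nat_lit 3933) true false true (nat_lit 7) (nat_lit 5),
 .step (nat_lit 4) [nat_lit 19456, nat_lit 2676736],
 .sym (nat_lit 3938) false true false (nat_lit 6) (nat_lit 2),
 .sym (nat_lit 3938) false true true (nat_lit 6) (nat_lit 2),
 .sym (nat_lit 3938) false false true (nat_lit 6) (nat_lit 2),
 .sym (nat_lit 3938) true false false (nat_lit 6) (nat_lit 2),
 .sym (nat_lit 3938) true true false (nat_lit 6) (nat_lit 2),
 .step (nat_lit 1) [nat_lit 9216, nat_lit 2677761],
 .sym (nat_lit 3944) true false false (nat_lit 7) (nat_lit 2),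
 .sym (nat_lit 3944) true true false (nat_lit 7) (nat_lit 2),
 .sym (nat_lit 3944) false false true (nat_lit 7) (nat_lit 2),
 .step (nat_lit 100) [nat_lit 1352768, nat_lit 1365056, nat_lit 2598912],
 .sym (nat_lit 3948) false true true (nat_lit 6) (nat_lit 5),
 .step (nat_lit 68) [nat_lit 16416, nat_lit 2686976],
 .sym (nat_lit 3950) false true false (nat_lit 6) (nat_lit 2),
 .sym (nat_lit 3950) false true true (nat_lit 6) (nat_lit 2),
 .sym (nat_lit 3950) true true false (nat_lit 6) (nat_lit 2),
 .sym (nat_lit 3950) true false false (nat_lit 6) (nat_lit 2),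
 .sym (nat_lit 3950) false false true (nat_lit 6) (nat_lit 2),
 .sym (nat_lit 3950) true false true (nat_lit 6) (nat_lit 2),
 .sym (nat_lit 3950) true true true (nat_lit 6) (nat_lit 2),
 .step (nat_lit 1) [nat_lit 20481, nat_lit 2688000],
 .sym (nat_lit 3958) false true true (nat_lit 7) (nat_lit 2),
 .sym (nat_lit 3958) true true true (nat_lit 7) (nat_lit 2),
 .sym (nat_lit 3958) false true false (nat_lit 7) (nat_lit 2),
 .sym (nat_lit 3958) true false true (nat_lit 7) (nat_lit 2),
 .step (nat_lit 65) [nat_lit 13345, nat_lit 2689024],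
 .sym (nat_lit 3963) false true false (nat_lit 5) (nat_lit 2),
 .step (nat_lit 70) [nat_lit 6179, nat_lit 2690048],
 .sym (nat_lit 3965) true true false (nat_lit 7) (nat_lit 2),
 .sym (nat_lit 3965) true false false (nat_lit 7) (nat_lit 2),
 .step (nat_lit 69) [nat_lit 1351745, nat_lit 1359904, nat_lit 2595841],
 .step (nat_lit 129) [nat_lit 775200, nat_lit 734241, nat_lit 2693120],
 .step (nat_lit 68) [nat_lit 474145, nat_lit 462881, nat_lit 2636800],
 .step (nat_lit 163) [nat_lit 2646050, nat_lit 141408, nat_lit 1426496, nat_lit 1424384],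
 .step (nat_lit 65) [nat_lit 21536, nat_lit 2595840],
 .sym (nat_lit 3972) true false true (nat_lit 5) (nat_lit 5),
 .sym (nat_lit 3972) true false false (nat_lit 5) (nat_lit 5),
 .sym (nat_lit 3972) true true true (nat_lit 5) (nat_lit 5),
 .sym (nat_lit 3972) false false true (nat_lit 5) (nat_lit 5),
 .sym (nat_lit 3972) true true false (nat_lit 5) (nat_lit 5),
 .step (nat_lit 161) [nat_lit 1269824, nat_lit 2731008],
 .step (nat_lit 196) [nat_lit 584771, nat_lit 2682882, nat_lit 2739264, nat_lit 1451106],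
 .step (nat_lit 66) [nat_lit 21536, nat_lit 2744320],
 .sym (nat_lit 3980) false true false (nat_lit 5) (nat_lit 5),
 .step (nat_lit 193) [nat_lit 12384, nat_lit 2746368],
 .step (nat_lit 163) [nat_lit 1269826, nat_lit 1367042, nat_lit 2837536],
 .sym (nat_lit 3983) false false true (nat_lit 4) (nat_lit 7),
 .sym (nat_lit 3983) true true false (nat_lit 4) (nat_lit 7),
 .step (nat_lit 100) [nat_lit 24641, nat_lit 2755584],
 .sym (nat_lit 3986) false false true (nat_lit 5) (nat_lit 5),
 .sym (nat_lit 3986) false true true (nat_lit 5) (nat_lit 5),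
 .sym (nat_lit 3986) true true false (nat_lit 5) (nat_lit 5),
 .step (nat_lit 131) [nat_lit 77858, nat_lit 1458176, nat_lit 2758720],
 .step (nat_lit 100) [nat_lit 24641, nat_lit 2598912],
 .sym (nat_lit 3991) false false true (nat_lit 5) (nat_lit 5),
 .sym (nat_lit 3991) false true true (nat_lit 5) (nat_lit 5),
 .sym (nat_lit 3991) true false true (nat_lit 5) (nat_lit 5),
 .step (nat_lit 33) [nat_lit 28672, nat_lit 2759680],
 .step (nat_lit 97) [nat_lit 21568, nat_lit 2760704],
 .sym (nat_lit 3996) true false true (nat_lit 5) (nat_lit 5),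
 .sym (nat_lit 3996) false false true (nat_lit 5) (nat_lit 5),
 .step (nat_lit 68) [nat_lit 24609, nat_lit 2761728]]

theorem c3750 : checkFrom tbl r3750 (nat_lit 4000) (nat_lit 3750) = true := by decide +kernel

noncomputable def r5750 : List Rule := [
 .step (nat_lit 5) [nat_lit 19457, nat_lit 5038080],
 .step (nat_lit 67) [nat_lit 1706050, nat_lit 3342369, nat_lit 4886528],
 .step (nat_lit 132) [nat_lit 486436, nat_lit 5040128],
 .step (nat_lit 164) [nat_lit 5187, nat_lit 5041152],
 .step (nat_lit 100) [nat_lit 656388, nat_lit 5010433, nat_lit 3903552],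
 .step (nat_lit 36) [nat_lit 57376, nat_lit 3666944, nat_lit 5043200],
 .sym (nat_lit 5755) false true false (nat_lit 7) (nat_lit 2),
 .step (nat_lit 195) [nat_lit 2740290, nat_lit 4315139, nat_lit 4289632, nat_lit 4413568],
 .step (nat_lit 164) [nat_lit 5187, nat_lit 5047296],
 .step (nat_lit 101) [nat_lit 317472, nat_lit 5048323],
 .step (nat_lit 99) [nat_lit 491585, nat_lit 850976, nat_lit 5051393],
 .step (nat_lit 228) [nat_lit 18531, nat_lit 5052416],
 .step (nat_lit 98) [nat_lit 491584, nat_lit 499776, nat_lit 5054464],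
 .step (nat_lit 36) [nat_lit 10244, nat_lit 5055520],
 .step (nat_lit 68) [nat_lit 487488, nat_lit 489538, nat_lit 2698274, nat_lit 2469889],
 .step (nat_lit 131) [nat_lit 4350018, nat_lit 932866, nat_lit 2462720],
 .step (nat_lit 100) [nat_lit 1396770, nat_lit 4596772, nat_lit 5056512],
 .step (nat_lit 101) [nat_lit 3102720, nat_lit 4468737, nat_lit 2243586],
 .step (nat_lit 132) [nat_lit 1267809, nat_lit 1555490, nat_lit 4047968, nat_lit 4547585, nat_lit 4546561],
 .step (nat_lit 132) [nat_lit 1555490, nat_lit 4047968, nat_lit 4547585, nat_lit 4553761],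
 .step (nat_lit 3) [nat_lit 31745, nat_lit 5064704],
 .step (nat_lit 130) [nat_lit 2594817, nat_lit 3423233, nat_lit 3424257, nat_lit 3324961, nat_lit 3931200],
 .step (nat_lit 131) [nat_lit 2659362, nat_lit 2768930, nat_lit 534531, nat_lit 5066752],
 .step (nat_lit 68) [nat_lit 50179, nat_lit 5067808],
 .step (nat_lit 99) [nat_lit 2668608, nat_lit 4023360, nat_lit 1547266],
 .step (nat_lit 133) [nat_lit 2617441, nat_lit 3425281, nat_lit 4430880],
 .step (nat_lit 97) [nat_lit 2228224, nat_lit 3421184, nat_lit 3933248, nat_lit 1090561],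
 .step (nat_lit 100) [nat_lit 2656321, nat_lit 450560, nat_lit 5070850],
 .step (nat_lit 65) [nat_lit 363521, nat_lit 5071872],
 .step (nat_lit 68) [nat_lit 50179, nat_lit 5072896],
 .step (nat_lit 6) [nat_lit 31748, nat_lit 5073920],
 .step (nat_lit 6) [nat_lit 31748, nat_lit 5074944],
 .step (nat_lit 97) [nat_lit 1428480, nat_lit 1090561, nat_lit 936961, nat_lit 5076000],
 .step (nat_lit 66) [nat_lit 30722, nat_lit 5078048],
 .step (nat_lit 131) [nat_lit 1507328, nat_lit 2756704, nat_lit 5079040],
 .step (nat_lit 130) [nat_lit 476256, nat_lit 2141217, nat_lit 5081089],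
 .step (nat_lit 99) [nat_lit 3941376, nat_lit 3754048, nat_lit 5082113],
 .step (nat_lit 4) [nat_lit 37889, nat_lit 5084160],
 .step (nat_lit 163) [nat_lit 12355, nat_lit 5085184],
 .step (nat_lit 101) [nat_lit 5124, nat_lit 5086208],
 .step (nat_lit 132) [nat_lit 588804, nat_lit 2737155, nat_lit 3769344, nat_lit 4901920],
 .step (nat_lit 192) [nat_lit 52288, nat_lit 5087232],
 .step (nat_lit 164) [nat_lit 1145892, nat_lit 5088256],
 .step (nat_lit 129) [nat_lit 1269792, nat_lit 5089280, nat_lit 3897344],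
 .step (nat_lit 99) [nat_lit 2618432, nat_lit 5092352, nat_lit 5091328, nat_lit 3954690],
 .step (nat_lit 131) [nat_lit 347264, nat_lit 3123203],
 .step (nat_lit 100) [nat_lit 3152897, nat_lit 1027072, nat_lit 5098496],
 .step (nat_lit 164) [nat_lit 2618496, nat_lit 2616448, nat_lit 2589824, nat_lit 3037248, nat_lit 4500482],
 .step (nat_lit 101) [nat_lit 487520, nat_lit 2658370, nat_lit 2078722, nat_lit 3961857],
 .step (nat_lit 33) [nat_lit 12288, nat_lit 5102592],
 .step (nat_lit 132) [nat_lit 2644065, nat_lit 2645088, nat_lit 2642017, nat_lit 4986880, nat_lit 5104706],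
 .step (nat_lit 97) [nat_lit 19521, nat_lit 5105664],
 .step (nat_lit 131) [nat_lit 2133025, nat_lit 2555905, nat_lit 5107744, nat_lit 5106721],
 .step (nat_lit 161) [nat_lit 9376, nat_lit 5115904],
 .step (nat_lit 129) [nat_lit 17408, nat_lit 5116928],
 .step (nat_lit 131) [nat_lit 2618464, nat_lit 2644065, nat_lit 3174434, nat_lit 1155073],
 .step (nat_lit 164) [nat_lit 1404995, nat_lit 616481, nat_lit 4791296],
 .step (nat_lit 163) [nat_lit 2883616, nat_lit 4133952, nat_lit 3335232, nat_lit 3119168, nat_lit 2561024],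
 .step (nat_lit 162) [nat_lit 1556546, nat_lit 5117952],
 .step (nat_lit 162) [nat_lit 16546, nat_lit 5117952],
 .step (nat_lit 198) [nat_lit 748707, nat_lit 2820194, nat_lit 5118976],
 .step (nat_lit 162) [nat_lit 19586, nat_lit 5117952],
 .step (nat_lit 131) [nat_lit 585856, nat_lit 764001, nat_lit 5120002],
 .step (nat_lit 97) [nat_lit 13377, nat_lit 5122048],
 .step (nat_lit 97) [nat_lit 9312, nat_lit 5123072],
 .step (nat_lit 67) [nat_lit 46083, nat_lit 5124160],
 .step (nat_lit 162) [nat_lit 5117952, nat_lit 1155104, nat_lit 3293217],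
 .step (nat_lit 132) [nat_lit 96352, nat_lit 5125121],
 .step (nat_lit 68) [nat_lit 34819, nat_lit 5126208],
 .step (nat_lit 130) [nat_lit 2118689, nat_lit 4300832, nat_lit 5128193],
 .step (nat_lit 5) [nat_lit 40965, nat_lit 3532800],
 .step (nat_lit 163) [nat_lit 1351842, nat_lit 3672192, nat_lit 5117953, nat_lit 5130241],
 .step (nat_lit 162) [nat_lit 5117952, nat_lit 1155104, nat_lit 3073153],
 .step (nat_lit 99) [nat_lit 37984, nat_lit 3667970],
 .step (nat_lit 163) [nat_lit 4502560, nat_lit 2177088, nat_lit 3354625, nat_lit 3993632],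
 .step (nat_lit 34) [nat_lit 29696, nat_lit 5134336],
 .step (nat_lit 99) [nat_lit 24641, nat_lit 5137408],
 .step (nat_lit 130) [nat_lit 63616, nat_lit 5138432],
 .step (nat_lit 37) [nat_lit 143363, nat_lit 1425410, nat_lit 1427456, nat_lit 5139457],
 .step (nat_lit 34) [nat_lit 1267712, nat_lit 5140513, nat_lit 4948992],
 .step (nat_lit 162) [nat_lit 21632, nat_lit 5141504],
 .step (nat_lit 161) [nat_lit 2620416, nat_lit 2723840, nat_lit 2096224, nat_lit 5142528],
 .step (nat_lit 130) [nat_lit 221314, nat_lit 228481, nat_lit 282753, nat_lit 5143552],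
 .step (nat_lit 99) [nat_lit 461859, nat_lit 4302848],
 .step (nat_lit 101) [nat_lit 500800, nat_lit 721984, nat_lit 4097026],
 .step (nat_lit 34) [nat_lit 1267712, nat_lit 2479105, nat_lit 5147649],
 .step (nat_lit 36) [nat_lit 11268, nat_lit 5149728],
 .step (nat_lit 97) [nat_lit 12289, nat_lit 5150720],
 .step (nat_lit 68) [nat_lit 137281, nat_lit 579648, nat_lit 5153792, nat_lit 4776960],
 .step (nat_lit 132) [nat_lit 1351808, nat_lit 1365088, nat_lit 5161984],
 .sym (nat_lit 5839) false true false (nat_lit 6) (nat_lit 7),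
 .sym (nat_lit 5839) true false false (nat_lit 6) (nat_lit 7),
 .sym (nat_lit 5839) true true false (nat_lit 6) (nat_lit 7),
 .sym (nat_lit 5839) false false true (nat_lit 6) (nat_lit 7),
 .sym (nat_lit 5839) true true true (nat_lit 6) (nat_lit 7),
 .sym (nat_lit 5839) false true true (nat_lit 6) (nat_lit 7),
 .step (nat_lit 132) [nat_lit 1351808, nat_lit 5164033, nat_lit 1364064],
 .sym (nat_lit 5846) true false true (nat_lit 6) (nat_lit 7),
 .sym (nat_lit 5846) true true false (nat_lit 6) (nat_lit 7),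
 .sym (nat_lit 5846) true true true (nat_lit 6) (nat_lit 7),
 .sym (nat_lit 5846) false true true (nat_lit 6) (nat_lit 7),
 .step (nat_lit 100) [nat_lit 1351776, nat_lit 5156865, nat_lit 1364032],
 .sym (nat_lit 5851) false true false (nat_lit 6) (nat_lit 7),
 .sym (nat_lit 5851) true true false (nat_lit 6) (nat_lit 7),
 .sym (nat_lit 5851) false true true (nat_lit 6) (nat_lit 7),
 .sym (nat_lit 5851) false false true (nat_lit 6) (nat_lit 7),
 .sym (nat_lit 5851) true false false (nat_lit 6) (nat_lit 7),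
 .step (nat_lit 131) [nat_lit 1357827, nat_lit 1362946, nat_lit 5163008],
 .sym (nat_lit 5857) false false true (nat_lit 7) (nat_lit 6),
 .sym (nat_lit 5857) false true true (nat_lit 7) (nat_lit 6),
 .sym (nat_lit 5857) false true false (nat_lit 7) (nat_lit 6),
 .step (nat_lit 35) [nat_lit 1364994, nat_lit 3672064, nat_lit 5166080, nat_lit 4019200],
 .sym (nat_lit 5861) false true false (nat_lit 8) (nat_lit 2),
 .sym (nat_lit 5861) true true true (nat_lit 8) (nat_lit 2),
 .step (nat_lit 33) [nat_lit 9248, nat_lit 5176320],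
 .step (nat_lit 98) [nat_lit 12290, nat_lit 5254144],
 .step (nat_lit 99) [nat_lit 658497, nat_lit 1446914, nat_lit 5182496],
 .step (nat_lit 131) [nat_lit 7296, nat_lit 5563394],
 .step (nat_lit 99) [nat_lit 1270818, nat_lit 4050946, nat_lit 5184544, nat_lit 2745408],
 .step (nat_lit 163) [nat_lit 4068417, nat_lit 2751490, nat_lit 4098144, nat_lit 4092992, nat_lit 5186592],
 .sym (nat_lit 5869) false true true (nat_lit 6) (nat_lit 7),
 .step (nat_lit 36) [nat_lit 24577, nat_lit 5189632],
 .sym (nat_lit 5871) true false false (nat_lit 5) (nat_lit 4),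
 .step (nat_lit 68) [nat_lit 6177, nat_lit 5193728],
 .step (nat_lit 99) [nat_lit 475138, nat_lit 464898, nat_lit 5159936],
 .step (nat_lit 163) [nat_lit 493571, nat_lit 485379, nat_lit 2768962, nat_lit 5194752],
 .sym (nat_lit 5875) true false false (nat_lit 6) (nat_lit 8),
 .step (nat_lit 161) [nat_lit 485377, nat_lit 493569, nat_lit 2703392, nat_lit 5197824],
 .step (nat_lit 34) [nat_lit 11266, nat_lit 5203968],
 .sym (nat_lit 5878) false true false (nat_lit 7) (nat_lit 4),
 .sym (nat_lit 5878) true true true (nat_lit 7) (nat_lit 4),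
 .step (nat_lit 161) [nat_lit 493569, nat_lit 2647072, nat_lit 5197824],
 .step (nat_lit 68) [nat_lit 1351744, nat_lit 474145, nat_lit 506912, nat_lit 5201920],
 .sym (nat_lit 5882) false true true (nat_lit 6) (nat_lit 5),
 .step (nat_lit 68) [nat_lit 589827, nat_lit 2678850, nat_lit 2732064, nat_lit 5209088],
 .step (nat_lit 97) [nat_lit 9312, nat_lit 5211136],
 .step (nat_lit 69) [nat_lit 1351745, nat_lit 1365025, nat_lit 5213184],
 .sym (nat_lit 5886) true false true (nat_lit 7) (nat_lit 5),
 .step (nat_lit 66) [nat_lit 1358849, nat_lit 1367041, nat_lit 5212224],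
 .sym (nat_lit 5888) true false false (nat_lit 5) (nat_lit 7),
 .sym (nat_lit 5888) true true false (nat_lit 5) (nat_lit 7),
 .sym (nat_lit 5888) false true false (nat_lit 5) (nat_lit 7),
 .step (nat_lit 65) [nat_lit 9280, nat_lit 5215233],
 .step (nat_lit 130) [nat_lit 1267808, nat_lit 5161985, nat_lit 4058208, nat_lit 4059232],
 .sym (nat_lit 5893) true true false (nat_lit 5) (nat_lit 7),
 .sym (nat_lit 5893) true false true (nat_lit 5) (nat_lit 7),
 .step (nat_lit 131) [nat_lit 1362946, nat_lit 1269794, nat_lit 5202944],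
 .step (nat_lit 1) [nat_lit 9216, nat_lit 5228544],
 .sym (nat_lit 5897) true true true (nat_lit 5) (nat_lit 5),
 .step (nat_lit 129) [nat_lit 21600, nat_lit 5231616],
 .step (nat_lit 68) [nat_lit 4071426, nat_lit 4089857, nat_lit 5232672],
 .step (nat_lit 99) [nat_lit 21600, nat_lit 5253120],
 .step (nat_lit 33) [nat_lit 9248, nat_lit 5201920],
 .sym (nat_lit 5902) true false false (nat_lit 5) (nat_lit 5),
 .sym (nat_lit 5902) false true false (nat_lit 5) (nat_lit 5),
 .step (nat_lit 162) [nat_lit 1269825, nat_lit 4046913, nat_lit 5183489, nat_lit 2882592],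
 .step (nat_lit 132) [nat_lit 7297, nat_lit 5260288],
 .step (nat_lit 34) [nat_lit 1267712, nat_lit 1364993, nat_lit 5262336],
 .sym (nat_lit 5907) true true false (nat_lit 7) (nat_lit 2),
 .sym (nat_lit 5907) false false true (nat_lit 7) (nat_lit 2),
 .sym (nat_lit 5907) false true true (nat_lit 7) (nat_lit 2),
 .step (nat_lit 98) [nat_lit 1354848, nat_lit 1267776, nat_lit 1359936, nat_lit 5263361],
 .step (nat_lit 163) [nat_lit 2643072, nat_lit 2588801, nat_lit 2873408, nat_lit 2917378, nat_lit 5273666],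
 .step (nat_lit 132) [nat_lit 1268833, nat_lit 5279744],
 .sym (nat_lit 5913) true false false (nat_lit 6) (nat_lit 6),
 .step (nat_lit 36) [nat_lit 7201, nat_lit 5284864],
 .step (nat_lit 69) [nat_lit 2659332, nat_lit 1376261, nat_lit 1402884, nat_lit 5433344],
 .sym (nat_lit 5916) true false false (nat_lit 8) (nat_lit 6),
 .step (nat_lit 97) [nat_lit 7233, nat_lit 5157888],
 .step (nat_lit 98) [nat_lit 9280, nat_lit 5156865],
 .step (nat_lit 131) [nat_lit 12323, nat_lit 5287936],
 .step (nat_lit 130) [nat_lit 490562, nat_lit 2648065, nat_lit 2657281, nat_lit 5290048],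
 .step (nat_lit 132) [nat_lit 12323, nat_lit 5291008],
 .step (nat_lit 67) [nat_lit 1270786, nat_lit 4206592, nat_lit 5292064, nat_lit 4205568],
 .step (nat_lit 164) [nat_lit 12355, nat_lit 5295104],
 .step (nat_lit 131) [nat_lit 15363, nat_lit 5301248],
 .step (nat_lit 98) [nat_lit 1354848, nat_lit 1359936, nat_lit 5302273],
 .sym (nat_lit 5926) true false false (nat_lit 6) (nat_lit 7),
 .sym (nat_lit 5926) true true false (nat_lit 6) (nat_lit 7),
 .step (nat_lit 66) [nat_lit 49184, nat_lit 5192706],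
 .step (nat_lit 100) [nat_lit 1354848, nat_lit 1359936, nat_lit 5302273],
 .sym (nat_lit 5930) true true false (nat_lit 6) (nat_lit 7),
 .step (nat_lit 131) [nat_lit 6240, nat_lit 5310464],
 .step (nat_lit 65) [nat_lit 9280, nat_lit 5303297],
 .step (nat_lit 131) [nat_lit 6240, nat_lit 5305344],
 .step (nat_lit 99) [nat_lit 1379331, nat_lit 533571, nat_lit 2604066, nat_lit 5308480],
 .step (nat_lit 98) [nat_lit 1353792, nat_lit 1360960, nat_lit 5302273],
 .sym (nat_lit 5936) true true false (nat_lit 6) (nat_lit 7),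
 .step (nat_lit 34) [nat_lit 7168, nat_lit 5309440],
 .step (nat_lit 68) [nat_lit 9248, nat_lit 5229569],
 .step (nat_lit 98) [nat_lit 656386, nat_lit 3033088, nat_lit 4340768, nat_lit 4243456],
 .step (nat_lit 101) [nat_lit 1376261, nat_lit 1402884, nat_lit 2659332, nat_lit 5433344],
 .step (nat_lit 130) [nat_lit 1355777, nat_lit 1362945, nat_lit 5274656],
 .sym (nat_lit 5942) false true true (nat_lit 6) (nat_lit 6),
 .sym (nat_lit 5942) false false true (nat_lit 6) (nat_lit 6),
 .sym (nat_lit 5942) true true true (nat_lit 6) (nat_lit 6),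
 .step (nat_lit 132) [nat_lit 1352800, nat_lit 1365088, nat_lit 5276673],
 .step (nat_lit 163) [nat_lit 1835040, nat_lit 1836064, nat_lit 2466883, nat_lit 1793089, nat_lit 5307395],
 .step (nat_lit 161) [nat_lit 1943552, nat_lit 948256, nat_lit 2970656],
 .step (nat_lit 67) [nat_lit 8226, nat_lit 5314560],
 .sym (nat_lit 5949) true true false (nat_lit 6) (nat_lit 5),
 .step (nat_lit 67) [nat_lit 8256, nat_lit 5214209],
 .step (nat_lit 67) [nat_lit 46083, nat_lit 5315584],
 .step (nat_lit 99) [nat_lit 1269762, nat_lit 475138, nat_lit 464898, nat_lit 5316608],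
 .sym (nat_lit 5953) true false false (nat_lit 5) (nat_lit 5),
 .sym (nat_lit 5953) false true false (nat_lit 5) (nat_lit 5),
 .sym (nat_lit 5953) true false true (nat_lit 5) (nat_lit 5),
 .step (nat_lit 129) [nat_lit 21600, nat_lit 5230592],
 .step (nat_lit 102) [nat_lit 33798, nat_lit 5319776],
 .step (nat_lit 129) [nat_lit 9344, nat_lit 5320704],
 .step (nat_lit 33) [nat_lit 14337, nat_lit 5321760],
 .step (nat_lit 98) [nat_lit 12290, nat_lit 5322752],
 .step (nat_lit 161) [nat_lit 2659392, nat_lit 1376321, nat_lit 1402944, nat_lit 5323776],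
 .step (nat_lit 98) [nat_lit 138337, nat_lit 4714497, nat_lit 5179393, nat_lit 5326848],
 .sym (nat_lit 5963) true true true (nat_lit 5) (nat_lit 8),
 .sym (nat_lit 5963) true false true (nat_lit 5) (nat_lit 8),
 .step (nat_lit 34) [nat_lit 9249, nat_lit 5328896],
 .step (nat_lit 67) [nat_lit 9282, nat_lit 5823488],
 .sym (nat_lit 5967) true true false (nat_lit 6) (nat_lit 5),
 .step (nat_lit 160) [nat_lit 485376, nat_lit 493568, nat_lit 4213824],
 .step (nat_lit 2) [nat_lit 20482, nat_lit 5329920],
 .step (nat_lit 68) [nat_lit 10276, nat_lit 5331968],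
 .step (nat_lit 227) [nat_lit 15459, nat_lit 5332992],
 .step (nat_lit 100) [nat_lit 242756, nat_lit 2329666, nat_lit 5334080, nat_lit 5335040],
 .step (nat_lit 163) [nat_lit 17442, nat_lit 5336064],
 .step (nat_lit 130) [nat_lit 15362, nat_lit 5346336],
 .step (nat_lit 68) [nat_lit 14403, nat_lit 5347328],
 .step (nat_lit 98) [nat_lit 26689, nat_lit 5352448],
 .step (nat_lit 34) [nat_lit 79904, nat_lit 5353474, nat_lit 4323328],
 .step (nat_lit 166) [nat_lit 1560643, nat_lit 5565568, nat_lit 1500164],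
 .step (nat_lit 34) [nat_lit 8225, nat_lit 5354496],
 .step (nat_lit 101) [nat_lit 23556, nat_lit 5356640],
 .step (nat_lit 132) [nat_lit 11267, nat_lit 5357568],
 .sym (nat_lit 5982) false true false (nat_lit 5) (nat_lit 6),
 .step (nat_lit 37) [nat_lit 12324, nat_lit 5358592],
 .step (nat_lit 132) [nat_lit 6241, nat_lit 5361664],
 .step (nat_lit 34) [nat_lit 11266, nat_lit 5362720],
 .step (nat_lit 130) [nat_lit 3033120, nat_lit 5364736, nat_lit 4340800, nat_lit 656418],
 .sym (nat_lit 5987) true false false (nat_lit 5) (nat_lit 7),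
 .sym (nat_lit 5987) true false true (nat_lit 5) (nat_lit 7),
 .step (nat_lit 161) [nat_lit 153633, nat_lit 5370880],
 .sym (nat_lit 5990) true false false (nat_lit 7) (nat_lit 6),
 .step (nat_lit 99) [nat_lit 491586, nat_lit 2660416, nat_lit 2798626, nat_lit 5348352],
 .sym (nat_lit 5992) true false false (nat_lit 8) (nat_lit 6),
 .step (nat_lit 100) [nat_lit 7265, nat_lit 5373952],
 .step (nat_lit 69) [nat_lit 1356805, nat_lit 1366020, nat_lit 5375040],
 .step (nat_lit 164) [nat_lit 27715, nat_lit 5378048],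
 .step (nat_lit 130) [nat_lit 12322, nat_lit 5381120],
 .step (nat_lit 131) [nat_lit 11266, nat_lit 5383168],
 .step (nat_lit 67) [nat_lit 13347, nat_lit 5384192]]

theorem c5750 : checkFrom tbl r5750 (nat_lit 6000) (nat_lit 5750) = true := by decide +kernel

noncomputable def r7750 : List Rule := [
 .step (nat_lit 164) [nat_lit 8323, nat_lit 7837696],
 .step (nat_lit 166) [nat_lit 3526754, nat_lit 2360418, nat_lit 3235938, nat_lit 7456834, nat_lit 5978178, nat_lit 7838720],
 .step (nat_lit 101) [nat_lit 5340226, nat_lit 5341250, nat_lit 4341793, nat_lit 7840768, nat_lit 7839744],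
 .step (nat_lit 134) [nat_lit 5234754, nat_lit 4150307, nat_lit 5660706, nat_lit 6831171, nat_lit 6284289, nat_lit 6833248, nat_lit 7841888],
 .step (nat_lit 99) [nat_lit 6309952, nat_lit 7752704, nat_lit 4658178, nat_lit 6988800, nat_lit 7842816, nat_lit 6872064],
 .step (nat_lit 99) [nat_lit 2004002, nat_lit 3559426, nat_lit 4673570, nat_lit 7855104],
 .step (nat_lit 132) [nat_lit 11267, nat_lit 7846912],
 .step (nat_lit 132) [nat_lit 6309985, nat_lit 4161571, nat_lit 7843872, nat_lit 6304801, nat_lit 7484449, nat_lit 7842849, nat_lit 7232512, nat_lit 7213089],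
 .step (nat_lit 132) [nat_lit 577539, nat_lit 4752418, nat_lit 7847936, nat_lit 4754435],
 .step (nat_lit 164) [nat_lit 577571, nat_lit 3636290, nat_lit 7850016, nat_lit 6343682],
 .step (nat_lit 198) [nat_lit 5236836, nat_lit 3129443, nat_lit 6165635, nat_lit 6870114, nat_lit 7704611, nat_lit 7703552],
 .step (nat_lit 227) [nat_lit 216163, nat_lit 223331, nat_lit 277603, nat_lit 7852032],
 .step (nat_lit 131) [nat_lit 5296129, nat_lit 4251650, nat_lit 7705600, nat_lit 7220224, nat_lit 7854080, nat_lit 7707648],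
 .step (nat_lit 133) [nat_lit 4883491, nat_lit 4389986, nat_lit 7859296, nat_lit 6330400, nat_lit 7713794, nat_lit 6858784],
 .step (nat_lit 199) [nat_lit 7228514, nat_lit 6774818, nat_lit 7249923, nat_lit 7253058, nat_lit 7251011, nat_lit 7861248, nat_lit 7722016, nat_lit 7862275],
 .step (nat_lit 196) [nat_lit 5299299, nat_lit 4252770, nat_lit 4256867, nat_lit 7259232, nat_lit 7863328, nat_lit 7864320],
 .step (nat_lit 165) [nat_lit 2771074, nat_lit 5572706, nat_lit 6914176, nat_lit 7865440, nat_lit 7261248, nat_lit 6915072],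
 .step (nat_lit 101) [nat_lit 1651716, nat_lit 1701892, nat_lit 2911236, nat_lit 6361090, nat_lit 6436898, nat_lit 7869440],
 .step (nat_lit 133) [nat_lit 3241056, nat_lit 3242080, nat_lit 7871523, nat_lit 7911424],
 .step (nat_lit 132) [nat_lit 2614307, nat_lit 5238785, nat_lit 6715425, nat_lit 7883808],
 .sym (nat_lit 7769) true false false (nat_lit 9) (nat_lit 11),
 .step (nat_lit 197) [nat_lit 2025539, nat_lit 3380289, nat_lit 6022212, nat_lit 7306304, nat_lit 7657473],
 .step (nat_lit 228) [nat_lit 2646115, nat_lit 2615395, nat_lit 6624386, nat_lit 4149377, nat_lit 5243939, nat_lit 7164963, nat_lit 7308288],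
 .step (nat_lit 69) [nat_lit 5217312, nat_lit 5240864, nat_lit 5172256, nat_lit 6641697, nat_lit 6662147],
 .sym (nat_lit 7773) true false false (nat_lit 9) (nat_lit 6),
 .sym (nat_lit 7773) true true false (nat_lit 9) (nat_lit 6),
 .step (nat_lit 165) [nat_lit 4145218, nat_lit 5986338, nat_lit 3241088, nat_lit 3242112, nat_lit 7872512],
 .step (nat_lit 132) [nat_lit 2647107, nat_lit 2648099, nat_lit 2646083, nat_lit 2649123, nat_lit 3255392, nat_lit 7888896],
 .step (nat_lit 69) [nat_lit 1359904, nat_lit 4044834, nat_lit 4053024, nat_lit 7856128, nat_lit 7895072],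
 .sym (nat_lit 7778) true false false (nat_lit 8) (nat_lit 9),
 .step (nat_lit 133) [nat_lit 486468, nat_lit 494660, nat_lit 2713604, nat_lit 7898176],
 .step (nat_lit 135) [nat_lit 5019683, nat_lit 4813859, nat_lit 6528070, nat_lit 7238657, nat_lit 7899136],
 .step (nat_lit 164) [nat_lit 4614144, nat_lit 5568512, nat_lit 4616256, nat_lit 7833600, nat_lit 7741440, nat_lit 7834624, nat_lit 7742464, nat_lit 7668736, nat_lit 7779328],
 .sym (nat_lit 7782) true false true (nat_lit 8) (nat_lit 9),
 .step (nat_lit 99) [nat_lit 1267777, nat_lit 55362, nat_lit 5481473, nat_lit 7878720],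
 .sym (nat_lit 7784) true false false (nat_lit 9) (nat_lit 10),
 .step (nat_lit 100) [nat_lit 2649091, nat_lit 7520256, nat_lit 6935553, nat_lit 7013377, nat_lit 7014401, nat_lit 6922241],
 .step (nat_lit 134) [nat_lit 3090467, nat_lit 7399460, nat_lit 7585794, nat_lit 7827458, nat_lit 7826464, nat_lit 6985761],
 .step (nat_lit 132) [nat_lit 2649123, nat_lit 2614307, nat_lit 6623266, nat_lit 5218307, nat_lit 5244963, nat_lit 6216737, nat_lit 7163939, nat_lit 7900192],
 .step (nat_lit 166) [nat_lit 7168036, nat_lit 6557699, nat_lit 6553603, nat_lit 7352355, nat_lit 7348257, nat_lit 6558722, nat_lit 7349280, nat_lit 7023649, nat_lit 7589890, nat_lit 7351329, nat_lit 7829507],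
 .step (nat_lit 131) [nat_lit 1359968, nat_lit 4547584, nat_lit 3832865, nat_lit 7902241],
 .step (nat_lit 100) [nat_lit 1651715, nat_lit 1701891, nat_lit 2911235, nat_lit 6972417, nat_lit 7903296],
 .step (nat_lit 101) [nat_lit 1651716, nat_lit 1701892, nat_lit 2911236, nat_lit 6361090, nat_lit 6436898, nat_lit 7904256],
 .step (nat_lit 132) [nat_lit 3313667, nat_lit 5103617, nat_lit 6487072, nat_lit 7867393],
 .step (nat_lit 166) [nat_lit 5129249, nat_lit 6023267, nat_lit 7056385, nat_lit 5960704, nat_lit 5961729, nat_lit 5955585, nat_lit 7909376],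
 .step (nat_lit 167) [nat_lit 1075331, nat_lit 4427907, nat_lit 7377955, nat_lit 7828480, nat_lit 7910403],
 .step (nat_lit 102) [nat_lit 4361282, nat_lit 2254917, nat_lit 6726656, nat_lit 7532577, nat_lit 7913473],
 .step (nat_lit 100) [nat_lit 4613186, nat_lit 7504896, nat_lit 4793347, nat_lit 7110659],
 .step (nat_lit 197) [nat_lit 2912418, nat_lit 4631588, nat_lit 7914528, nat_lit 7915521],
 .step (nat_lit 163) [nat_lit 5257250, nat_lit 6754434, nat_lit 7597122, nat_lit 7529504, nat_lit 7290880, nat_lit 6839394, nat_lit 7598112, nat_lit 7808033, nat_lit 7758880],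
 .sym (nat_lit 7799) true false false (nat_lit 10) (nat_lit 11),
 .step (nat_lit 101) [nat_lit 1938469, nat_lit 6130723, nat_lit 5761061, nat_lit 7821411, nat_lit 7618560],
 .step (nat_lit 134) [nat_lit 4316224, nat_lit 4929537, nat_lit 5867521, nat_lit 7549954],
 .step (nat_lit 166) [nat_lit 2695329, nat_lit 5783587, nat_lit 7494690, nat_lit 6951969, nat_lit 7920640],
 .step (nat_lit 163) [nat_lit 2965633, nat_lit 7961632, nat_lit 6696992, nat_lit 6695968, nat_lit 7921665],
 .step (nat_lit 163) [nat_lit 2997281, nat_lit 7960672, nat_lit 6709280, nat_lit 6699072, nat_lit 7923713],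
 .step (nat_lit 168) [nat_lit 2996262, nat_lit 7504003, nat_lit 7959650, nat_lit 6708259, nat_lit 7922688],
 .step (nat_lit 135) [nat_lit 7300, nat_lit 7924736],
 .step (nat_lit 132) [nat_lit 4710433, nat_lit 4406336, nat_lit 7136289, nat_lit 7928832],
 .step (nat_lit 133) [nat_lit 3431490, nat_lit 4144162, nat_lit 2944034, nat_lit 2662498, nat_lit 6535168, nat_lit 7931936],
 .step (nat_lit 132) [nat_lit 4360224, nat_lit 847873, nat_lit 7933952],
 .step (nat_lit 100) [nat_lit 6622241, nat_lit 5980163, nat_lit 5233696, nat_lit 4147201, nat_lit 4015105, nat_lit 6274112, nat_lit 7989248],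
 .step (nat_lit 101) [nat_lit 6620194, nat_lit 4648960, nat_lit 5868545, nat_lit 6830081, nat_lit 7938049],
 .step (nat_lit 133) [nat_lit 4743203, nat_lit 7672832, nat_lit 6289441, nat_lit 7844896, nat_lit 6288418, nat_lit 7939072],
 .step (nat_lit 164) [nat_lit 486499, nat_lit 494691, nat_lit 7476225, nat_lit 7937056],
 .step (nat_lit 102) [nat_lit 1363013, nat_lit 3667973, nat_lit 5615682, nat_lit 7941152],
 .step (nat_lit 133) [nat_lit 3432547, nat_lit 2663524, nat_lit 4701218, nat_lit 7942243, nat_lit 6847488],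
 .step (nat_lit 134) [nat_lit 6311009, nat_lit 4162597, nat_lit 6886401, nat_lit 6305828, nat_lit 4723778, nat_lit 6326307, nat_lit 6852672],
 .step (nat_lit 131) [nat_lit 216067, nat_lit 223235, nat_lit 277507, nat_lit 7944192],
 .step (nat_lit 163) [nat_lit 216099, nat_lit 223267, nat_lit 277539, nat_lit 7945216],
 .step (nat_lit 166) [nat_lit 3526754, nat_lit 2360418, nat_lit 3235938, nat_lit 7456834, nat_lit 5978178, nat_lit 7947264],
 .step (nat_lit 294) [nat_lit 2706564, nat_lit 5647553, nat_lit 7641153, nat_lit 7925760],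
 .step (nat_lit 196) [nat_lit 1353890, nat_lit 6670403, nat_lit 6826048, nat_lit 6276256, nat_lit 7357475, nat_lit 7949312],
 .step (nat_lit 132) [nat_lit 5563395, nat_lit 547937, nat_lit 2182208],
 .step (nat_lit 135) [nat_lit 1075299, nat_lit 7247939, nat_lit 6958115, nat_lit 7553057, nat_lit 7950336],
 .step (nat_lit 164) [nat_lit 10371, nat_lit 7952384],
 .step (nat_lit 132) [nat_lit 4710433, nat_lit 5766145, nat_lit 6203488, nat_lit 7623714, nat_lit 7825408],
 .step (nat_lit 165) [nat_lit 3755075, nat_lit 4888579, nat_lit 3756068, nat_lit 7596036, nat_lit 7978017, nat_lit 7953440],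
 .step (nat_lit 164) [nat_lit 4527168, nat_lit 7536672, nat_lit 7367714, nat_lit 7660608, nat_lit 6776864, nat_lit 7606304, nat_lit 7735360, nat_lit 7434304, nat_lit 7659552, nat_lit 7974912, nat_lit 7277632, nat_lit 7873568],
 .step (nat_lit 166) [nat_lit 5981217, nat_lit 5237826, nat_lit 4145219, nat_lit 7044132, nat_lit 7790624, nat_lit 7885825, nat_lit 7957504],
 .step (nat_lit 133) [nat_lit 6675490, nat_lit 7002146, nat_lit 7226400, nat_lit 6360097, nat_lit 6373409, nat_lit 7510050, nat_lit 7511073, nat_lit 7716864, nat_lit 7966752],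
 .step (nat_lit 134) [nat_lit 6877252, nat_lit 5707811, nat_lit 5422116, nat_lit 6532100, nat_lit 6994979, nat_lit 5877795, nat_lit 7326755, nat_lit 6531107, nat_lit 6530083, nat_lit 7967744],
 .step (nat_lit 66) [nat_lit 9281, nat_lit 7971840],
 .step (nat_lit 132) [nat_lit 4406336, nat_lit 4156417, nat_lit 4348929, nat_lit 6803488, nat_lit 7972864],
 .step (nat_lit 132) [nat_lit 7901282, nat_lit 5906433, nat_lit 5907457, nat_lit 7785506, nat_lit 7346178, nat_lit 7976962, nat_lit 7788546, nat_lit 7787521, nat_lit 7975936],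
 .step (nat_lit 165) [nat_lit 3755075, nat_lit 4888579, nat_lit 3756068, nat_lit 7596036, nat_lit 7978017, nat_lit 7979040],
 .step (nat_lit 102) [nat_lit 1940517, nat_lit 6131747, nat_lit 5760036, nat_lit 7820386, nat_lit 7561218, nat_lit 7868416],
 .step (nat_lit 166) [nat_lit 5944353, nat_lit 7366754, nat_lit 7796770, nat_lit 7800834, nat_lit 7795714, nat_lit 7802880, nat_lit 7605282, nat_lit 7608352, nat_lit 7801857, nat_lit 7907328, nat_lit 7908353, nat_lit 7981057],
 .step (nat_lit 101) [nat_lit 1938469, nat_lit 6130723, nat_lit 5773349, nat_lit 7039011, nat_lit 7385088, nat_lit 7983104],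
 .step (nat_lit 196) [nat_lit 5299299, nat_lit 4252770, nat_lit 5579812, nat_lit 7984160, nat_lit 7670817, nat_lit 7985152],
 .step (nat_lit 198) [nat_lit 2642082, nat_lit 6620291, nat_lit 4027522, nat_lit 4063362, nat_lit 7990272],
 .step (nat_lit 226) [nat_lit 9441, nat_lit 7991296],
 .step (nat_lit 165) [nat_lit 5298210, nat_lit 2973730, nat_lit 7285793, nat_lit 7103521, nat_lit 7881761, nat_lit 7992320],
 .step (nat_lit 199) [nat_lit 6308, nat_lit 7994368],
 .step (nat_lit 166) [nat_lit 5296164, nat_lit 2972709, nat_lit 7284771, nat_lit 7102500, nat_lit 7880737, nat_lit 7993344],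
 .step (nat_lit 293) [nat_lit 488580, nat_lit 2770116, nat_lit 495748, nat_lit 8008704],
 .sym (nat_lit 7845) true false false (nat_lit 11) (nat_lit 12),
 .step (nat_lit 68) [nat_lit 915456, nat_lit 2964481, nat_lit 960512, nat_lit 7997440],
 .step (nat_lit 167) [nat_lit 6259780, nat_lit 6270112, nat_lit 5783588, nat_lit 7996418],
 .step (nat_lit 133) [nat_lit 5152800, nat_lit 7626784, nat_lit 6508577, nat_lit 6510688, nat_lit 4653088, nat_lit 6509632, nat_lit 7194657, nat_lit 7939072, nat_lit 7999521],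
 .step (nat_lit 134) [nat_lit 2696294, nat_lit 5658658, nat_lit 5638179, nat_lit 6845538, nat_lit 8003584],
 .step (nat_lit 133) [nat_lit 4964387, nat_lit 6677537, nat_lit 4418595, nat_lit 7003171, nat_lit 4718627, nat_lit 7227426, nat_lit 4720675, nat_lit 6855713, nat_lit 8004608],
 .step (nat_lit 230) [nat_lit 6336578, nat_lit 7214179, nat_lit 6865984, nat_lit 8006720, nat_lit 6860864, nat_lit 8005728, nat_lit 7851042, nat_lit 7946240, nat_lit 7848962],
 .step (nat_lit 132) [nat_lit 486467, nat_lit 494659, nat_lit 4107266, nat_lit 8007680],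
 .step (nat_lit 199) [nat_lit 2619555, nat_lit 5979204, nat_lit 4014180, nat_lit 8009728],
 .step (nat_lit 134) [nat_lit 2649125, nat_lit 2614309, nat_lit 4144163, nat_lit 5243909, nat_lit 5987362, nat_lit 6891586, nat_lit 8002560],
 .step (nat_lit 196) [nat_lit 776320, nat_lit 2683969, nat_lit 8010752],
 .step (nat_lit 263) [nat_lit 1362054, nat_lit 6392900, nat_lit 8012804, nat_lit 7951424],
 .step (nat_lit 136) [nat_lit 488455, nat_lit 495623, nat_lit 2896901, nat_lit 8014848],
 .step (nat_lit 193) [nat_lit 8352, nat_lit 7101440],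
 .step (nat_lit 100) [nat_lit 7236, nat_lit 7970816],
 .step (nat_lit 133) [nat_lit 7554082, nat_lit 6545410, nat_lit 5011458, nat_lit 7017472, nat_lit 7783425, nat_lit 6539264, nat_lit 7762944, nat_lit 7315459, nat_lit 6982658, nat_lit 7568418, nat_lit 7566370, nat_lit 7889924, nat_lit 7782403],
 .step (nat_lit 200) [nat_lit 5979205, nat_lit 5980261, nat_lit 6642757, nat_lit 7514181, nat_lit 8018944],
 .step (nat_lit 167) [nat_lit 6476804, nat_lit 4554756, nat_lit 7661573, nat_lit 5061636, nat_lit 6234115, nat_lit 7662626, nat_lit 7022596, nat_lit 7021571, nat_lit 7588897, nat_lit 7555105, nat_lit 8022048],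
 .step (nat_lit 168) [nat_lit 4281413, nat_lit 4105286, nat_lit 6095973, nat_lit 5524487, nat_lit 6638596, nat_lit 6217733, nat_lit 8023040],
 .step (nat_lit 165) [nat_lit 1652772, nat_lit 2146338, nat_lit 1126434, nat_lit 8025088],
 .step (nat_lit 199) [nat_lit 14407, nat_lit 8027136],
 .step (nat_lit 199) [nat_lit 1269862, nat_lit 54343, nat_lit 5480517, nat_lit 8027136],
 .step (nat_lit 165) [nat_lit 5297282, nat_lit 2971746, nat_lit 6711425, nat_lit 7879713, nat_lit 8047713, nat_lit 8029184],
 .step (nat_lit 34) [nat_lit 9249, nat_lit 8030208],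
 .step (nat_lit 196) [nat_lit 8355, nat_lit 8031232],
 .sym (nat_lit 7870) false true false (nat_lit 8) (nat_lit 11),
 .sym (nat_lit 7870) true false false (nat_lit 8) (nat_lit 11),
 .sym (nat_lit 7870) true true false (nat_lit 8) (nat_lit 11),
 .step (nat_lit 41) [nat_lit 7206, nat_lit 8032256],
 .sym (nat_lit 7874) false true false (nat_lit 11) (nat_lit 10),
 .step (nat_lit 233) [nat_lit 473286, nat_lit 2186374, nat_lit 8034304, nat_lit 7926788],
 .step (nat_lit 261) [nat_lit 6370, nat_lit 8033280],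
 .sym (nat_lit 7877) true false false (nat_lit 11) (nat_lit 12),
 .step (nat_lit 167) [nat_lit 486502, nat_lit 2655270, nat_lit 4144164, nat_lit 8038400],
 .step (nat_lit 199) [nat_lit 2619555, nat_lit 2610339, nat_lit 5979204, nat_lit 8039424],
 .step (nat_lit 166) [nat_lit 3526754, nat_lit 3235938, nat_lit 6999104, nat_lit 6335552, nat_lit 8040448],
 .step (nat_lit 198) [nat_lit 6941794, nat_lit 4966467, nat_lit 7224352, nat_lit 7709730, nat_lit 8043520],
 .step (nat_lit 163) [nat_lit 1267841, nat_lit 2596930, nat_lit 5395521, nat_lit 8044545, nat_lit 7823488],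
 .step (nat_lit 167) [nat_lit 2648134, nat_lit 5218342, nat_lit 7520323, nat_lit 7337059, nat_lit 8045568],
 .step (nat_lit 232) [nat_lit 6676549, nat_lit 5815365, nat_lit 5847109, nat_lit 6975557, nat_lit 6416453, nat_lit 6417411, nat_lit 7615619, nat_lit 7755844, nat_lit 7804963, nat_lit 8046656],
 .step (nat_lit 133) [nat_lit 4884515, nat_lit 4391011, nat_lit 7858275, nat_lit 6331424, nat_lit 6160449, nat_lit 7712768],
 .step (nat_lit 165) [nat_lit 3486753, nat_lit 6154273, nat_lit 7686176, nat_lit 6873090, nat_lit 8035362, nat_lit 7685152],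
 .step (nat_lit 198) [nat_lit 2647109, nat_lit 2613317, nat_lit 6621283, nat_lit 4148323, nat_lit 5242885, nat_lit 7162882, nat_lit 7882784],
 .step (nat_lit 199) [nat_lit 2695362, nat_lit 6259812, nat_lit 5783620, nat_lit 7934978, nat_lit 8048768],
 .step (nat_lit 166) [nat_lit 3905603, nat_lit 4399170, nat_lit 4008002, nat_lit 7585826, nat_lit 7664640],
 .step (nat_lit 132) [nat_lit 2613315, nat_lit 3082305, nat_lit 7400546, nat_lit 7585792, nat_lit 7968803],
 .step (nat_lit 197) [nat_lit 7577633, nat_lit 7578657, nat_lit 7235713, nat_lit 7236641, nat_lit 7737408, nat_lit 7738400, nat_lit 7621730, nat_lit 7774209, nat_lit 8017921, nat_lit 7772193, nat_lit 7773217, nat_lit 7809056, nat_lit 7810048],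
 .sym (nat_lit 7892) true false true (nat_lit 11) (nat_lit 13),
 .sym (nat_lit 7892) false true true (nat_lit 11) (nat_lit 13),
 .sym (nat_lit 7892) true false false (nat_lit 11) (nat_lit 13),
 .step (nat_lit 197) [nat_lit 2644129, nat_lit 2610337, nat_lit 6620290, nat_lit 4145250, nat_lit 5242016, nat_lit 6442049, nat_lit 2610337, nat_lit 7812128, nat_lit 7334912],
 .step (nat_lit 166) [nat_lit 2646117, nat_lit 2612293, nat_lit 4148355, nat_lit 7399492, nat_lit 7664640, nat_lit 7968837, nat_lit 7784545],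
 .step (nat_lit 166) [nat_lit 3313701, nat_lit 2155557, nat_lit 7930881, nat_lit 7874594, nat_lit 8051712],
 .step (nat_lit 200) [nat_lit 7332934, nat_lit 6944869, nat_lit 7289892, nat_lit 7748675, nat_lit 7819300, nat_lit 7268387, nat_lit 7688196, nat_lit 7958532, nat_lit 7527492, nat_lit 7956483, nat_lit 7870469, nat_lit 7731236, nat_lit 8052800, nat_lit 8024067, nat_lit 7987235],
 .step (nat_lit 199) [nat_lit 7698531, nat_lit 6377538, nat_lit 6576162, nat_lit 7363650, nat_lit 6581314, nat_lit 6580291, nat_lit 7601218, nat_lit 7905380, nat_lit 7603299, nat_lit 7980097, nat_lit 7602242, nat_lit 7051329, nat_lit 7604226, nat_lit 7906336, nat_lit 8053826],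
 .step (nat_lit 196) [nat_lit 7155779, nat_lit 7151683, nat_lit 7330880, nat_lit 7770177, nat_lit 7777344, nat_lit 7225377, nat_lit 7688192, nat_lit 7890977],
 .step (nat_lit 231) [nat_lit 2665606, nat_lit 5376006, nat_lit 8054848, nat_lit 8055872],
 .step (nat_lit 261) [nat_lit 1268962, nat_lit 5157026, nat_lit 8061025, nat_lit 8062017, nat_lit 8058048, nat_lit 8056832],
 .step (nat_lit 262) [nat_lit 487651, nat_lit 1404101, nat_lit 6016131, nat_lit 8065024],
 .step (nat_lit 230) [nat_lit 1361092, nat_lit 6670437, nat_lit 6825090, nat_lit 8067072, nat_lit 7936098],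
 .step (nat_lit 168) [nat_lit 1939619, nat_lit 7495683, nat_lit 7728165, nat_lit 6835235, nat_lit 7845984, nat_lit 8071170],
 .step (nat_lit 167) [nat_lit 6205508, nat_lit 7697410, nat_lit 7696386, nat_lit 7202883, nat_lit 7681026, nat_lit 6844484, nat_lit 7682049, nat_lit 7694370, nat_lit 7695392, nat_lit 7943202, nat_lit 8068128],
 .step (nat_lit 132) [nat_lit 486467, nat_lit 494659, nat_lit 4283393, nat_lit 8070144],
 .step (nat_lit 67) [nat_lit 1352738, nat_lit 1267745, nat_lit 7948320, nat_lit 8076288],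
 .sym (nat_lit 7909) true false false (nat_lit 10) (nat_lit 10),
 .step (nat_lit 199) [nat_lit 4406403, nat_lit 5556292, nat_lit 5546051, nat_lit 8073216],
 .step (nat_lit 168) [nat_lit 7331940, nat_lit 7740485, nat_lit 7929888, nat_lit 7377956, nat_lit 7655456, nat_lit 7733252, nat_lit 7962628, nat_lit 7954468, nat_lit 7614496, nat_lit 8016899, nat_lit 8090628, nat_lit 7886851, nat_lit 8074240],
 .step (nat_lit 230) [nat_lit 1268931, nat_lit 5156995, nat_lit 5340355, nat_lit 8066049, nat_lit 8020097, nat_lit 8075296],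
 .step (nat_lit 262) [nat_lit 1267940, nat_lit 5158053, nat_lit 8058978, nat_lit 8059970, nat_lit 8063168, nat_lit 8064000],
 .step (nat_lit 231) [nat_lit 7330915, nat_lit 7625797, nat_lit 6504515, nat_lit 7963683, nat_lit 7316547, nat_lit 8079361, nat_lit 8080419, nat_lit 7973921, nat_lit 8086529, nat_lit 8049792],
 .step (nat_lit 201) [nat_lit 1075365, nat_lit 4427941, nat_lit 8016932, nat_lit 8015877, nat_lit 8087648],
 .step (nat_lit 168) [nat_lit 4427908, nat_lit 7247972, nat_lit 4783236, nat_lit 4409476, nat_lit 7264356, nat_lit 6899781, nat_lit 8088576, nat_lit 8089632],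
 .step (nat_lit 197) [nat_lit 5235778, nat_lit 5236803, nat_lit 6097027, nat_lit 7475297, nat_lit 5695488, nat_lit 5696514, nat_lit 7639138],
 .step (nat_lit 199) [nat_lit 4282469, nat_lit 4106340, nat_lit 4148324, nat_lit 6097029, nat_lit 6029349, nat_lit 5525542, nat_lit 8091648],
 .step (nat_lit 230) [nat_lit 4146307, nat_lit 5980293, nat_lit 5233826, nat_lit 4147331, nat_lit 7043201, nat_lit 7927842, nat_lit 8093696, nat_lit 8072258],
 .step (nat_lit 199) [nat_lit 2644131, nat_lit 2610339, nat_lit 6620292, nat_lit 4145252, nat_lit 5240993, nat_lit 8036352, nat_lit 7965825],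
 .sym (nat_lit 7921) true true false (nat_lit 10) (nat_lit 13),
 .step (nat_lit 233) [nat_lit 2610373, nat_lit 5979238, nat_lit 4042886, nat_lit 8094720],
 .step (nat_lit 231) [nat_lit 2642115, nat_lit 5234851, nat_lit 4028578, nat_lit 5582977, nat_lit 7853189, nat_lit 7811137, nat_lit 7964835, nat_lit 8078336, nat_lit 8100001],
 .sym (nat_lit 7924) true false false (nat_lit 12) (nat_lit 15),
 .step (nat_lit 166) [nat_lit 6205507, nat_lit 6511683, nat_lit 7697409, nat_lit 7696385, nat_lit 7458850, nat_lit 7318528, nat_lit 7699456, nat_lit 7940162, nat_lit 8041538, nat_lit 8001570, nat_lit 8000546, nat_lit 8037410, nat_lit 8097858],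
 .step (nat_lit 265) [nat_lit 2642149, nat_lit 2643172, nat_lit 2644197, nat_lit 2645220, nat_lit 8103936, nat_lit 8092677],
 .step (nat_lit 134) [nat_lit 6651938, nat_lit 7328832, nat_lit 6652930, nat_lit 7769122, nat_lit 6655009, nat_lit 6656001, nat_lit 6667298, nat_lit 7391268, nat_lit 7392289, nat_lit 7896066, nat_lit 7860224],
 .sym (nat_lit 7928) true true false (nat_lit 10) (nat_lit 9),
 .sym (nat_lit 7928) true false false (nat_lit 10) (nat_lit 9),
 .sym (nat_lit 7928) false true false (nat_lit 10) (nat_lit 9),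
 .sym (nat_lit 7928) true true true (nat_lit 10) (nat_lit 9),
 .sym (nat_lit 7928) true false true (nat_lit 10) (nat_lit 9),
 .sym (nat_lit 7928) false true true (nat_lit 10) (nat_lit 9),
 .sym (nat_lit 7928) false false true (nat_lit 10) (nat_lit 9),
 .step (nat_lit 230) [nat_lit 2642114, nat_lit 2611393, nat_lit 4145283, nat_lit 7398529, nat_lit 7969793, nat_lit 8098976, nat_lit 8102913],
 .step (nat_lit 232) [nat_lit 7727237, nat_lit 7244899, nat_lit 7135331, nat_lit 7995460, nat_lit 7887941, nat_lit 7877701, nat_lit 8013892, nat_lit 7876709, nat_lit 7884869, nat_lit 8021060, nat_lit 7875653, nat_lit 8100865, nat_lit 7982146, nat_lit 8011874, nat_lit 7866434, nat_lit 8101953, nat_lit 8104993, nat_lit 8106016, nat_lit 8107073],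
 .step (nat_lit 199) [nat_lit 7330883, nat_lit 7288868, nat_lit 7747650, nat_lit 7818276, nat_lit 7912578, nat_lit 7689218, nat_lit 8108066, nat_lit 7640097, nat_lit 7955459, nat_lit 8077345, nat_lit 7730211, nat_lit 8109088, nat_lit 7988225, nat_lit 8026113, nat_lit 7986210],
 .step (nat_lit 231) [nat_lit 7329890, nat_lit 7082084, nat_lit 7088226, nat_lit 7739458, nat_lit 7569508, nat_lit 7894145, nat_lit 8113152, nat_lit 8112131, nat_lit 7687234, nat_lit 8069154, nat_lit 8042530, nat_lit 7892034, nat_lit 8115201, nat_lit 8110080, nat_lit 8095778, nat_lit 8096769, nat_lit 8116226],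
 .sym (nat_lit 7939) false true false (nat_lit 15) (nat_lit 15),
 .sym (nat_lit 7939) true true false (nat_lit 15) (nat_lit 15),
 .sym (nat_lit 7939) true false false (nat_lit 15) (nat_lit 15),
 .step (nat_lit 198) [nat_lit 7750754, nat_lit 7328897, nat_lit 7329857, nat_lit 7768130, nat_lit 7081026, nat_lit 7327811, nat_lit 7893058, nat_lit 7322723, nat_lit 7776292, nat_lit 7813153, nat_lit 8050688],
 .sym (nat_lit 7943) true false false (nat_lit 13) (nat_lit 11),
 .sym (nat_lit 7943) false true false (nat_lit 13) (nat_lit 11),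
 .sym (nat_lit 7943) true true true (nat_lit 13) (nat_lit 11),
 .sym (nat_lit 7943) false true true (nat_lit 13) (nat_lit 11),
 .sym (nat_lit 7943) true false true (nat_lit 13) (nat_lit 11),
 .sym (nat_lit 7943) false false true (nat_lit 13) (nat_lit 11),
 .sym (nat_lit 7943) true true false (nat_lit 13) (nat_lit 11),
 .step (nat_lit 263) [nat_lit 7751876, nat_lit 7328962, nat_lit 7767172, nat_lit 7576677, nat_lit 7396450, nat_lit 7933059, nat_lit 8111170, nat_lit 7998626, nat_lit 8085572, nat_lit 8114210, nat_lit 8028227, nat_lit 8110112, nat_lit 8126499, nat_lit 8117248, nat_lit 8128608, nat_lit 8127554],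
 .sym (nat_lit 7951) false true false (nat_lit 17) (nat_lit 17),
 .sym (nat_lit 7951) false false true (nat_lit 17) (nat_lit 17),
 .sym (nat_lit 7951) false true true (nat_lit 17) (nat_lit 17),
 .step (nat_lit 297) [nat_lit 7916677, nat_lit 7917733, nat_lit 7918724, nat_lit 7919780, nat_lit 8118436, nat_lit 8119428, nat_lit 8120484, nat_lit 8121476, nat_lit 8122500, nat_lit 8123525, nat_lit 8124548, nat_lit 8125573, nat_lit 8133730, nat_lit 8134755, nat_lit 8135810, nat_lit 8136804, nat_lit 8137796, nat_lit 8138851, nat_lit 8139843, nat_lit 8140931, nat_lit 8081507, nat_lit 8082563, nat_lit 8083554, nat_lit 8084580, nat_lit 8129601, nat_lit 8130593, nat_lit 8131618, nat_lit 8132674, nat_lit 8141857, nat_lit 8142849, nat_lit 8143905, nat_lit 8144928]]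

theorem c7750 : checkFrom tbl r7750 (nat_lit 7956) (nat_lit 7750) = true := by decide +kernel

end Crest.Agent.R035
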