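import Mathlib
import Crest.Prelude.Def_PolyominoGame

/-! Maker–Breaker game for Snaky: winning positions, patterns and a certificate checker. -/

set_option autoImplicit false

namespace Crest.Agent.R035
open Crest.CombinatoricsR.PolyominoGame

abbrev Cell := ℤ × ℤ

/-- Maker, to move, owning `M` against Breaker's `B`, owns a copy after `d` more claims. -/
def Wn : ℕ → Finset Cell → Finset Cell → Prop
  | 0, M, _ => ContainsCopy (↑M : Set Cell)
  | d + 1, M, B => ∃ x, x ∉ M ∧ x ∉ B ∧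
      ∀ y, y ∉ insert x M → y ∉ B → Wn d (insert x M) (insert y B)

theorem copy_mono {X Y : Set Cell} (h : X ⊆ Y) (hX : ContainsCopy X) : ContainsCopy Y := by
  obtain ⟨t, e1, e2, h1, h2, h3⟩ := hX
  refine ⟨t, e1, e2, h1, h2, ?_⟩
  rcases h3 with h3 | h3
  · exact Or.inl fun p hp => h (h3 p hp)
  · exact Or.inr fun p hp => h (h3 p hp)

theorem exists_free (M B : Finset Cell) : ∃ x, x ∉ M ∧ x ∉ B := by
  obtain ⟨x, hx⟩ := Infinite.exists_notMem_finset (M ∪ B)
  exact ⟨x, fun h => hx (Finset.mem_union_left _ h), fun h => hx (Finset.mem_union_right _ h)⟩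

theorem Wn_succ : ∀ (d : ℕ) (M B : Finset Cell), Wn d M B → Wn (d + 1) M B
  | 0, M, B, h => by
      obtain ⟨x, hx, hx'⟩ := exists_free M B
      refine ⟨x, hx, hx', fun y _ _ => ?_⟩
      exact copy_mono (by intro z hz; simp only [Finset.coe_insert]; exact Or.inr hz) h
  | d + 1, M, B, h => by
      obtain ⟨x, hx, hx', h⟩ := h
      exact ⟨x, hx, hx', fun y h1 h2 => Wn_succ d _ _ (h y h1 h2)⟩

theorem Wn_mono {d e : ℕ} (hde : d ≤ e) {M B : Finset Cell} (h : Wn d M B) : Wn e M B := by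
  induction hde with
  | refl => exact h
  | step _ ih => exact Wn_succ _ _ _ ih

def snakyN : List (ℕ × ℕ) := [(0, 0), (1, 0), (2, 0), (3, 0), (3, 1), (4, 1)]

/-- index offset of the cell `(u, v)` of Snaky in one of the eight orientations -/
def cellOf (e1 e2 s : Bool) (u v : ℕ) : ℕ :=
  if s then (if e2 then 1 - v else v) + 32 * (if e1 then 4 - u else u)
  else (if e1 then 4 - u else u) + 32 * (if e2 then 1 - v else v)

/-- `φ` embeds the index set `Z` in the board, injectively and sending copies to copies. -/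
def Adm (Z : ℕ) (φ : ℕ → Cell) : Prop :=
  (∀ i j, Z.testBit i = true → Z.testBit j = true → φ i = φ j → i = j) ∧
  (∀ (e1 e2 s : Bool) (k : ℕ), (∀ p ∈ snakyN, Z.testBit (k + cellOf e1 e2 s p.1 p.2) = true) →
    ∀ X : Set Cell, (∀ p ∈ snakyN, φ (k + cellOf e1 e2 s p.1 p.2) ∈ X) → ContainsCopy X)

/-- A pattern: owning `R` with no Breaker cell in `Z`, Maker to move wins within `d` claims. -/
def Good (d R Z : ℕ) : Prop :=
  ∀ φ : ℕ → Cell, Adm Z φ → ∀ M B : Finset Cell, (∀ i, R.testBit i = true → φ i ∈ M) →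
    (∀ i, Z.testBit i = true → φ i ∉ B) → Wn d M B

theorem Adm.shift {Z Zc k : ℕ} {φ : ℕ → Cell} (h : Adm Z φ)
    (hs : ∀ i, Zc.testBit i = true → Z.testBit (i + k) = true) :
    Adm Zc (fun i => φ (i + k)) := by
  refine ⟨fun i j hi hj hij => ?_, fun e1 e2 s k0 hk X hX => ?_⟩
  · have := h.1 _ _ (hs i hi) (hs j hj) hij
    omega
  · refine h.2 e1 e2 s (k0 + k) (fun p hp => ?_) X (fun p hp => ?_)
    · have := hs _ (hk p hp)
      rwa [Nat.add_right_comm] at this
    · have := hX p hp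
      simp only at this
      rwa [Nat.add_right_comm] at this

/-- the index map of a signed coordinate permutation -/
noncomputable def smap (fx fy sw : Bool) (a b i : ℕ) : ℕ :=
  @Bool.rec (fun _ => ℕ)
    (Nat.add (@Bool.rec (fun _ => ℕ) (Nat.mod i (nat_lit 32)) (Nat.sub a (Nat.mod i (nat_lit 32))) fx)
      (Nat.mul (nat_lit 32)
        (@Bool.rec (fun _ => ℕ) (Nat.div i (nat_lit 32)) (Nat.sub b (Nat.div i (nat_lit 32))) fy)))
    (Nat.add (@Bool.rec (fun _ => ℕ) (Nat.div i (nat_lit 32)) (Nat.sub b (Nat.div i (nat_lit 32))) fy)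
      (Nat.mul (nat_lit 32)
        (@Bool.rec (fun _ => ℕ) (Nat.mod i (nat_lit 32)) (Nat.sub a (Nat.mod i (nat_lit 32))) fx)))
    sw

theorem smap_eq (fx fy sw : Bool) (a b i : ℕ) : smap fx fy sw a b i =
    if sw then (if fy then b - i / 32 else i / 32) + 32 * (if fx then a - i % 32 else i % 32)
    else (if fx then a - i % 32 else i % 32) + 32 * (if fy then b - i / 32 else i / 32) := by
  cases fx <;> cases fy <;> cases sw <;> rfl

theorem smap_xy (fx fy sw : Bool) (a b x y : ℕ) (hx : x < 32) : smap fx fy sw a b (x + 32 * y) =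
    if sw then (if fy then b - y else y) + 32 * (if fx then a - x else x)
    else (if fx then a - x else x) + 32 * (if fy then b - y else y) := by
  have h1 : (x + 32 * y) % 32 = x := by omega
  have h2 : (x + 32 * y) / 32 = y := by omega
  rw [smap_eq, h1, h2]

theorem copy_bounds {a b k : ℕ} {e1 e2 s : Bool} (ha : a ≤ 26)
    (h : ∀ p ∈ snakyN, (k + cellOf e1 e2 s p.1 p.2) % 32 ≤ a ∧ (k + cellOf e1 e2 s p.1 p.2) / 32 ≤ b) :
    k % 32 + (if s then 1 else 4) ≤ a ∧ k / 32 + (if s then 4 else 1) ≤ b := by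
  have h0 := h (0, 0) (by decide)
  have h5 := h (4, 1) (by decide)
  cases e1 <;> cases e2 <;> cases s <;> simp [cellOf] at h0 h5 ⊢ <;> omega

theorem smap_copy (fx fy sw e1 e2 s : Bool) (a b x y : ℕ) (ha : a ≤ 26)
    (hx : x + (if s then 1 else 4) ≤ a) (hy : y + (if s then 4 else 1) ≤ b) :
    ∃ (f1 f2 t : Bool) (k' : ℕ), ∀ p ∈ snakyN,
      smap fx fy sw a b (x + 32 * y + cellOf e1 e2 s p.1 p.2) = k' + cellOf f1 f2 t p.1 p.2 := by
  refine ⟨if s then xor e1 fy else xor e1 fx, if s then xor e2 fx else xor e2 fy, xor s sw,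
    if sw then (if fy then b - y - (if s then 4 else 1) else y) +
        32 * (if fx then a - x - (if s then 1 else 4) else x)
    else (if fx then a - x - (if s then 1 else 4) else x) +
        32 * (if fy then b - y - (if s then 4 else 1) else y), ?_⟩
  intro p hp
  obtain ⟨u, v⟩ := p
  have hu : u ≤ 4 ∧ v ≤ 1 := by
    simp only [snakyN, List.mem_cons, Prod.mk.injEq, List.not_mem_nil, or_false] at hp
    omega
  obtain ⟨hu, hv⟩ := hu
  cases s
  · have e : x + 32 * y + cellOf e1 e2 false u v =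
        (x + (if e1 then 4 - u else u)) + 32 * (y + (if e2 then 1 - v else v)) := by
      cases e1 <;> cases e2 <;> simp [cellOf] <;> omega
    rw [e, smap_xy _ _ _ _ _ _ _ (by cases e1 <;> simp at hx ⊢ <;> omega)]
    cases fx <;> cases fy <;> cases sw <;> cases e1 <;> cases e2 <;> simp [cellOf] at hx hy ⊢ <;> omega
  · have e : x + 32 * y + cellOf e1 e2 true u v =
        (x + (if e2 then 1 - v else v)) + 32 * (y + (if e1 then 4 - u else u)) := by
      cases e1 <;> cases e2 <;> simp [cellOf] <;> omega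
    rw [e, smap_xy _ _ _ _ _ _ _ (by cases e2 <;> simp at hx ⊢ <;> omega)]
    cases fx <;> cases fy <;> cases sw <;> cases e1 <;> cases e2 <;> simp [cellOf] at hx hy ⊢ <;> omega

theorem Adm.sym {Z Zc a b : ℕ} {fx fy sw : Bool} {φ : ℕ → Cell} (h : Adm Z φ) (ha : a ≤ 26)
    (hb : b ≤ 26)
    (hs : ∀ i, Zc.testBit i = true →
      i % 32 ≤ a ∧ i / 32 ≤ b ∧ Z.testBit (smap fx fy sw a b i) = true) :
    Adm Zc (fun i => φ (smap fx fy sw a b i)) := by
  refine ⟨fun i j hi hj hij => ?_, fun e1 e2 s k hk X hX => ?_⟩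
  · obtain ⟨h1, h2, h3⟩ := hs i hi
    obtain ⟨h4, h5, h6⟩ := hs j hj
    have := h.1 _ _ h3 h6 hij
    rw [smap_eq, smap_eq] at this
    cases fx <;> cases fy <;> cases sw <;> simp at this <;> omega
  · obtain ⟨hx, hy⟩ := copy_bounds (b := b) ha
      (fun p hp => ⟨(hs _ (hk p hp)).1, (hs _ (hk p hp)).2.1⟩)
    obtain ⟨f1, f2, t, k', hk'⟩ := smap_copy fx fy sw e1 e2 s a b (k % 32) (k / 32) ha hx hy
    rw [Nat.mod_add_div] at hk'
    refine h.2 f1 f2 t k' (fun p hp => ?_) X (fun p hp => ?_)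
    · rw [← hk' p hp]; exact (hs _ (hk p hp)).2.2
    · rw [← hk' p hp]; exact hX p hp

theorem adm_root {Z : ℕ} (hZ : ∀ i, Z.testBit i = true → i % 32 ≤ 26) :
    Adm Z (fun i => (((i % 32 : ℕ) : ℤ), ((i / 32 : ℕ) : ℤ))) := by
  refine ⟨fun i j _ _ hij => ?_, fun e1 e2 s k hk X hX => ?_⟩
  · simp only [Prod.mk.injEq] at hij
    omega
  · obtain ⟨hx, -⟩ := copy_bounds (b := k + 200) (le_refl 26) (e1 := e1) (e2 := e2) (s := s) (k := k)
      (fun p hp => ⟨hZ _ (hk p hp), by
        have : cellOf e1 e2 s p.1 p.2 ≤ 200 := by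
          revert p; cases e1 <;> cases e2 <;> cases s <;> decide
        omega⟩)
    have key : ∀ u v : ℕ, (u, v) ∈ snakyN → ∀ z : Cell,
        z = (((k % 32 : ℕ) : ℤ) + (if s then (if e2 then 1 - (v : ℤ) else v) else (if e1 then 4 - (u : ℤ) else u)),
          ((k / 32 : ℕ) : ℤ) + (if s then (if e1 then 4 - (u : ℤ) else u) else (if e2 then 1 - (v : ℤ) else v))) →
        z ∈ X := by
      intro u v huv z hz
      have h1 := hX (u, v) huv
      have hu : u ≤ 4 ∧ v ≤ 1 := by
        simp only [snakyN, List.mem_cons, Prod.mk.injEq, List.not_mem_nil, or_false] at huv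
        omega
      convert h1 using 1
      rw [hz]
      cases e1 <;> cases e2 <;> cases s <;> simp [cellOf] at hx ⊢ <;> omega
    have key2 : ∀ p ∈ snaky, ∃ u v : ℕ, (u, v) ∈ snakyN ∧ p.1 = u ∧ p.2 = v := by
      intro p hp
      simp only [snaky, Finset.mem_insert, Finset.mem_singleton] at hp
      rcases hp with rfl | rfl | rfl | rfl | rfl | rfl
      exacts [⟨0, 0, by decide, rfl, rfl⟩, ⟨1, 0, by decide, rfl, rfl⟩, ⟨2, 0, by decide, rfl, rfl⟩,
        ⟨3, 0, by decide, rfl, rfl⟩, ⟨3, 1, by decide, rfl, rfl⟩, ⟨4, 1, by decide, rfl, rfl⟩]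
    cases s
    · refine ⟨(((k % 32 : ℕ) : ℤ) + (if e1 then 4 else 0), ((k / 32 : ℕ) : ℤ) + (if e2 then 1 else 0)),
        if e1 then -1 else 1, if e2 then -1 else 1, by cases e1 <;> simp, by cases e2 <;> simp,
        Or.inl fun p hp => ?_⟩
      obtain ⟨u, v, huv, h1, h2⟩ := key2 p hp
      refine key u v huv _ ?_
      rw [h1, h2]
      cases e1 <;> cases e2 <;> simp <;> omega
    · refine ⟨(((k % 32 : ℕ) : ℤ) + (if e2 then 1 else 0), ((k / 32 : ℕ) : ℤ) + (if e1 then 4 else 0)),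
        if e2 then -1 else 1, if e1 then -1 else 1, by cases e2 <;> simp, by cases e1 <;> simp,
        Or.inr fun p hp => ?_⟩
      obtain ⟨u, v, huv, h1, h2⟩ := key2 p hp
      refine key u v huv _ ?_
      rw [h1, h2]
      cases e1 <;> cases e2 <;> simp <;> omega

end Crest.Agent.R035
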