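import Crest.Agent.R035.Chk0
import Crest.Agent.R035.Chk1
import Crest.Agent.R035.Chk2
import Crest.Agent.R035.Chk3
import Crest.Agent.R035.Chk4
import Crest.Agent.R035.Chk5
import Crest.Agent.R035.Chk6
import Crest.Agent.R035.Chk7

set_option autoImplicit false
set_option maxRecDepth 100000

namespace Crest.Agent.R035

theorem g250 : AllGood tbl 250 := checkFrom_spec r0 0 (allGood_zero tbl) c0
theorem g500 : AllGood tbl 500 := checkFrom_spec r250 250 g250 c250
theorem g750 : AllGood tbl 750 := checkFrom_spec r500 500 g500 c500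
theorem g1000 : AllGood tbl 1000 := checkFrom_spec r750 750 g750 c750
theorem g1250 : AllGood tbl 1250 := checkFrom_spec r1000 1000 g1000 c1000
theorem g1500 : AllGood tbl 1500 := checkFrom_spec r1250 1250 g1250 c1250
theorem g1750 : AllGood tbl 1750 := checkFrom_spec r1500 1500 g1500 c1500
theorem g2000 : AllGood tbl 2000 := checkFrom_spec r1750 1750 g1750 c1750
theorem g2250 : AllGood tbl 2250 := checkFrom_spec r2000 2000 g2000 c2000
theorem g2500 : AllGood tbl 2500 := checkFrom_spec r2250 2250 g2250 c2250
theorem g2750 : AllGood tbl 2750 := checkFrom_spec r2500 2500 g2500 c2500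
theorem g3000 : AllGood tbl 3000 := checkFrom_spec r2750 2750 g2750 c2750
theorem g3250 : AllGood tbl 3250 := checkFrom_spec r3000 3000 g3000 c3000
theorem g3500 : AllGood tbl 3500 := checkFrom_spec r3250 3250 g3250 c3250
theorem g3750 : AllGood tbl 3750 := checkFrom_spec r3500 3500 g3500 c3500
theorem g4000 : AllGood tbl 4000 := checkFrom_spec r3750 3750 g3750 c3750
theorem g4250 : AllGood tbl 4250 := checkFrom_spec r4000 4000 g4000 c4000
theorem g4500 : AllGood tbl 4500 := checkFrom_spec r4250 4250 g4250 c4250
theorem g4750 : AllGood tbl 4750 := checkFrom_spec r4500 4500 g4500 c4500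
theorem g5000 : AllGood tbl 5000 := checkFrom_spec r4750 4750 g4750 c4750
theorem g5250 : AllGood tbl 5250 := checkFrom_spec r5000 5000 g5000 c5000
theorem g5500 : AllGood tbl 5500 := checkFrom_spec r5250 5250 g5250 c5250
theorem g5750 : AllGood tbl 5750 := checkFrom_spec r5500 5500 g5500 c5500
theorem g6000 : AllGood tbl 6000 := checkFrom_spec r5750 5750 g5750 c5750
theorem g6250 : AllGood tbl 6250 := checkFrom_spec r6000 6000 g6000 c6000
theorem g6500 : AllGood tbl 6500 := checkFrom_spec r6250 6250 g6250 c6250
theorem g6750 : AllGood tbl 6750 := checkFrom_spec r6500 6500 g6500 c6500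
theorem g7000 : AllGood tbl 7000 := checkFrom_spec r6750 6750 g6750 c6750
theorem g7250 : AllGood tbl 7250 := checkFrom_spec r7000 7000 g7000 c7000
theorem g7500 : AllGood tbl 7500 := checkFrom_spec r7250 7250 g7250 c7250
theorem g7750 : AllGood tbl 7750 := checkFrom_spec r7500 7500 g7500 c7500
theorem g7956 : AllGood tbl 7956 := checkFrom_spec r7750 7750 g7750 c7750

theorem root_ok : rootChk tbl (nat_lit 7955) = true := by decide +kernel

theorem snaky_wins : Wn 21 ∅ ∅ := root_spec (id := 7955) g7956 root_ok

end Crest.Agent.R035
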