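import Crest.Agent.R035.Game

/-! From the winning predicate to an explicit policy. -/

set_option autoImplicit false

namespace Crest.Agent.R035
open Crest.CombinatoricsR.PolyominoGame

open Classical in
noncomputable def mvOf (d : ℕ) (M B : Finset Cell) : Cell :=
  if h : Wn (d + 1) M B then Classical.choose h else 0

theorem mvOf_spec {d : ℕ} {M B : Finset Cell} (h : Wn (d + 1) M B) :
    mvOf d M B ∉ M ∧ mvOf d M B ∉ B ∧ ∀ y, y ∉ insert (mvOf d M B) M → y ∉ B →
      Wn d (insert (mvOf d M B) M) (insert y B) := by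
  unfold mvOf
  rw [dif_pos h]
  exact Classical.choose_spec h

noncomputable def Bset (b : ℕ → Cell) (k : ℕ) : Finset Cell := (Finset.range k).image b

noncomputable def Mset (b : ℕ → Cell) : ℕ → Finset Cell
  | 0 => ∅
  | k + 1 => insert (mvOf (20 - k) (Mset b k) (Bset b k)) (Mset b k)

theorem Bset_congr {b b' : ℕ → Cell} {k : ℕ} (h : ∀ i < k, b i = b' i) : Bset b k = Bset b' k :=
  Finset.image_congr fun i hi => h i (Finset.mem_range.1 (Finset.mem_coe.1 hi))

theorem Mset_congr {b b' : ℕ → Cell} : ∀ {k : ℕ}, (∀ i < k, b i = b' i) → Mset b k = Mset b' k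
  | 0, _ => rfl
  | k + 1, h => by
      have h' : ∀ i < k, b i = b' i := fun i hi => h i (Nat.lt_succ_of_lt hi)
      simp only [Mset, Mset_congr h', Bset_congr h']

noncomputable def policy (l : List Cell) : Cell :=
  mvOf (20 - l.length) (Mset (fun i => l.getD i 0) l.length) (Bset (fun i => l.getD i 0) l.length)

theorem makerClaim_policy (b : ℕ → Cell) (k : ℕ) :
    makerClaim policy b k = mvOf (20 - k) (Mset b k) (Bset b k) := by
  have h : ∀ i < k, ((List.range k).map b).getD i 0 = b i := by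
    intro i hi
    simp [List.getD, hi]
  simp only [makerClaim, policy, List.length_map, List.length_range]
  rw [Mset_congr h, Bset_congr h]

theorem mem_Mset (b : ℕ → Cell) (c : Cell) : ∀ k : ℕ,
    c ∈ Mset b k ↔ ∃ j < k, c = makerClaim policy b j
  | 0 => by simp [Mset]
  | k + 1 => by
      rw [Mset, Finset.mem_insert, mem_Mset b c k, ← makerClaim_policy]
      constructor
      · rintro (h | ⟨j, hj, h⟩)
        · exact ⟨k, Nat.lt_succ_self _, h⟩
        · exact ⟨j, Nat.lt_succ_of_lt hj, h⟩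
      · rintro ⟨j, hj, h⟩
        rcases Nat.lt_succ_iff_lt_or_eq.1 hj with hj | rfl
        · exact Or.inr ⟨j, hj, h⟩
        · exact Or.inl h

theorem mem_Bset (b : ℕ → Cell) (c : Cell) (k : ℕ) : c ∈ Bset b k ↔ ∃ j < k, b j = c := by
  simp [Bset]

theorem strategy_of_wn (h0 : Wn 21 ∅ ∅) :
    ∃ σ : List (ℤ × ℤ) → ℤ × ℤ, ∀ b : ℕ → ℤ × ℤ,
      (∀ k : ℕ, k < 20 →
        (∀ j : ℕ, j ≤ k → b k ≠ makerClaim σ b j) ∧
        (∀ j : ℕ, j < k → b k ≠ b j)) →
      (∀ k : ℕ, k ≤ 20 →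
        (∀ j : ℕ, j < k → makerClaim σ b k ≠ makerClaim σ b j) ∧
        (∀ j : ℕ, j < k → makerClaim σ b k ≠ b j)) ∧
      ContainsCopy {c | ∃ j : ℕ, j ≤ 20 ∧ c = makerClaim σ b j} := by
  refine ⟨policy, fun b hb => ?_⟩
  have inv : ∀ k : ℕ, k ≤ 20 → Wn (20 - k + 1) (Mset b k) (Bset b k) := by
    intro k
    induction k with
    | zero => intro _; simpa [Mset, Bset] using h0
    | succ k ih =>
      intro hk
      obtain ⟨-, -, h3⟩ := mvOf_spec (ih (by omega))
      obtain ⟨hb1, hb2⟩ := hb k (by omega)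
      have e1 : 20 - (k + 1) + 1 = 20 - k := by omega
      have e2 : Bset b (k + 1) = insert (b k) (Bset b k) := by
        simp [Bset, Finset.range_add_one]
      rw [e1, e2]
      refine h3 (b k) (fun hmem => ?_) (fun hmem => ?_)
      · obtain ⟨j, hj, hj'⟩ := (mem_Mset b (b k) (k + 1)).1 hmem
        exact hb1 j (by omega) hj'
      · obtain ⟨j, hj, hj'⟩ := (mem_Bset b _ k).1 hmem
        exact hb2 j hj hj'.symm
  refine ⟨fun k hk => ?_, ?_⟩
  · obtain ⟨h1, h2, -⟩ := mvOf_spec (inv k hk)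
    rw [← makerClaim_policy] at h1 h2
    exact ⟨fun j hj e => h1 ((mem_Mset b _ k).2 ⟨j, hj, e⟩),
      fun j hj e => h2 ((mem_Bset b _ k).2 ⟨j, hj, e.symm⟩)⟩
  · obtain ⟨-, -, h3⟩ := mvOf_spec (inv 20 le_rfl)
    obtain ⟨y, hy1, hy2⟩ := exists_free (Mset b 21) (Bset b 20)
    have h4 : ContainsCopy (↑(Mset b 21) : Set Cell) := h3 y hy1 hy2
    refine copy_mono (fun c hc => ?_) h4
    obtain ⟨j, hj, hj'⟩ := (mem_Mset b c 21).1 (Finset.mem_coe.1 hc)
    exact ⟨j, by omega, hj'⟩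

end Crest.Agent.R035
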